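import Vale.Agent.P092.H725.SN.GK2
import Vale.Agent.P092.H188.LatP

/-!
P092 (helper725), team N, [SX-GAPK]: instances of `LeviGapK`.  If `E = T · p(S)` with a compact set
`T` commuting with `a` and `S` has the gap, then `E` has the gap with compact means: all finite
products of groups `PGL_n(k)`, in every characteristic.
-/

set_option linter.all false

open scoped InnerProductSpace ENNReal
open Set Filter Topology MeasureTheory ContinuousLinearMap Matrix

namespace Vale.Agent.P092.H725.SN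

open Vale.Agent.P092.H933
open Vale.Agent.P092.RC (GG PG)
open Vale.Agent.P092.SN (bw)
open Vale.Agent.P092.H35 (sp mkP)

/-! ### Convex combinations of the orbit of a vector -/

section orbit

variable {E 𝓗 : Type} [Group E] [TopologicalSpace E] [NormedAddCommGroup 𝓗]
  [InnerProductSpace ℂ 𝓗] [CompleteSpace 𝓗] {σ : E →* (𝓗 →L[ℂ] 𝓗)}

/-- If the `T`-orbit of `v` is the whole orbit and `v` is orthogonal to the fixed vectors, then the
convex combinations of the `T`-orbit come close to zero. -/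
theorem exists_conv (hσ : URep σ) {T : Set E} {v : 𝓗} (hT : ∀ g : E, ∃ t ∈ T, σ g v = σ t v)
    (hv : ∀ η ∈ fixedSub σ, ⟪η, v⟫_ℂ = 0) {ε : ℝ} (hε : 0 < ε) :
    ∃ (p : ℕ) (c : Fin p → ℝ) (l : Fin p → E), (∀ i, 0 ≤ c i) ∧ ∑ i, c i = 1 ∧
      (∀ i, l i ∈ T) ∧ ‖∑ i, (c i : ℂ) • σ (l i) v‖ ≤ ε := by
  obtain ⟨A, hA⟩ : ∃ A : Set 𝓗, A = {y | ∃ t ∈ T, σ t v = y} := ⟨_, rfl⟩
  have hmem : ∀ t ∈ T, σ t v ∈ A := fun t ht => by rw [hA]; exact ⟨t, ht, rfl⟩
  have hne : (convexHull ℝ A).Nonempty := by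
    obtain ⟨t, ht, -⟩ := hT 1
    exact ⟨_, subset_convexHull ℝ A (hmem t ht)⟩
  have hconv : ∀ x ∈ convexHull ℝ A, ∀ y ∈ convexHull ℝ A, ∀ s t : ℝ, 0 ≤ s → 0 ≤ t →
      s + t = 1 → (s : ℂ) • x + (t : ℂ) • y ∈ convexHull ℝ A := by
    intro x hx y hy s t hs ht hst
    rw [Complex.coe_smul, Complex.coe_smul]
    exact convex_convexHull ℝ A hx hy hs ht hst
  have hmap : ∀ (f : 𝓗 →L[ℂ] 𝓗), Convex ℝ {y | f y ∈ convexHull ℝ A} := by
    intro f x hx y hy s t hs ht hst
    change f (s • x + t • y) ∈ convexHull ℝ A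
    rw [← Complex.coe_smul, ← Complex.coe_smul, map_add, map_smul, map_smul]
    exact hconv _ hx _ hy s t hs ht hst
  have hinv : ∀ g, ∀ x ∈ convexHull ℝ A, σ g x ∈ convexHull ℝ A := by
    intro g
    refine convexHull_min (t := {y | σ g y ∈ convexHull ℝ A}) (fun y hy => ?_) (hmap (σ g))
    rw [hA] at hy
    obtain ⟨t, ht, rfl⟩ := hy
    obtain ⟨t', ht', h1⟩ := hT (g * t)
    change σ g (σ t v) ∈ convexHull ℝ A
    rw [← URep.mul_apply, h1]
    exact subset_convexHull ℝ _ (hmem t' ht')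
  have horth : ∀ η ∈ fixedSub σ, ∀ x ∈ convexHull ℝ A, ⟪η, x⟫_ℂ = 0 := by
    intro η hη
    refine convexHull_min (t := {y | ⟪η, y⟫_ℂ = 0}) (fun y hy => ?_) ?_
    · rw [hA] at hy
      obtain ⟨t, ht, rfl⟩ := hy
      change ⟪η, σ t v⟫_ℂ = 0
      have h1 : σ t⁻¹ η = η := hη _
      rw [hσ.inner_right, h1]
      exact hv η hη
    · intro x hx y hy s t hs ht hst
      change ⟪η, s • x + t • y⟫_ℂ = 0
      have hx' : ⟪η, x⟫_ℂ = 0 := hx
      have hy' : ⟪η, y⟫_ℂ = 0 := hy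
      rw [← Complex.coe_smul, ← Complex.coe_smul, inner_add_right, inner_smul_right,
        inner_smul_right, hx', hy', mul_zero, mul_zero, add_zero]
  obtain ⟨ζ, hζ, hζf⟩ := exists_fixed_min hσ.iso hne hconv hinv
  have hζ0 : ζ = 0 := by
    have h1 : ⟪ζ, ζ⟫_ℂ = 0 := by
      have h2 : closure (convexHull ℝ A) ⊆ {y | ⟪ζ, y⟫_ℂ = 0} :=
        closure_minimal (fun x hx => horth ζ hζf x hx)
          (isClosed_eq (continuous_const.inner continuous_id) continuous_const)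
      exact h2 hζ
    exact inner_self_eq_zero.1 h1
  rw [hζ0] at hζ
  obtain ⟨y, hy, hy1⟩ := Metric.mem_closure_iff.1 hζ ε hε
  rw [dist_comm, dist_zero_right] at hy1
  obtain ⟨ι, _, w, z, hw0, hw1, hz, hwz⟩ := mem_convexHull_iff_exists_fintype.1 hy
  rw [hA] at hz
  choose t ht ht1 using hz
  let f := (Fintype.equivFin ι).symm
  refine ⟨Fintype.card ι, fun i => w (f i), fun i => t (f i), fun i => hw0 _, ?_,
    fun i => ht _, ?_⟩
  · rw [← hw1]
    exact Equiv.sum_comp f w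
  · have e : ∑ i, ((w (f i) : ℝ) : ℂ) • σ (t (f i)) v = y := by
      rw [← hwz, ← Equiv.sum_comp f fun i => w i • z i]
      refine Finset.sum_congr rfl fun i _ => ?_
      rw [ht1, Complex.coe_smul]
    rw [e]
    exact hy1.le

end orbit

/-- **`LeviGapK` from a subgroup**: `E = T · p(S)`, `T` compact and commuting with `a`. -/
theorem leviGapK_cover {S E : Type} [Group S] [TopologicalSpace S] [Group E] [TopologicalSpace E]
    [ContinuousMul E] (p : S →* E) (hp : Continuous p) {T : Set E} (hT : IsCompact T)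
    (hc : ∀ e : E, ∃ t ∈ T, ∃ s : S, e = t * p s) {a : E} (hTa : ∀ t ∈ T, Commute t a)
    {b : S} (hb : LeviGapK b) (hba : ∀ l, Commute l b → Commute (p l) a) : LeviGapK a := by
  intro 𝓗 _ _ _ σ hσ e he
  have hσp : URep (σ.comp p) := hσ.comp p hp.continuousAt
  obtain ⟨C, hC, hl, hl'⟩ := hb 𝓗 (σ.comp p) hσp (e / 2) (by positivity)
  refine ⟨(fun x : E × E => x.1 * x.2) '' (T ×ˢ (p '' C)),
    (hT.prod (hC.image hp)).image continuous_mul, ?_, fun v hv => ?_⟩
  · rintro _ ⟨⟨t, x⟩, ⟨ht, ⟨l, hl1, rfl⟩⟩, rfl⟩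
    exact (hTa t ht).mul_left (hba l (hl l hl1))
  -- the projection on the vectors fixed by `S`
  obtain ⟨P, hP⟩ : ∃ P : 𝓗 →L[ℂ] 𝓗, P = (fixedSub (σ.comp p)).starProjection := ⟨_, rfl⟩
  have hPmem : ∀ w, P w ∈ fixedSub (σ.comp p) := fun w => by
    rw [hP]; exact Submodule.starProjection_apply_mem _ _
  have hPorth : ∀ w, ∀ η ∈ fixedSub (σ.comp p), ⟪η, w - P w⟫_ℂ = 0 := fun w η hη => by
    have h1 : ⟪w - (fixedSub (σ.comp p)).starProjection w, η⟫_ℂ = 0 :=
      Submodule.starProjection_inner_eq_zero w η hη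
    rw [hP, ← inner_conj_symm, h1, map_zero]
  have hPsub : ∀ w, ‖w - P w‖ ≤ ‖w‖ := by
    intro w
    have h1 : ⟪P w, w - P w⟫_ℂ = 0 := hPorth w _ (hPmem w)
    have h2 : ‖w‖ * ‖w‖ = ‖P w‖ * ‖P w‖ + ‖w - P w‖ * ‖w - P w‖ := by
      have := norm_add_sq_eq_norm_sq_add_norm_sq_of_inner_eq_zero (𝕜 := ℂ) (P w) (w - P w) h1
      rwa [add_sub_cancel] at this
    have h3 := mul_self_nonneg ‖P w‖
    nlinarith [norm_nonneg w, norm_nonneg (w - P w)]
  -- first family
  obtain ⟨m, c, l, hc0, hc1, hlC, h1⟩ := hl' (v - P v) fun η hη => hPorth v η hη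
  -- second family
  have hPo : ∀ η ∈ fixedSub σ, ⟪η, P v⟫_ℂ = 0 := by
    intro η hη
    have h2 := hPorth v η fun s => hη (p s)
    rw [inner_sub_right, hv η hη, zero_sub, neg_eq_zero] at h2
    exact h2
  have hPT : ∀ g : E, ∃ t ∈ T, σ g (P v) = σ t (P v) := by
    intro g
    obtain ⟨t, ht, s, rfl⟩ := hc g
    refine ⟨t, ht, ?_⟩
    rw [URep.mul_apply]
    exact congrArg _ (hPmem v s)
  have key : ∃ (m' : ℕ) (d : Fin m' → ℝ) (z : Fin m' → E), (∀ i, 0 ≤ d i) ∧ ∑ i, d i = 1 ∧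
      (∀ i, z i ∈ T) ∧ ‖∑ i, (d i : ℂ) • σ (z i) (P v)‖ ≤ e / 2 * ‖v‖ := by
    by_cases hv0 : v = 0
    · obtain ⟨t, ht, -⟩ := hc 1
      refine ⟨1, fun _ => 1, fun _ => t, fun _ => zero_le_one, by simp, fun _ => ht, ?_⟩
      rw [hv0, map_zero]
      simp
    · have hpos : 0 < e / 2 * ‖v‖ := by
        have := norm_pos_iff.2 hv0
        positivity
      exact exists_conv hσ hPT hPo hpos
  obtain ⟨m', d, z, hd0, hd1, hzT, h2⟩ := key
  let f := (finProdFinEquiv (m := m') (n := m)).symm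
  refine ⟨m' * m, fun i => d (f i).1 * c (f i).2, fun i => z (f i).1 * p (l (f i).2),
    fun i => mul_nonneg (hd0 _) (hc0 _), ?_, fun i => ⟨(z (f i).1, p (l (f i).2)),
      ⟨hzT _, ⟨_, hlC _, rfl⟩⟩, rfl⟩, ?_⟩
  · rw [Equiv.sum_comp f fun q : Fin m' × Fin m => d q.1 * c q.2, Fintype.sum_prod_type]
    simp only [← Finset.mul_sum, hc1, mul_one]
    exact hd1
  have hc1' : ∑ i, (c i : ℂ) = 1 := by
    rw [← Complex.ofReal_sum, hc1, Complex.ofReal_one]
  have e1 : ∑ i, ((d (f i).1 * c (f i).2 : ℝ) : ℂ) • σ (z (f i).1 * p (l (f i).2)) v =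
      ∑ j, (d j : ℂ) • σ (z j) (∑ i, (c i : ℂ) • (σ.comp p) (l i) (v - P v)) +
        ∑ j, (d j : ℂ) • σ (z j) (P v) := by
    rw [Equiv.sum_comp f fun q : Fin m' × Fin m =>
      ((d q.1 * c q.2 : ℝ) : ℂ) • σ (z q.1 * p (l q.2)) v, Fintype.sum_prod_type,
      ← Finset.sum_add_distrib]
    refine Finset.sum_congr rfl fun j _ => ?_
    rw [← smul_add, ← map_add]
    have e2 : ∑ i, (c i : ℂ) • (σ.comp p) (l i) (v - P v) + P v =
        ∑ i, (c i : ℂ) • (σ.comp p) (l i) v := by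
      have e3 : ∀ i, (c i : ℂ) • (σ.comp p) (l i) (v - P v) =
          (c i : ℂ) • (σ.comp p) (l i) v - (c i : ℂ) • P v := by
        intro i
        rw [map_sub, hPmem v (l i), smul_sub]
      simp only [e3]
      rw [Finset.sum_sub_distrib, ← Finset.sum_smul, hc1', one_smul, sub_add_cancel]
    rw [e2, map_sum, Finset.smul_sum]
    refine Finset.sum_congr rfl fun i _ => ?_
    rw [map_smul, smul_smul, URep.mul_apply, Complex.ofReal_mul]
    rfl
  rw [e1]
  refine (norm_add_le _ _).trans ?_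
  have b1 : ‖∑ j, (d j : ℂ) • σ (z j) (∑ i, (c i : ℂ) • (σ.comp p) (l i) (v - P v))‖ ≤
      e / 2 * ‖v‖ := by
    refine (norm_sum_le _ _).trans ?_
    calc ∑ j, ‖(d j : ℂ) • σ (z j) (∑ i, (c i : ℂ) • (σ.comp p) (l i) (v - P v))‖
        ≤ ∑ j, d j * (e / 2 * ‖v‖) := by
          refine Finset.sum_le_sum fun j _ => ?_
          rw [norm_smul, Complex.norm_real, Real.norm_of_nonneg (hd0 j), hσ.iso]
          refine mul_le_mul_of_nonneg_left (h1.trans ?_) (hd0 j)
          exact mul_le_mul_of_nonneg_left (hPsub v) (by positivity)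
      _ = e / 2 * ‖v‖ := by rw [← Finset.sum_mul, hd1, one_mul]
  linarith

/-! ### Products of groups `PGL_n(k)` -/

section pgl

/-- the compact set of diagonal classes which covers the quotient of `PGL` by the image of `SL` -/
theorem exists_diag {k : Type} [NontriviallyNormedField k] [ProperSpace k] (N : ℕ) :
    ∃ T : Set (PG k (N + 1)), IsCompact T ∧ (∀ e : PG k (N + 1), ∃ t ∈ T,
      ∃ s : SpecialLinearGroup (Fin (N + 1)) k, e = t * sp k (N + 1) s) ∧
      ∀ t ∈ T, ∃ d : Fin (N + 1) → k, ∃ g : GL (Fin (N + 1)) k, g.1 = diagonal d ∧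
        t = mkP k (N + 1) g := by
  obtain ⟨c, hc⟩ := NormedField.exists_one_lt_norm k
  refine ⟨(fun u : kˣ => (QuotientGroup.mk (H188.LatP.dg (0 : Fin (N + 1)) u) : PG k (N + 1))) ''
    {u : kˣ | 1 ≤ ‖(u : k)‖ ∧ ‖(u : k)‖ ≤ ‖c‖ ^ (N + 1)}, ?_, ?_, ?_⟩
  · exact (H188.LatP.compact_units _).image
      (QuotientGroup.continuous_mk.comp (H188.LatP.cont_dg 0))
  · intro e
    induction e using QuotientGroup.induction_on with
    | H g =>
      obtain ⟨u, hu, s, hs⟩ := H188.LatP.eq_dg_mul hc le_rfl (0 : Fin (N + 1)) g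
      exact ⟨_, ⟨u, hu, rfl⟩, s, hs⟩
  · rintro _ ⟨u, hu, rfl⟩
    exact ⟨_, H188.LatP.dg 0 u, rfl, rfl⟩

/-- diagonal classes commute with the wall element -/
theorem comm_bw {k : Type} [NontriviallyNormedField k] {N : ℕ} (w : kˣ) {d : Fin (N + 1) → k}
    {g : GL (Fin (N + 1)) k} (hg : g.1 = diagonal d) :
    Commute (mkP k (N + 1) g) (sp k (N + 1) (bw w)) := by
  have h1 : Commute g (SpecialLinearGroup.toGL (bw w : GG k N)) := by
    apply Units.ext
    obtain ⟨d', hd'⟩ : ∃ d' : Fin (N + 1) → k, (bw w : GG k N).1 = diagonal d' := ⟨_, rfl⟩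
    change g.1 * (bw w : GG k N).1 = (bw w : GG k N).1 * g.1
    rw [hg, hd', diagonal_mul_diagonal, diagonal_mul_diagonal]
    congr 1
    funext i
    exact mul_comm _ _
  exact h1.map (mkP k (N + 1))

variable {J : Type} [Finite J] [DecidableEq J] (k : J → Type)
  [∀ j, NontriviallyNormedField (k j)] [∀ j, ProperSpace (k j)] (N : J → ℕ)

/-- **the wall elements of `∏ PGL_(N j + 1)(k j)`**, all characteristics -/
theorem leviGapK_PG (hk : ∀ j, LocK (k j)) (hN : ∀ j, 2 ≤ N j) (j : J) (w : (k j)ˣ) :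
    LeviGapK (((MonoidHom.mulSingle (fun i => PG (k i) (N i + 1)) j).comp
      (sp (k j) (N j + 1))) (bw w)) := by
  choose T hT hc hd using fun i => exists_diag (k := k i) (N i)
  let p : (∀ i, GG (k i) (N i)) →* ∀ i, PG (k i) (N i + 1) :=
    Pi.monoidHom fun i => (sp (k i) (N i + 1)).comp (Pi.evalMonoidHom _ i)
  have hp : Continuous p := continuous_pi fun i => H35.sp_cont.comp (continuous_apply i)
  have hpb : p (MonoidHom.mulSingle (fun i => GG (k i) (N i)) j (bw w)) =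
      ((MonoidHom.mulSingle (fun i => PG (k i) (N i + 1)) j).comp (sp (k j) (N j + 1))) (bw w) := by
    funext i
    change sp (k i) (N i + 1) (Pi.mulSingle (M := fun i => GG (k i) (N i)) j
      (bw w : GG (k j) (N j)) i) =
      Pi.mulSingle (M := fun i => PG (k i) (N i + 1)) j (sp (k j) (N j + 1) (bw w)) i
    by_cases hij : i = j
    · subst hij
      rw [Pi.mulSingle_eq_same, Pi.mulSingle_eq_same]
    · rw [Pi.mulSingle_eq_of_ne hij, Pi.mulSingle_eq_of_ne hij, map_one]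
  refine leviGapK_cover p hp (T := Set.pi univ T) (isCompact_univ_pi hT) ?_ ?_
    (leviGapK_of (leviGap_SLP hk hN j w)) fun l hl => ?_
  · intro e
    choose t ht s hs using fun i => hc i (e i)
    exact ⟨t, fun i _ => ht i, s, funext hs⟩
  · intro t ht
    refine Pi.commute_iff.2 fun i => ?_
    change Commute (t i) (Pi.mulSingle (M := fun i => PG (k i) (N i + 1)) j
      (sp (k j) (N j + 1) (bw w)) i)
    by_cases hij : i = j
    · subst hij
      rw [Pi.mulSingle_eq_same]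
      obtain ⟨d, g, hg, hg1⟩ := hd i (t i) (ht i (mem_univ i))
      rw [hg1]
      exact comm_bw w hg
    · rw [Pi.mulSingle_eq_of_ne hij]
      exact Commute.one_right _
  · rw [← hpb]
    exact hl.map p

/-- `PGL_(N + 1)(k)` -/
theorem leviGapK_pgl {k : Type} [NontriviallyNormedField k] [ProperSpace k] {N : ℕ} (hk : LocK k)
    (hN : 2 ≤ N) (w : kˣ) : LeviGapK (sp k (N + 1) (bw w)) := by
  obtain ⟨T, hT, hc, hd⟩ := exists_diag (k := k) N
  refine leviGapK_cover (sp k (N + 1)) H35.sp_cont hT hc (fun t ht => ?_)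
    (leviGapK_of (leviGap_bw hk hN w)) fun l hl => hl.map _
  obtain ⟨d, g, hg, rfl⟩ := hd t ht
  exact comm_bw w hg

end pgl

end Vale.Agent.P092.H725.SN
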