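import Vale.Agent.P092.H725.GrowN

/-!
P092 (helper725), team N, [SX-GAPK]: the growth lemma for convex combinations of conjugations which
may depend on the operator, as long as all the elements of the group stay in a set `C` (which
commutes with `a`) whose elements have uniformly bounded sizes; this covers compact sets.
-/

set_option linter.all false

open Filter Topology ContinuousLinearMap
open scoped InnerProductSpace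

namespace Vale.Agent.P092.H221.Gr

variable {K : Type*} [NormedAddCommGroup K] [InnerProductSpace ℂ K] [CompleteSpace K]
  {H : Type*} [Group H] {π : H →* (K →L[ℂ] K)} {M : StarSubalgebra ℂ (K →L[ℂ] K)} {Ω : K}
  {F : ℕ → Submodule ℂ K}

/-- every operator of the unit ball of `M` has a convex combination of conjugates by elements of
`C` which is close to its trace -/
def GapC (π : H →* (K →L[ℂ] K)) (M : StarSubalgebra ℂ (K →L[ℂ] K)) (Ω : K) (C : Set H)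
    (η : ℝ) : Prop :=
  ∀ x ∈ M, ‖x‖ ≤ 1 → ∃ (p : ℕ) (c : Fin p → ℝ) (l : Fin p → H), (∀ i, 0 ≤ c i) ∧
    ∑ i, c i = 1 ∧ (∀ i, l i ∈ C) ∧
    ‖(∑ i, (c i : ℂ) • (π (l i) * x * π (l i)⁻¹)) Ω - ⟪Ω, x Ω⟫_ℂ • Ω‖ ≤ η

/-- the elements of `C` and their inverses have size at most `J`, up to `ε` -/
def KapC (π : H →* (K →L[ℂ] K)) (M : StarSubalgebra ℂ (K →L[ℂ] K)) (Ω : K)
    (F : ℕ → Submodule ℂ K) (C : Set H) (J : ℕ) (ε : ℝ) : Prop :=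
  ∀ l ∈ C, (∃ Z ∈ CC π M Ω F J l, ‖(Z - 1) Ω‖ ≤ ε) ∧ ∃ Z ∈ CC π M Ω F J l⁻¹, ‖(Z - 1) Ω‖ ≤ ε

namespace GrD

variable (D : GrD π M Ω F)

include D

theorem cc_conv {J : ℕ} {h : H} {p : ℕ} {c : Fin p → ℝ} (hc0 : ∀ i, 0 ≤ c i)
    (hc1 : ∑ i, c i = 1) {Z : Fin p → K →L[ℂ] K} (hZ : ∀ i, Z i ∈ CC π M Ω F J h) :
    ∑ i, (c i : ℂ) • Z i ∈ CC π M Ω F J h := by
  refine ⟨sum_mem fun i _ => M.smul_mem (hZ i).1 _, ?_, ?_⟩
  · refine (norm_sum_le _ _).trans ?_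
    rw [← hc1]
    refine Finset.sum_le_sum fun i _ => ?_
    rw [norm_smul, Complex.norm_real, Real.norm_of_nonneg (hc0 i)]
    exact mul_le_of_le_one_right (hc0 i) (hZ i).2.1
  · rw [sum_apply]
    refine Submodule.sum_mem _ fun i _ => ?_
    rw [smul_apply]
    exact Submodule.smul_mem _ _ (hZ i).2.2

/-- One doubling; the mean may depend on the operator. -/
theorem doubleK {b : H} {C : Set H} (hl : ∀ l ∈ C, Commute l b) {δ η ε : ℝ} (hδ0 : 0 ≤ δ)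
    (hδ : δ ≤ 1 / 12) (gap : GapC π M Ω C η) {J₀ : ℕ} (hK : KapC π M Ω F C J₀ ε)
    {J : ℕ} {Z : K →L[ℂ] K} (hZ : Z ∈ CC π M Ω F J b) (hZ1 : 1 - δ ≤ (⟪Ω, Z Ω⟫_ℂ).re) :
    ∃ Y ∈ CC π M Ω F (6 * J + 12 * J₀) (b * b),
      1 - (6 * δ ^ 2 + 6 * (η + 2 * ε)) ≤ (⟪Ω, Y Ω⟫_ℂ).re := by
  classical
  -- rotate the phase
  set τ := ⟪Ω, Z Ω⟫_ℂ with hτ
  set t : ℝ := ‖τ‖ with ht
  have ht1 : t ≤ 1 := D.norm_trace_le hZ.2.1
  have htδ : 1 - δ ≤ t := hZ1.trans (Complex.re_le_norm _)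
  have ht0 : 0 < t := by linarith
  have hc : ‖(starRingEnd ℂ) τ / (t : ℂ)‖ ≤ 1 := by
    rw [norm_div, RCLike.norm_conj, Complex.norm_real, Real.norm_of_nonneg ht0.le, ← ht,
      div_self ht0.ne']
  set Z₁ := ((starRingEnd ℂ) τ / (t : ℂ)) • Z with hZ₁
  have hZ₁m : Z₁ ∈ CC π M Ω F J b := D.cc_smul hZ hc
  have hτ1 : ⟪Ω, Z₁ Ω⟫_ℂ = (t : ℂ) := by
    rw [hZ₁, smul_apply, inner_smul_right, ← hτ]
    have h1 : (starRingEnd ℂ) τ * τ = ((t : ℂ)) ^ 2 := by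
      rw [mul_comm, Complex.mul_conj, Complex.normSq_eq_norm_sq, ← ht]
      push_cast
      rfl
    have h2 : (t : ℂ) ≠ 0 := by exact_mod_cast ht0.ne'
    rw [div_mul_eq_mul_div, h1]
    field_simp
  -- the mean for this operator
  obtain ⟨p, c, l, hc0, hc1, hlC, hgap⟩ := gap Z₁ hZ₁m.1 hZ₁m.2.1
  have hKl : ∀ i, ∃ Z ∈ CC π M Ω F J₀ (l i), ‖(Z - 1) Ω‖ ≤ ε := fun i => (hK _ (hlC i)).1
  have hKl' : ∀ i, ∃ Z ∈ CC π M Ω F J₀ (l i)⁻¹, ‖(Z - 1) Ω‖ ≤ ε := fun i => (hK _ (hlC i)).2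
  -- conjugate
  choose A hA hA1 using hKl
  choose B hB hB1 using hKl'
  set W : Fin p → K →L[ℂ] K := fun i => A i * (π (l i) * (Z₁ * (π b * B i * π b⁻¹)) * π (l i)⁻¹)
    with hW
  have hWc : ∀ i, W i ∈ CC π M Ω F (J + 2 * J₀) b := fun i => by
    have h1 := D.cc_mul (hA i) (D.cc_mul hZ₁m (hB i))
    have h2 : l i * (b * (l i)⁻¹) = b := by
      rw [← mul_assoc, (hl _ (hlC i)).eq, mul_inv_cancel_right]
    rw [h2] at h1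
    exact D.cc_mono (by omega) h1
  have hWn : ∀ i, ‖(W i - π (l i) * Z₁ * π (l i)⁻¹) Ω‖ ≤ 2 * ε := fun i => by
    have hb1 : π b * (1 : K →L[ℂ] K) * π b⁻¹ = 1 := by rw [mul_one, D.pi_mul_inv]
    have e1 : W i - π (l i) * Z₁ * π (l i)⁻¹ =
        (A i - 1) * (π (l i) * (Z₁ * (π b * B i * π b⁻¹)) * π (l i)⁻¹) +
          π (l i) * (Z₁ * (π b * (B i - 1) * π b⁻¹)) * π (l i)⁻¹ := by
      rw [hW]
      simp only [mul_sub, sub_mul]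
      rw [hb1]
      simp only [mul_one, one_mul]
      abel
    have hB1M : B i - 1 ∈ M := sub_mem (hB i).1 (one_mem _)
    rw [e1, add_apply]
    refine (norm_add_le _ _).trans ?_
    have m1 : π b * B i * π b⁻¹ ∈ M := D.Ad _ _ (hB i).1
    have m2 : π (l i) * (Z₁ * (π b * B i * π b⁻¹)) * π (l i)⁻¹ ∈ M :=
      D.Ad _ _ (mul_mem hZ₁m.1 m1)
    have c1 : ‖π (l i) * (Z₁ * (π b * B i * π b⁻¹)) * π (l i)⁻¹‖ ≤ 1 := by
      refine (D.norm_Ad_le _ _).trans ((norm_mul_le _ _).trans ?_)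
      exact mul_le_one₀ hZ₁m.2.1 (norm_nonneg _) ((D.norm_Ad_le _ _).trans (hB i).2.1)
    have n1 : ‖((A i - 1) * (π (l i) * (Z₁ * (π b * B i * π b⁻¹)) * π (l i)⁻¹)) Ω‖ ≤ ε := by
      refine (D.norm_mul_le_right (sub_mem (hA i).1 (one_mem _)) m2).trans ?_
      exact (mul_le_of_le_one_right (norm_nonneg _) c1).trans (hA1 i)
    have n2 : ‖(π (l i) * (Z₁ * (π b * (B i - 1) * π b⁻¹)) * π (l i)⁻¹) Ω‖ ≤ ε := by
      rw [D.norm_Ad (mul_mem hZ₁m.1 (D.Ad _ _ hB1M))]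
      refine (D.norm_mul_le_left _ _).trans ?_
      rw [D.norm_Ad hB1M]
      exact (mul_le_of_le_one_left (norm_nonneg _) hZ₁m.2.1).trans (hB1 i)
    linarith
  -- the mean
  set X := ∑ i, (c i : ℂ) • W i with hX
  have hXc : X ∈ CC π M Ω F (J + 2 * J₀) b := D.cc_conv hc0 hc1 hWc
  have hXn : ‖(X - (t : ℂ) • (1 : K →L[ℂ] K)) Ω‖ ≤ η + 2 * ε := by
    have e1 : (X - (t : ℂ) • (1 : K →L[ℂ] K)) Ω =
        (∑ i, (c i : ℂ) • (W i - π (l i) * Z₁ * π (l i)⁻¹)) Ω +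
        ((∑ i, (c i : ℂ) • (π (l i) * Z₁ * π (l i)⁻¹)) Ω - ⟪Ω, Z₁ Ω⟫_ℂ • Ω) := by
      rw [hτ1]
      simp only [smul_sub]
      rw [Finset.sum_sub_distrib, ← hX]
      simp only [sub_apply, smul_apply, one_apply_eq_self]
      abel
    rw [e1]
    refine (norm_add_le _ _).trans ?_
    have n2 : ‖(∑ i, (c i : ℂ) • (W i - π (l i) * Z₁ * π (l i)⁻¹)) Ω‖ ≤ 2 * ε := by
      rw [sum_apply]
      refine (norm_sum_le _ _).trans ?_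
      calc ∑ i, ‖((c i : ℂ) • (W i - π (l i) * Z₁ * π (l i)⁻¹)) Ω‖ ≤ ∑ i, c i * (2 * ε) := by
            refine Finset.sum_le_sum fun i _ => ?_
            rw [smul_apply, norm_smul, Complex.norm_real, Real.norm_of_nonneg (hc0 i)]
            exact mul_le_mul_of_nonneg_left (hWn i) (hc0 i)
        _ = 2 * ε := by rw [← Finset.sum_mul, hc1, one_mul]
    linarith
  -- the product
  have hXb : ‖(π b * X * π b⁻¹ - (t : ℂ) • (1 : K →L[ℂ] K)) Ω‖ ≤ η + 2 * ε := by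
    have e1 : π b * X * π b⁻¹ - (t : ℂ) • (1 : K →L[ℂ] K) =
        π b * (X - (t : ℂ) • (1 : K →L[ℂ] K)) * π b⁻¹ := by
      have e2 : π b * ((t : ℂ) • (1 : K →L[ℂ] K)) * π b⁻¹ = (t : ℂ) • (1 : K →L[ℂ] K) := by
        rw [mul_smul_comm, smul_mul_assoc, mul_one, D.pi_mul_inv]
      rw [mul_sub, sub_mul, e2]
    rw [e1, D.norm_Ad (sub_mem hXc.1 (M.smul_mem (one_mem _) _))]
    exact hXn
  have hPc := D.cc_mul hXc hXc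
  have hPn := D.norm_sub_scalar_mul hXc.1 (D.Ad b X hXc.1) ((D.norm_Ad_le b X).trans hXc.2.1)
    ht0.le ht1 hXn hXb
  -- Newton
  have hs0 : 0 ≤ t ^ 2 := sq_nonneg _
  have hs1 : t ^ 2 ≤ 1 := by nlinarith
  have hYn := D.norm_nw_sub hPc.1 hPc.2.1 hs0 hs1
  have hYc := D.cc_nw hPc
  refine ⟨_, D.cc_mono (by omega) hYc, ?_⟩
  set Y := nw (X * (π b * X * π b⁻¹)) with hY
  set f : ℝ := 3 / 2 * t ^ 2 - 1 / 2 * (t ^ 2) ^ 3 with hf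
  have r1 : |(⟪Ω, (Y - (f : ℂ) • (1 : K →L[ℂ] K)) Ω⟫_ℂ).re| ≤ 6 * (η + 2 * ε) := by
    refine (Complex.abs_re_le_norm _).trans ((norm_inner_le_norm _ _).trans ?_)
    rw [D.one, one_mul]
    linarith
  have r2 : (⟪Ω, (Y - (f : ℂ) • (1 : K →L[ℂ] K)) Ω⟫_ℂ).re = (⟪Ω, Y Ω⟫_ℂ).re - f := by
    rw [sub_apply, smul_apply, one_apply_eq_self, inner_sub_right, inner_smul_right,
      inner_self_eq_norm_sq_to_K, D.one]
    simp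
  rw [r2] at r1
  have r3 := (abs_le.mp r1).1
  have s1 : 1 - 2 * δ ≤ t ^ 2 := by nlinarith
  have r4 : 1 - 6 * δ ^ 2 ≤ f := by
    have h1 : 1 - f = (1 - t ^ 2) ^ 2 * (1 + t ^ 2 / 2) := by rw [hf]; ring
    have h2 : (1 - t ^ 2) ^ 2 ≤ (2 * δ) ^ 2 := by
      apply pow_le_pow_left₀ (by linarith)
      linarith
    have h3 : (1 - t ^ 2) ^ 2 * (1 + t ^ 2 / 2) ≤ (2 * δ) ^ 2 * (3 / 2) := by
      apply mul_le_mul h2 (by linarith) (by positivity) (by positivity)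
    nlinarith
  nlinarith

/-- One step: from `b` to `b b a`. -/
theorem odd_stepK {b a : H} {C : Set H} (hl : ∀ l ∈ C, Commute l b) {δ η ε : ℝ} (hδ0 : 0 ≤ δ)
    (hδ : δ ≤ 1 / 24) (hη : η + 2 * ε ≤ δ / 24) (hε : ε ≤ δ / 2) (gap : GapC π M Ω C η)
    {J₀ : ℕ} (hK : KapC π M Ω F C J₀ ε)
    (hA : ∃ Z ∈ CC π M Ω F J₀ a, ‖(Z - 1) Ω‖ ≤ ε)
    {J : ℕ} {Z : K →L[ℂ] K} (hZ : Z ∈ CC π M Ω F J b) (hZ1 : 1 - δ ≤ (⟪Ω, Z Ω⟫_ℂ).re) :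
    (∃ Y ∈ CC π M Ω F (6 * J + 13 * J₀) (b * b), 1 - δ ≤ (⟪Ω, Y Ω⟫_ℂ).re) ∧
      ∃ Y ∈ CC π M Ω F (6 * J + 13 * J₀) (b * b * a), 1 - δ ≤ (⟪Ω, Y Ω⟫_ℂ).re := by
  obtain ⟨Y, hY, hY1⟩ := D.doubleK hl hδ0 (by linarith) gap hK hZ hZ1
  have hY2 : 1 - δ / 2 ≤ (⟪Ω, Y Ω⟫_ℂ).re := by
    have h1 : 6 * δ ^ 2 ≤ δ / 4 := by nlinarith
    linarith
  refine ⟨⟨Y, D.cc_mono (by omega) hY, by linarith⟩, ?_⟩
  obtain ⟨A, hA, hA1⟩ := hA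
  refine ⟨Y * (π (b * b) * A * π (b * b)⁻¹), D.cc_mono (by omega) (D.cc_mul hY hA), ?_⟩
  have hb1 : π (b * b) * (1 : K →L[ℂ] K) * π (b * b)⁻¹ = 1 := by rw [mul_one, D.pi_mul_inv]
  have e1 : Y * (π (b * b) * A * π (b * b)⁻¹) - Y = Y * (π (b * b) * (A - 1) * π (b * b)⁻¹) := by
    rw [mul_sub, sub_mul, hb1, mul_sub, mul_one]
  have h1 : ‖(Y * (π (b * b) * A * π (b * b)⁻¹) - Y) Ω‖ ≤ ε := by
    rw [e1]
    refine (D.norm_mul_le_left _ _).trans ?_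
    rw [D.norm_Ad (sub_mem hA.1 (one_mem _))]
    exact (mul_le_of_le_one_left (norm_nonneg _) hY.2.1).trans hA1
  have h2 := D.re_tr_sub h1
  linarith

/-- The growth lemma for all exponents, iterated. -/
theorem growth_iterNK {a : H} {C : Set H} (hl : ∀ l ∈ C, Commute l a) {δ η ε : ℝ} (hδ0 : 0 ≤ δ)
    (hδ : δ ≤ 1 / 24) (hη : η + 2 * ε ≤ δ / 24) (hε : ε ≤ δ / 2) (gap : GapC π M Ω C η)
    {J₀ : ℕ} (hK : KapC π M Ω F C J₀ ε)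
    (hA : ∃ Z ∈ CC π M Ω F J₀ a, ‖(Z - 1) Ω‖ ≤ ε) (n : ℕ) (hn : 1 ≤ n) :
    ∃ J, J + 3 * J₀ ≤ 4 * J₀ * n ^ 3 ∧
      ∃ Y ∈ CC π M Ω F J (a ^ n), 1 - δ ≤ (⟪Ω, Y Ω⟫_ℂ).re := by
  induction n using Nat.strong_induction_on with
  | _ n ih =>
    rcases Nat.eq_or_lt_of_le hn with h1 | h1
    · subst h1
      obtain ⟨Z, hZ, hZ1⟩ := hA
      refine ⟨J₀, by omega, Z, by rwa [pow_one], ?_⟩
      have h2 := D.re_tr_sub hZ1
      have h3 : (⟪Ω, (1 : K →L[ℂ] K) Ω⟫_ℂ).re = 1 := by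
        rw [one_apply_eq_self, inner_self_eq_norm_sq_to_K, D.one]
        simp
      rw [h3] at h2
      linarith
    · have hm : 1 ≤ n / 2 := by omega
      obtain ⟨J, hJ, Y, hY, hY1⟩ := ih (n / 2) (by omega) hm
      have hl' : ∀ l ∈ C, Commute l (a ^ (n / 2)) := fun l h => (hl l h).pow_right _
      obtain ⟨h2, h3⟩ := D.odd_stepK hl' hδ0 hδ hη hε gap hK hA hY hY1
      have hcube : 8 * (n / 2) ^ 3 ≤ n ^ 3 := by
        have h4 : 2 * (n / 2) ≤ n := Nat.mul_div_le n 2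
        calc 8 * (n / 2) ^ 3 = (2 * (n / 2)) ^ 3 := by ring
          _ ≤ n ^ 3 := Nat.pow_le_pow_left h4 3
      have hsz : 6 * J + 13 * J₀ + 3 * J₀ ≤ 4 * J₀ * n ^ 3 := by
        have h5 : 1 ≤ (n / 2) ^ 3 := Nat.one_le_pow _ _ hm
        have h6 : J₀ ≤ J₀ * (n / 2) ^ 3 := Nat.le_mul_of_pos_right _ h5
        have h7 : 4 * J₀ * (8 * (n / 2) ^ 3) ≤ 4 * J₀ * n ^ 3 := Nat.mul_le_mul_left _ hcube
        have h8 : 4 * J₀ * (8 * (n / 2) ^ 3) = 32 * (J₀ * (n / 2) ^ 3) := by ring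
        have h9 : 4 * J₀ * (n / 2) ^ 3 = 4 * (J₀ * (n / 2) ^ 3) := by ring
        rw [h9] at hJ
        omega
      refine ⟨6 * J + 13 * J₀, hsz, ?_⟩
      rcases Nat.even_or_odd n with he | ho
      · obtain ⟨Y', hY', hY'1⟩ := h2
        refine ⟨Y', ?_, hY'1⟩
        have e : a ^ (n / 2) * a ^ (n / 2) = a ^ n := by
          rw [← pow_add]
          congr 1
          have := Nat.even_iff.1 he
          omega
        rwa [e] at hY'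
      · obtain ⟨Y', hY', hY'1⟩ := h3
        refine ⟨Y', ?_, hY'1⟩
        have e : a ^ (n / 2) * a ^ (n / 2) * a = a ^ n := by
          rw [← pow_add, ← pow_succ]
          congr 1
          have := Nat.odd_iff.1 ho
          omega
        rwa [e] at hY'

/-- **The growth lemma for all exponents.** -/
theorem growth_allK {a : H}
    (gap : ∀ η : ℝ, 0 < η → ∃ C : Set H, (∀ l ∈ C, Commute l a) ∧
      (∀ ε : ℝ, 0 < ε → ∃ J, KapC π M Ω F C J ε) ∧ GapC π M Ω C η)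
    (kapa : ∀ ε : ℝ, 0 < ε → ∃ J, ∃ Z ∈ CC π M Ω F J a, ‖(Z - 1) Ω‖ ≤ ε)
    {ε : ℝ} (hε : 0 < ε) :
    ∃ C : ℕ, ∀ n : ℕ, 1 ≤ n → ∃ Z ∈ CC π M Ω F (C * n ^ 3) (a ^ n), ‖(Z - 1) Ω‖ ≤ ε := by
  classical
  obtain ⟨δ, hδ0, hδ, hδε⟩ : ∃ δ : ℝ, 0 < δ ∧ δ ≤ 1 / 24 ∧ 2 * δ ≤ ε ^ 2 := by
    refine ⟨min (1 / 24) (ε ^ 2 / 2), by positivity, min_le_left _ _, ?_⟩
    have := min_le_right (1 / 24 : ℝ) (ε ^ 2 / 2)
    linarith
  obtain ⟨C, hl, hkap, hgap⟩ := gap (δ / 48) (by positivity)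
  obtain ⟨J₁, hJ₁⟩ := hkap (δ / 96) (by positivity)
  obtain ⟨J₂, Za, hZa, hZa1⟩ := kapa (δ / 96) (by positivity)
  refine ⟨4 * (J₁ + J₂), fun n hn => ?_⟩
  obtain ⟨J, hJk, Y, hY, hY1⟩ := D.growth_iterNK (C := C) hl hδ0.le hδ
    (η := δ / 48) (ε := δ / 96) (by linarith) (by linarith) hgap (J₀ := J₁ + J₂)
    (fun l hlC => by
      obtain ⟨⟨A, hA, hA1⟩, B, hB, hB1⟩ := hJ₁ l hlC
      exact ⟨⟨A, D.cc_mono (Nat.le_add_right _ _) hA, hA1⟩,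
        B, D.cc_mono (Nat.le_add_right _ _) hB, hB1⟩)
    ⟨Za, D.cc_mono (Nat.le_add_left _ _) hZa, hZa1⟩ n hn
  refine ⟨Y, D.cc_mono (by omega) hY, ?_⟩
  have h3 := D.norm_sub_one hY.2.1
  have h4 : ‖(Y - 1) Ω‖ ^ 2 ≤ ε ^ 2 := by linarith
  exact le_of_pow_le_pow_left₀ two_ne_zero hε.le h4

/-- a unitary of `M` has norm at most one -/
theorem norm_un_le {u : K →L[ℂ] K} (hu1 : star u * u = 1) : ‖u‖ ≤ 1 := by
  have h1 : ‖u‖ * ‖u‖ ≤ 1 := by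
    rw [← CStarRing.norm_star_mul_self, hu1]
    exact ContinuousLinearMap.norm_id_le
  nlinarith [norm_nonneg u]

/-- The growth lemma for vectors and all exponents. -/
theorem growth_vec_allK {a : H}
    (gap : ∀ η : ℝ, 0 < η → ∃ C : Set H, (∀ l ∈ C, Commute l a) ∧
      (∀ ε : ℝ, 0 < ε → ∃ J, KapC π M Ω F C J ε) ∧ GapC π M Ω C η)
    (kapa : ∀ ε : ℝ, 0 < ε → ∃ J, ∃ Z ∈ CC π M Ω F J a, ‖(Z - 1) Ω‖ ≤ ε)
    {ε : ℝ} (hε : 0 < ε) :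
    ∃ C : ℕ, ∀ n : ℕ, 1 ≤ n → ∃ v ∈ F (C * n ^ 3), ‖π (a ^ n) Ω - v‖ ≤ ε := by
  obtain ⟨C, hC⟩ := D.growth_allK gap kapa hε
  refine ⟨C, fun k hk => ?_⟩
  obtain ⟨Z, hZ, hZ1⟩ := hC k hk
  refine ⟨Z (π (a ^ k) Ω), hZ.2.2, ?_⟩
  obtain ⟨u, hu, hu1, hu2, hu3⟩ := D.un (a ^ k)
  have e1 : π (a ^ k) Ω - Z (π (a ^ k) Ω) = -(((Z - 1) * u) Ω) := by
    rw [ContinuousLinearMap.mul_apply, hu3, sub_apply, one_apply_eq_self]
    abel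
  rw [e1, norm_neg]
  refine (D.norm_mul_le_right (sub_mem hZ.1 (one_mem _)) hu).trans ?_
  exact (mul_le_of_le_one_right (norm_nonneg _) (D.norm_un_le hu1)).trans hZ1

/-! ### Compact sets -/

/-- elements close to `h` have the size of `h`, up to a small error -/
theorem kap_near {h u : H} {J J₁ : ℕ} {ε₁ ε₂ ε₃ : ℝ}
    (hZ : ∃ Z ∈ CC π M Ω F J h, ‖(Z - 1) Ω‖ ≤ ε₁) (hZ₁ : ∃ Z ∈ CC π M Ω F J₁ 1, ‖(Z - 1) Ω‖ ≤ ε₂)
    (hu : ‖π u Ω - Ω‖ ≤ ε₃) :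
    ∃ Z ∈ CC π M Ω F (J + J₁) (h * u), ‖(Z - 1) Ω‖ ≤ ε₁ + (ε₂ + ε₃) := by
  obtain ⟨Z, hZ, hZ1⟩ := hZ
  obtain ⟨Y, hY, hY1⟩ := hZ₁
  obtain ⟨v, hv, hv1, hv2, hv3⟩ := D.un u
  have hsv : ‖star v‖ ≤ 1 := by rw [_root_.norm_star]; exact D.norm_un_le hv1
  have hvn : ‖(star v - 1) Ω‖ ≤ ε₃ := by
    have h1 := D.norm_star (sub_mem hv (one_mem M))
    rw [star_sub, star_one] at h1
    rw [h1, sub_apply, one_apply_eq_self, hv3]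
    exact hu
  -- the element for `u`
  have hX : Y * star v ∈ CC π M Ω F J₁ u := by
    refine ⟨mul_mem hY.1 (star_mem hv), (norm_mul_le _ _).trans
      (mul_le_one₀ hY.2.1 (norm_nonneg _) hsv), ?_⟩
    have e : (Y * star v) (π u Ω) = Y (π 1 Ω) := by
      rw [← hv3]
      change Y ((star v * v) Ω) = _
      rw [hv1, map_one]
    rw [e]
    exact hY.2.2
  have hXn : ‖(Y * star v - 1) Ω‖ ≤ ε₂ + ε₃ := by
    have e : (Y * star v - 1) Ω = (Y - 1) Ω + (Y * (star v - 1)) Ω := by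
      rw [mul_sub, mul_one]
      simp only [sub_apply]
      abel
    rw [e]
    refine (norm_add_le _ _).trans (add_le_add hY1 ?_)
    refine (D.norm_mul_le_left _ _).trans ?_
    exact (mul_le_of_le_one_left (norm_nonneg _) hY.2.1).trans hvn
  refine ⟨_, D.cc_mul hZ hX, ?_⟩
  obtain ⟨X, hXe⟩ : ∃ X, X = Y * star v := ⟨_, rfl⟩
  rw [← hXe] at hX hXn ⊢
  have hb1 : π h * (1 : K →L[ℂ] K) * π h⁻¹ = 1 := by rw [mul_one, D.pi_mul_inv]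
  have e : (Z * (π h * X * π h⁻¹) - 1) Ω = (Z - 1) Ω + (Z * (π h * (X - 1) * π h⁻¹)) Ω := by
    have e1 : Z * (π h * (X - 1) * π h⁻¹) = Z * (π h * X * π h⁻¹) - Z := by
      rw [mul_sub, sub_mul, hb1, mul_sub, mul_one]
    rw [e1]
    simp only [sub_apply]
    abel
  rw [e]
  refine (norm_add_le _ _).trans (add_le_add hZ1 ?_)
  refine (D.norm_mul_le_left _ _).trans ?_
  rw [D.norm_Ad (sub_mem hX.1 (one_mem _))]
  exact (mul_le_of_le_one_left (norm_nonneg _) hZ.2.1).trans hXn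

/-- **the sizes are bounded on compact sets** -/
theorem kap_cpt' [TopologicalSpace H] [IsTopologicalGroup H]
    (cont : Tendsto (fun g => π g Ω) (𝓝 1) (𝓝 Ω))
    (kap : ∀ h : H, ∀ ε : ℝ, 0 < ε → ∃ J, ∃ Z ∈ CC π M Ω F J h, ‖(Z - 1) Ω‖ ≤ ε)
    {C : Set H} (hC : IsCompact C) {ε : ℝ} (hε : 0 < ε) :
    ∃ J, ∀ l ∈ C, ∃ Z ∈ CC π M Ω F J l, ‖(Z - 1) Ω‖ ≤ ε := by
  obtain ⟨J₁, hJ₁⟩ := kap 1 (ε / 3) (by positivity)
  have h1 : ∀ᶠ u in 𝓝 (1 : H), ‖π u Ω - Ω‖ ≤ ε / 3 := by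
    have h2 : Tendsto (fun g => ‖π g Ω - Ω‖) (𝓝 1) (𝓝 0) := by
      have := (cont.sub_const Ω).norm
      rwa [sub_self, norm_zero] at this
    exact (h2.eventually_lt_const (show (0 : ℝ) < ε / 3 by positivity)).mono fun _ h => h.le
  refine hC.induction_on (p := fun S => ∃ J, ∀ l ∈ S, ∃ Z ∈ CC π M Ω F J l, ‖(Z - 1) Ω‖ ≤ ε)
    ⟨0, fun l hl => absurd hl (Set.notMem_empty l)⟩ ?_ ?_ ?_
  · rintro S T hST ⟨J, hJ⟩
    exact ⟨J, fun l hl => hJ l (hST hl)⟩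
  · rintro S T ⟨J, hJ⟩ ⟨J', hJ'⟩
    refine ⟨max J J', fun l hl => ?_⟩
    rcases hl with hl | hl
    · obtain ⟨Z, hZ, hZ1⟩ := hJ l hl
      exact ⟨Z, D.cc_mono (le_max_left _ _) hZ, hZ1⟩
    · obtain ⟨Z, hZ, hZ1⟩ := hJ' l hl
      exact ⟨Z, D.cc_mono (le_max_right _ _) hZ, hZ1⟩
  · intro h hh
    obtain ⟨J, hJ⟩ := kap h (ε / 3) (by positivity)
    have h3 : ∀ᶠ l in 𝓝 h, ‖π (h⁻¹ * l) Ω - Ω‖ ≤ ε / 3 := by
      have h4 : Tendsto (fun l : H => h⁻¹ * l) (𝓝 h) (𝓝 1) := by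
        have := (continuous_const_mul h⁻¹).tendsto h
        rwa [inv_mul_cancel] at this
      exact h4.eventually h1
    refine ⟨{l | ‖π (h⁻¹ * l) Ω - Ω‖ ≤ ε / 3}, mem_nhdsWithin_of_mem_nhds h3, J + J₁,
      fun l hl => ?_⟩
    have h5 := D.kap_near hJ hJ₁ hl
    rw [mul_inv_cancel_left] at h5
    obtain ⟨Z, hZ, hZ1⟩ := h5
    exact ⟨Z, hZ, hZ1.trans (by linarith)⟩

theorem kap_cpt [TopologicalSpace H] [IsTopologicalGroup H]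
    (cont : Tendsto (fun g => π g Ω) (𝓝 1) (𝓝 Ω))
    (kap : ∀ h : H, ∀ ε : ℝ, 0 < ε → ∃ J, ∃ Z ∈ CC π M Ω F J h, ‖(Z - 1) Ω‖ ≤ ε)
    {C : Set H} (hC : IsCompact C) (ε : ℝ) (hε : 0 < ε) : ∃ J, KapC π M Ω F C J ε := by
  obtain ⟨J, hJ⟩ := D.kap_cpt' cont kap hC hε
  obtain ⟨J', hJ'⟩ := D.kap_cpt' cont kap hC.inv hε
  refine ⟨max J J', fun l hl => ⟨?_, ?_⟩⟩
  · obtain ⟨Z, hZ, hZ1⟩ := hJ l hl
    exact ⟨Z, D.cc_mono (le_max_left _ _) hZ, hZ1⟩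
  · obtain ⟨Z, hZ, hZ1⟩ := hJ' l⁻¹ (Set.inv_mem_inv.2 hl)
    exact ⟨Z, D.cc_mono (le_max_right _ _) hZ, hZ1⟩

/-- **The growth lemma, compact means.** -/
theorem growth_cpt [TopologicalSpace H] [IsTopologicalGroup H]
    (cont : Tendsto (fun g => π g Ω) (𝓝 1) (𝓝 Ω)) {a : H}
    (gap : ∀ η : ℝ, 0 < η → ∃ C : Set H, IsCompact C ∧ (∀ l ∈ C, Commute l a) ∧ GapC π M Ω C η)
    (kap : ∀ h : H, ∀ ε : ℝ, 0 < ε → ∃ J, ∃ Z ∈ CC π M Ω F J h, ‖(Z - 1) Ω‖ ≤ ε)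
    {ε : ℝ} (hε : 0 < ε) :
    ∃ C : ℕ, ∀ n : ℕ, 1 ≤ n → ∃ v ∈ F (C * n ^ 3), ‖π (a ^ n) Ω - v‖ ≤ ε :=
  D.growth_vec_allK (fun η hη => by
    obtain ⟨C, hC, hl, hg⟩ := gap η hη
    exact ⟨C, hl, fun ε hε => D.kap_cpt cont kap hC ε hε, hg⟩) (fun ε hε => kap a ε hε) hε

end GrD

end Vale.Agent.P092.H221.Gr
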