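import Vale.Agent.P092.H725.SN.Leg2
import Vale.Agent.P092.H725.SN.GK1

/-!
P092 (helper725), team N, [SX-GAPK]: `LeviGapK`, the gap with means over a compact set which may
depend on the vector.  It holds for groups with infinite compact abelian quotients, for example
`PGL_n(k)`, `char k ∣ n`, where `LeviGap` fails.  Sizes of both legs of the frame model, every
lattice of every group, from `LeviGapK`.
-/

set_option linter.all false

open scoped InnerProductSpace ENNReal LinearAlgebra.Projectivization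
open Set Filter Topology MeasureTheory ContinuousLinearMap Matrix

namespace Vale.Agent.P092.H725.SN

open Vale.Agent.P092.H790 Vale.Agent.P092.H85
open Vale.Agent.P092.H160 Vale.Agent.P092.H933 Vale.Agent.P092.H368 Vale.Agent.P092.H103
open Vale.Agent.P092.SD (Ms UC)
open Vale.Agent.P092.H725
open Vale.Agent.P092.SR Vale.Agent.P092.H839
open Vale.Agent.P092.RC (Cm KK pic lam₁ lam₂ XX Om GG PG YY ct)
open Vale.Agent.P092.SN (nm bw PH Adm un)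
open Vale.Agent.P092.H790.CTA (SIZEG ORBG)
open Vale.Agent.P092.H368.SN (Spr md md_pos md_nonneg md_lt_one)
open Vale.Agent.P092.H221.Gr (GapC)

/-! ### The gap with compact means -/

/-- On the complement of the fixed vectors, convex combinations of elements of a compact set which
commutes with `a` contract; the combination may depend on the vector. -/
def LeviGapK {E : Type} [Group E] [TopologicalSpace E] (a : E) : Prop :=
  ∀ (𝓗 : Type) [NormedAddCommGroup 𝓗] [InnerProductSpace ℂ 𝓗] [CompleteSpace 𝓗]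
    (σ : E →* (𝓗 →L[ℂ] 𝓗)), URep σ → ∀ e : ℝ, 0 < e →
    ∃ C : Set E, IsCompact C ∧ (∀ l ∈ C, Commute l a) ∧
      ∀ v : 𝓗, (∀ η ∈ fixedSub σ, ⟪η, v⟫_ℂ = 0) →
        ∃ (p : ℕ) (c : Fin p → ℝ) (l : Fin p → E), (∀ i, 0 ≤ c i) ∧ ∑ i, c i = 1 ∧
          (∀ i, l i ∈ C) ∧ ‖∑ i, (c i : ℂ) • σ (l i) v‖ ≤ e * ‖v‖

/-- the gap with finite means is stronger -/
theorem leviGapK_of {E : Type} [Group E] [TopologicalSpace E] {a : E} (h : LeviGap a) :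
    LeviGapK a := by
  intro 𝓗 _ _ _ σ hσ e he
  obtain ⟨p, hp, l, hl, hl'⟩ := h 𝓗 σ hσ e he
  have hp' : (p : ℝ) ≠ 0 := by exact_mod_cast hp.ne'
  refine ⟨Set.range l, (Set.finite_range l).isCompact, ?_, fun v hv =>
    ⟨p, fun _ => (p : ℝ)⁻¹, l, fun _ => by positivity, ?_, fun i => ⟨i, rfl⟩, ?_⟩⟩
  · rintro _ ⟨i, rfl⟩
    exact hl i
  · rw [Finset.sum_const, Finset.card_univ, Fintype.card_fin, nsmul_eq_mul,
      mul_inv_cancel₀ hp']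
  · have h1 := hl' v hv
    rw [Finset.smul_sum] at h1
    push_cast
    exact h1

theorem LeviGapK.inv {E : Type} [Group E] [TopologicalSpace E] {a : E} (h : LeviGapK a) :
    LeviGapK a⁻¹ := by
  intro 𝓗 _ _ _ σ hσ e he
  obtain ⟨C, hC, hl, hl'⟩ := h 𝓗 σ hσ e he
  exact ⟨C, hC, fun l h => (hl l h).inv_right, hl'⟩

theorem LeviGapK.conj {E : Type} [Group E] [TopologicalSpace E] [IsTopologicalGroup E] {a : E}
    (h : LeviGapK a) (g : E) : LeviGapK (g * a * g⁻¹) := by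
  intro 𝓗 _ _ _ σ hσ e he
  obtain ⟨C, hC, hl, hl'⟩ := h 𝓗 σ hσ e he
  refine ⟨(fun l => g * l * g⁻¹) '' C, hC.image (by fun_prop), ?_, fun v hv => ?_⟩
  · rintro _ ⟨l, hlC, rfl⟩
    have h1 : l * a = a * l := hl l hlC
    show g * l * g⁻¹ * (g * a * g⁻¹) = g * a * g⁻¹ * (g * l * g⁻¹)
    have e1 : g * l * g⁻¹ * (g * a * g⁻¹) = g * (l * a) * g⁻¹ := by group
    have e2 : g * a * g⁻¹ * (g * l * g⁻¹) = g * (a * l) * g⁻¹ := by group
    rw [e1, e2, h1]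
  · obtain ⟨p, c, l, hc0, hc1, hlC, h2⟩ := hl' (σ g⁻¹ v) (fun η hη => by
      rw [hσ.inner_right, hη]
      exact hv η hη)
    refine ⟨p, c, fun i => g * l i * g⁻¹, hc0, hc1, fun i => ⟨l i, hlC i, rfl⟩, ?_⟩
    rw [hσ.iso] at h2
    refine le_trans (le_of_eq ?_) h2
    have e1 : ∑ i, (c i : ℂ) • σ (g * l i * g⁻¹) v =
        σ g (∑ i, (c i : ℂ) • σ (l i) (σ g⁻¹ v)) := by
      rw [map_sum]
      simp only [map_smul, URep.mul_apply]
    rw [e1, hσ.iso]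

/-! ### The growth lemma gives sizes -/

section sz

variable {E Γ K : Type} [Group E] [TopologicalSpace E] [IsTopologicalGroup E] [Group Γ]
  [NormedAddCommGroup K] [InnerProductSpace ℂ K]
  [CompleteSpace K] {lam : Γ →* (K →L[ℂ] K)} {W : Set (K →L[ℂ] K)} {Ω : K}
  {m : Set Γ → (K →L[ℂ] K)} {π : E →* (K →L[ℂ] K)} {a : E} {σ : Γ → ℝ}

/-- `SZ3` from the growth lemma with compact means -/
theorem sz3_ofK (hM : Ms lam W Ω m) {F : ℕ → Submodule ℂ K} {M : StarSubalgebra ℂ (K →L[ℂ] K)}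
    (D : H221.Gr.GrD π M Ω F) (cont : Tendsto (fun g => π g Ω) (𝓝 1) (𝓝 Ω))
    (hF : ∀ J : ℕ, ∀ v ∈ F J, m {γ | Real.exp J < σ γ} v = 0)
    (gap : ∀ g : E, ∀ η : ℝ, 0 < η → ∃ C : Set E, IsCompact C ∧
      (∀ l ∈ C, Commute l (g * a * g⁻¹)⁻¹) ∧ GapC π M Ω C η)
    (kap : ∀ h : E, ∀ ε : ℝ, 0 < ε → ∃ J, ∃ Z ∈ H221.Gr.CC π M Ω F J h, ‖(Z - 1) Ω‖ ≤ ε) :
    SZ3 a π Ω m σ := by
  intro g ε hε
  obtain ⟨C, hC⟩ := D.growth_cpt cont (gap g) kap hε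
  -- also for `N = 0`
  obtain ⟨C', hC'⟩ := D.growth_cpt cont (a := (1 : E)) (by
    intro η hη
    obtain ⟨C, hCc, hl, hg⟩ := gap g η hη
    exact ⟨C, hCc, fun l _ => Commute.one_right _, hg⟩) kap hε
  refine ⟨max C C', fun N => ?_⟩
  have key : ∃ v ∈ F (max C C' * (N + 1) ^ 3), ‖π (g * a ^ N * g⁻¹)⁻¹ Ω - v‖ ≤ ε := by
    have e : (g * a ^ N * g⁻¹)⁻¹ = ((g * a * g⁻¹)⁻¹) ^ N := by rw [inv_pow, conj_pow]
    rcases Nat.eq_zero_or_pos N with h0 | h0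
    · obtain ⟨v, hv, hv1⟩ := hC' 1 le_rfl
      refine ⟨v, D.mono ?_ hv, ?_⟩
      · rw [h0]; simp
      · rw [e, h0, pow_zero]
        rwa [pow_one] at hv1
    · obtain ⟨v, hv, hv1⟩ := hC N h0
      refine ⟨v, D.mono ?_ hv, ?_⟩
      · exact Nat.mul_le_mul (le_max_left _ _) (Nat.pow_le_pow_left (Nat.le_succ N) 3)
      · rw [e]; exact hv1
  obtain ⟨v, hv, hv1⟩ := key
  have h3 : m {γ | Real.exp ((max C C' * (N + 1) ^ 3 : ℕ) : ℝ) < σ γ} (π (g * a ^ N * g⁻¹)⁻¹ Ω) =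
      m {γ | Real.exp ((max C C' * (N + 1) ^ 3 : ℕ) : ℝ) < σ γ}
        (π (g * a ^ N * g⁻¹)⁻¹ Ω - v) := by
    rw [map_sub, hF _ v hv, sub_zero]
  rw [h3]
  exact (H458.Size.ms_norm_le hM _ _).trans hv1

end sz

/-! ### The gap of the finite algebra -/

section gap

variable {E : Type} [Group E] [TopologicalSpace E] [IsTopologicalGroup E] [LocallyCompactSpace E]
  [SecondCountableTopology E] [T2Space E] [MeasurableSpace E] [BorelSpace E]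
  {Λ : Subgroup E} [DiscreteTopology Λ] [MeasurableSpace (E ⧸ Λ)] [BorelSpace (E ⧸ Λ)]
  {ν : Measure (E ⧸ Λ)} [IsProbabilityMeasure ν]
  (hν : ∀ g : E, ν.map (fun x => g • x) = ν)
  {Γ K : Type} [Group Γ] [NormedAddCommGroup K] [InnerProductSpace ℂ K] [CompleteSpace K]
  {ρ : Γ →* (K →L[ℂ] K)} {ω : K} [Countable Λ] [Countable Γ]
  {V : Λ →* (K →L[ℂ] K)} (hVa : ∀ v, adjoint (V v) = V v⁻¹)

include hVa in
/-- **the gap hypothesis of the growth lemma, every lattice, compact means** -/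
theorem gap_finK (h : RegRep ρ ω) (hc : ∀ v, Cmm ρ (V v))
    (hirr : ∀ A : K →L[ℂ] K, Cmm ρ A → Cmm V A → ∃ c : ℂ, A = c • 1)
    {a : E} (ha : LeviGapK a) (η : ℝ) (hη : 0 < η) :
    ∃ C : Set E, IsCompact C ∧ (∀ l ∈ C, Commute l a) ∧
      GapC (irep hν hVa) (FinM ν h.adj) (Lp.const 2 ν ω) C η := by
  have hU := sg_urep hν hVa h hc
  obtain ⟨C, hC, hl, hl'⟩ := ha (Lp K 2 ν) (sg hν hVa h hc) hU (η / 2) (by positivity)
  refine ⟨C, hC, hl, fun x hx hx1 => ?_⟩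
  obtain ⟨Ω, hΩ⟩ : ∃ Ω : Lp K 2 ν, Ω = Lp.const 2 ν ω := ⟨_, rfl⟩
  obtain ⟨p, c, l, hc0, hc1, hlC, h1⟩ := hl' (x Ω - ⟪Ω, x Ω⟫_ℂ • Ω) (fun w hw => by
    rw [hΩ]
    exact sg_orth' hν hVa h hc hirr hx hw)
  refine ⟨p, c, l, hc0, hc1, hlC, ?_⟩
  have hΩ1 : ‖Ω‖ = 1 := by rw [hΩ]; exact norm_const h
  have hxΩ : ‖x Ω‖ ≤ 1 := by
    refine (x.le_opNorm _).trans ?_
    rw [hΩ1, mul_one]; exact hx1
  have h2 : ‖x Ω - ⟪Ω, x Ω⟫_ℂ • Ω‖ ≤ 2 := by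
    refine (norm_sub_le _ _).trans ?_
    rw [norm_smul, hΩ1, mul_one]
    have h3 : ‖⟪Ω, x Ω⟫_ℂ‖ ≤ 1 := by
      refine (norm_inner_le_norm _ _).trans ?_
      rw [hΩ1, one_mul]; exact hxΩ
    linarith
  have hfix : ∀ g, sg hν hVa h hc g Ω = Ω := by
    intro g
    have h1 := sg_apply hν hVa h hc g (T := 1) (one_mem _)
    rw [mul_one, ← map_mul, mul_inv_cancel, map_one] at h1
    rw [hΩ]
    exact h1
  have hc1' : ∑ i, (c i : ℂ) = 1 := by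
    rw [← Complex.ofReal_sum, hc1, Complex.ofReal_one]
  have e : (∑ i, (c i : ℂ) • (irep hν hVa (l i) * x * irep hν hVa (l i)⁻¹)) Ω -
      ⟪Ω, x Ω⟫_ℂ • Ω = ∑ i, (c i : ℂ) • sg hν hVa h hc (l i) (x Ω - ⟪Ω, x Ω⟫_ℂ • Ω) := by
    have e1 : ∀ i, sg hν hVa h hc (l i) (x Ω - ⟪Ω, x Ω⟫_ℂ • Ω) =
        (irep hν hVa (l i) * x * irep hν hVa (l i)⁻¹) Ω - ⟪Ω, x Ω⟫_ℂ • Ω := by
      intro i
      rw [map_sub, map_smul, hfix, hΩ, sg_apply hν hVa h hc (l i) hx]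
    simp only [e1, smul_sub]
    rw [Finset.sum_sub_distrib, ← Finset.sum_smul, hc1', one_smul, _root_.sum_apply]
    rfl
  rw [← hΩ, e]
  calc _ ≤ η / 2 * ‖x Ω - ⟪Ω, x Ω⟫_ℂ • Ω‖ := h1
    _ ≤ η / 2 * 2 := by gcongr
    _ = η := by ring

end gap

/-! ### Polynomial sizes -/

section conc

variable {E : Type} [Group E] [TopologicalSpace E] [IsTopologicalGroup E] [LocallyCompactSpace E]
  [SecondCountableTopology E] [T2Space E] [MeasurableSpace E] [BorelSpace E]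
  {Λ : Subgroup E} [DiscreteTopology Λ] [MeasurableSpace (E ⧸ Λ)] [BorelSpace (E ⧸ Λ)]
  {ν : Measure (E ⧸ Λ)} [IsProbabilityMeasure ν]
  (hν : ∀ g : E, ν.map (fun x => g • x) = ν) [Countable Λ]
  {Γ Γ₂ K : Type} [Group Γ] [Group Γ₂] [Countable Γ] [Countable Γ₂] [NormedAddCommGroup K]
  [InnerProductSpace ℂ K] [CompleteSpace K] {ρ : Γ × Γ₂ →* (K →L[ℂ] K)} {ω : K}
  {V : Λ →* (K →L[ℂ] K)}

/-- **Polynomial sizes** for the concrete picture, every lattice, compact means. -/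
theorem sz3_lpK (h : RegRep ρ ω) (hVa : ∀ v, adjoint (V v) = V v⁻¹) (hc : ∀ v, Cmm ρ (V v))
    (hirr : ∀ A : K →L[ℂ] K, Cmm ρ A → Cmm V A → ∃ c : ℂ, A = c • 1)
    (b : HilbertBasis (Γ × Γ₂) ℂ K) (hb : ∀ p, b p = ρ p ω)
    {lam : Γ →* (Lp K 2 ν →L[ℂ] Lp K 2 ν)} {W : Set (Lp K 2 ν →L[ℂ] Lp K 2 ν)}
    (hM : Ms lam W (Lp.const 2 ν ω) (mm ν b Prod.fst))
    {D : ℕ → Set Γ} (hD : Flt D) {σ : Γ → ℝ} (hσ : ∀ J γ, γ ∈ D J → σ γ ≤ Real.exp J)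
    {a : E} (ha : LeviGapK a) :
    SZ3 a (irep hν hVa) (Lp.const 2 ν ω) (mm ν b Prod.fst) σ := by
  have hD' : Flt (fun J => (MonoidHom.fst Γ Γ₂) ⁻¹' D J) := hD.comap _
  refine sz3_ofK hM (grD hν hVa h hc hD') ((irep_crep hν hVa).cont _) ?_ ?_ ?_
  · intro J v hv
    refine mm_eq_zero b Prod.fst fun i hi => ?_
    rw [hb]
    exact mem_SzV.1 hv i fun hmem => absurd (hσ J _ hmem) (not_le.2 hi)
  · intro g η hη
    exact gap_finK hν hVa h hc hirr (ha.conj g).inv η hη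
  · intro g ε hε
    exact kap_gl hν h hVa hc hD' g hε

end conc

section model

variable {E : Type} [Group E] [TopologicalSpace E] [IsTopologicalGroup E] [LocallyCompactSpace E]
  [SecondCountableTopology E] [T2Space E] [MeasurableSpace E] [BorelSpace E]
  {Γ : Subgroup E} [DiscreteTopology Γ] [Countable Γ] [MeasurableSpace (E ⧸ Γ)]
  [BorelSpace (E ⧸ Γ)] {ν : Measure (E ⧸ Γ)} [IsProbabilityMeasure ν]
  (hν : ∀ g : E, ν.map (fun x => g • x) = ν)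
  {Λ : Type} [Group Λ] {α : Γ →* (Ell2 Λ →L[ℂ] Ell2 Λ)} (hα : Frame α)
  (hΛ : ∀ s : Λ, s ≠ 1 → Set.Infinite {y : Λ | ∃ h, y = h * s * h⁻¹})

include hΛ

section

variable {lam : Γ →* (KK ν Λ →L[ℂ] KK ν Λ)} {W : Set (KK ν Λ →L[ℂ] KK ν Λ)}
  (b : HilbertBasis (Γ × Γ) ℂ (Ell2 (Λ × Λ)))

/-- **Polynomial sizes, frame model, first leg, compact means.** -/
theorem sz3₁K (hb : ∀ γ s, b (γ, s) = RR₁ α γ (RR₂ α s (dl 1)))
    (hM : Ms lam W (Om ν Λ) (mm ν b Prod.fst))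
    {D : ℕ → Set Γ} (hD : Flt D) {σ : Γ → ℝ} (hσ : ∀ J γ, γ ∈ D J → σ γ ≤ Real.exp J)
    {a : E} (ha : LeviGapK a) :
    SZ3 a (pic hν hα) (Om ν Λ) (mm ν b Prod.fst) σ :=
  sz3_lpK hν (regRep_RR hα) (adj_VV hα) (cmm_RR_VV hα) (irr_RR hα hΛ) b
    (by rintro ⟨g, h⟩; rw [hb, RR_eq]; rfl) hM hD hσ ha

/-- **Polynomial sizes, frame model, second leg, compact means.** -/
theorem sz3₂K (hb : ∀ γ s, b (γ, s) = RR₂ α γ (RR₁ α s (dl 1)))
    (hM : Ms lam W (Om ν Λ) (mm ν b Prod.fst))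
    {D : ℕ → Set Γ} (hD : Flt D) {σ : Γ → ℝ} (hσ : ∀ J γ, γ ∈ D J → σ γ ≤ Real.exp J)
    {a : E} (ha : LeviGapK a) :
    SZ3 a (pic hν hα) (Om ν Λ) (mm ν b Prod.fst) σ :=
  sz3_lpK hν (regRep_RRs hα) (adj_VV hα) (cmm_RRs_VV hα) (irr_RRs hα hΛ) b
    (by rintro ⟨g, h⟩; rw [hb, RRs_eq]; rfl) hM hD hσ ha

end

variable {k : Type} [NontriviallyNormedField k] {N : ℕ}

/-- **sizes, first leg, compact means**: any target field -/
theorem sizeNK₁ {q : Γ → GG k N} (hq : PH q) {b : E} (hb : LeviGapK b) :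
    SIZEG b (pic hν hα) (Om ν Λ) (mS₁ ν hα) (fun γ => nm (q γ)) ∧
    SIZEG b (pic hν hα) (Om ν Λ) (mS₁ ν hα) (fun γ => nm (ct (q γ))) := by
  have h1 : SZ3 b (pic hν hα) (Om ν Λ) (mS₁ ν hα) (szq q) :=
    sz3₁K hν hα hΛ (bF₁ hα) (bF₁_ap hα) (ms₁ hα) (flt_Dq hq) (Dq_le hq) hb
  exact ⟨(h1.mono (ms₁ hα) fun γ => le_max_left _ _).exp_exp (ms₁ hα),
    (h1.mono (ms₁ hα) fun γ => le_max_right _ _).exp_exp (ms₁ hα)⟩

/-- **sizes, second leg, compact means** -/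
theorem sizeNK₂ {q : Γ → GG k N} (hq : PH q) {b : E} (hb : LeviGapK b) :
    SIZEG b (pic hν hα) (Om ν Λ) (mS₂ ν hα) (fun γ => nm (q γ)) ∧
    SIZEG b (pic hν hα) (Om ν Λ) (mS₂ ν hα) (fun γ => nm (ct (q γ))) := by
  have h1 : SZ3 b (pic hν hα) (Om ν Λ) (mS₂ ν hα) (szq q) :=
    sz3₂K hν hα hΛ (bF₂ hα) (bF₂_ap hα) (ms₂ hα) (flt_Dq hq) (Dq_le hq) hb
  exact ⟨(h1.mono (ms₂ hα) fun γ => le_max_left _ _).exp_exp (ms₂ hα),
    (h1.mono (ms₂ hα) fun γ => le_max_right _ _).exp_exp (ms₂ hα)⟩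

end model

/-! ### The six fields -/

section legb2

variable {kS : Type} [NontriviallyNormedField kS] [ProperSpace kS] [MeasurableSpace kS]
  [BorelSpace kS] {μ : Measure kS} [μ.IsAddHaarMeasure] {N M : ℕ}
  {k : Type} [NontriviallyNormedField k]
  {E : Type} [Group E] [TopologicalSpace E] [IsTopologicalGroup E] [LocallyCompactSpace E]
  [SecondCountableTopology E] [T2Space E] [MeasurableSpace E] [BorelSpace E]
  {ι : GG kS N →* E} {a a' : E →* PG kS (N + 1)}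
  {Γ : Subgroup E} [DiscreteTopology Γ] [Countable Γ] [MeasurableSpace (E ⧸ Γ)]
  [BorelSpace (E ⧸ Γ)] {ν : Measure (E ⧸ Γ)} [IsProbabilityMeasure ν]
  (hν : ∀ g : E, ν.map (fun x => g • x) = ν)
  {Λ : Type} [Group Λ] {α : Γ →* (Ell2 Λ →L[ℂ] Ell2 Λ)} (hα : Frame α)
  (hΛ : ∀ s : Λ, s ≠ 1 → Set.Infinite {y : Λ | ∃ h, y = h * s * h⁻¹})

omit [ProperSpace kS] [MeasurableSpace kS] [BorelSpace kS] [IsTopologicalGroup E]
  [LocallyCompactSpace E] [SecondCountableTopology E] [T2Space E] [MeasurableSpace E]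
  [BorelSpace E] in
theorem gapK_ct {w : kSˣ} (ha : LeviGapK (ι (bw w))) : LeviGapK (ι (ct (bw w))) := by
  rw [ct_bw, map_inv]; exact ha.inv

include hΛ

/-- **the six fields, two fields, first leg, compact means** -/
theorem legB2K₁ (h : Adm ι a a') {w : kSˣ} (hw : ‖(w : kS)‖ < 1) {q : Γ → GG k M} (hq : PH q)
    (ha : LeviGapK (ι (bw w))) :
    LegB2 μ w ι (pic hν hα) (lam₁ ν α) (XX ν Λ ∪ Set.range (lam₂ ν α)) (Om ν Λ) (mS₁ ν hα) q where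
  ms := ms₁ hα
  uc := uc₁ hν hα
  orb := fun hj => (orbN₁ hν hα h hw hj).1
  orb' := fun hj => (orbN₁ hν hα h hw hj).2
  size := (sizeNK₁ hν hα hΛ hq ha).1
  size' := (sizeNK₁ hν hα hΛ hq (gapK_ct ha)).2

/-- **the six fields, two fields, second leg, compact means** -/
theorem legB2K₂ (h : Adm ι a a') {w : kSˣ} (hw : ‖(w : kS)‖ < 1) {q : Γ → GG k M} (hq : PH q)
    (ha : LeviGapK (ι (bw w))) :
    LegB2 μ w ι (pic hν hα) (lam₂ ν α) (XX ν Λ ∪ Set.range (lam₁ ν α)) (Om ν Λ) (mS₂ ν hα) q where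
  ms := ms₂ hα
  uc := uc₂ hν hα
  orb := fun hj => (orbN₂ hν hα h hw hj).1
  orb' := fun hj => (orbN₂ hν hα h hw hj).2
  size := (sizeNK₂ hν hα hΛ hq ha).1
  size' := (sizeNK₂ hν hα hΛ hq (gapK_ct ha)).2

end legb2

end Vale.Agent.P092.H725.SN
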