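import Vale.Agent.P092.H725.SN.LegBF
import Vale.Agent.P092.H725.SN.GK2

/-!
P092 (helper725), team N, [SX-GAPK], all amplifications: the chain of helper421 (`H421/GrT1-GrT7`,
polynomial sizes for a finite Parseval family) with `LeviGapK` (compact means) instead of `LeviGap`.
-/

set_option linter.all false

open scoped InnerProductSpace ENNReal
open Set Filter Topology MeasureTheory ContinuousLinearMap

namespace Vale.Agent.P092.H725.SN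

open Vale.Agent.P092.H790 Vale.Agent.P092.H160 Vale.Agent.P092.H34 Vale.Agent.P092.H34.Ind
open Vale.Agent.P092.H221.Gr Vale.Agent.P092.H933 Vale.Agent.P092.H725 Vale.Agent.P092.H85
open Vale.Agent.P092.H103 Vale.Agent.P092.H962 Vale.Agent.P092.SR
open Vale.Agent.P092.RC (Cm ampO ampH ampS cont_amp)
open Vale.Agent.P092.H333.Amp (amp KT)
open Vale.Agent.P092.H421.GrT
open Vale.Agent.P092.SD (MsF)
open Vale.Agent.P092.RC (GG PG ct)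
open Vale.Agent.P092.SN (nm bw PH Adm un)
open Vale.Agent.P092.H790.CTA (SIZEG)

/-! ### The gap -/

section gap

variable {E : Type} [Group E] [TopologicalSpace E] {K : Type} [NormedAddCommGroup K]
  [InnerProductSpace ℂ K] [CompleteSpace K] {π : E →* (K →L[ℂ] K)}
  {M : StarSubalgebra ℂ (K →L[ℂ] K)} {Ω : K} {F : ℕ → Submodule ℂ K}

section gen

variable {V : Type} [NormedAddCommGroup V] [InnerProductSpace ℂ V] [CompleteSpace V]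
  {σ : E →* (V →L[ℂ] V)} {f : Subalgebra.toSubmodule M.toSubalgebra →ₗ[ℂ] V} {val : V →ₗᵢ[ℂ] K}

theorem gap_genK [ContinuousInv E] (D : GrD π M Ω F) (hU : URep σ) (hf : ∀ T, val (f T) = T.1 Ω)
    (hσ : ∀ g T, σ g (f T) = f (aM D g T))
    (lim : ∀ (T : ℕ → K →L[ℂ] K) (C : ℝ) (ζ : K), (∀ n, T n ∈ M) → (∀ n, ‖T n‖ ≤ C) →
      Tendsto (fun n => T n Ω) atTop (𝓝 ζ) → ∃ z ∈ M, z Ω = ζ)
    (erg : ∀ z ∈ M, (∀ g, z * π g = π g * z) → ∃ c : ℂ, z = c • (1 : K →L[ℂ] K))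
    (sep : ∀ z ∈ M, z Ω = 0 → z = 0) {a : E} (ha : LeviGapK a) (η : ℝ) (hη : 0 < η) :
    ∃ C : Set E, IsCompact C ∧ (∀ l ∈ C, Commute l a) ∧ GapC π M Ω C η := by
  obtain ⟨C, hC, hl, hl'⟩ := ha V σ hU (η / 2) (by positivity)
  refine ⟨C, hC, hl, fun x hx hx1 => ?_⟩
  obtain ⟨x', hx'⟩ : ∃ x' : Subalgebra.toSubmodule M.toSubalgebra, x'.1 = x := ⟨⟨x, hx⟩, rfl⟩
  obtain ⟨o, ho⟩ : ∃ o : Subalgebra.toSubmodule M.toSubalgebra, o.1 = 1 :=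
    ⟨⟨1, one_mem M⟩, rfl⟩
  obtain ⟨τ, hτ⟩ : ∃ τ : ℂ, τ = ⟪Ω, x Ω⟫_ℂ := ⟨_, rfl⟩
  have eeo : val (f o) = Ω := by rw [hf, ho]; rfl
  have hfix1 : ∀ g, σ g (f o) = f o := by
    intro g
    rw [hσ]
    congr 1
    apply Subtype.ext
    rw [aM_coe, ho, mul_one, D.pi_mul_inv]
  have key : ∀ w ∈ fixedSub σ, ⟪w, f x' - τ • f o⟫_ℂ = 0 := by
    intro w hw
    have := orth_gen D hU hf hσ lim erg sep x' o ho hw
    rwa [hx', ← hτ] at this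
  obtain ⟨p, c, l, hc0, hc1, hlC, h1⟩ := hl' _ key
  refine ⟨p, c, l, hc0, hc1, hlC, ?_⟩
  have hxΩ : ‖x Ω‖ ≤ 1 := by
    refine (x.le_opNorm _).trans ?_
    rw [D.one, mul_one]; exact hx1
  have hcoe : val (f x' - τ • f o) = x Ω - τ • Ω := by
    rw [map_sub, map_smul, eeo, hf, hx']
  have h2 : ‖f x' - τ • f o‖ ≤ 2 := by
    rw [← val.norm_map, hcoe]
    refine (norm_sub_le _ _).trans ?_
    rw [norm_smul, D.one, mul_one, hτ]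
    have h3 : ‖⟪Ω, x Ω⟫_ℂ‖ ≤ 1 := by
      refine (norm_inner_le_norm _ _).trans ?_
      rw [D.one, one_mul]; exact hxΩ
    linarith
  have hc1' : ∑ i, (c i : ℂ) = 1 := by
    rw [← Complex.ofReal_sum, hc1, Complex.ofReal_one]
  have e1 : ∀ i, val (σ (l i) (f x' - τ • f o)) = (π (l i) * x * π (l i)⁻¹) Ω - τ • Ω := by
    intro i
    rw [map_sub, map_smul, hfix1, hσ, map_sub, map_smul, eeo, hf, aM_coe, hx']
  have e : (∑ i, (c i : ℂ) • (π (l i) * x * π (l i)⁻¹)) Ω - ⟪Ω, x Ω⟫_ℂ • Ω =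
      val (∑ i, (c i : ℂ) • σ (l i) (f x' - τ • f o)) := by
    rw [map_sum]
    simp only [map_smul, e1, smul_sub]
    rw [Finset.sum_sub_distrib, ← Finset.sum_smul, hc1', one_smul, sum_apply, hτ]
    rfl
  rw [e, val.norm_map]
  calc _ ≤ η / 2 * ‖f x' - τ • f o‖ := h1
    _ ≤ η / 2 * 2 := by gcongr
    _ = η := by ring

end gen

/-- **The gap hypothesis of the growth lemma, compact means**, for every growth datum whose algebra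
is closed under bounded limits and ergodic. -/
theorem gap_absK [ContinuousInv E] (D : GrD π M Ω F) (contP : ∀ ξ, Continuous fun g => π g ξ)
    (lim : ∀ (T : ℕ → K →L[ℂ] K) (C : ℝ) (ζ : K), (∀ n, T n ∈ M) → (∀ n, ‖T n‖ ≤ C) →
      Tendsto (fun n => T n Ω) atTop (𝓝 ζ) → ∃ z ∈ M, z Ω = ζ)
    (erg : ∀ z ∈ M, (∀ g, z * π g = π g * z) → ∃ c : ℂ, z = c • (1 : K →L[ℂ] K))
    (sep : ∀ z ∈ M, z Ω = 0 → z = 0) {a : E} (ha : LeviGapK a) (η : ℝ) (hη : 0 < η) :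
    ∃ C : Set E, IsCompact C ∧ (∀ l ∈ C, Commute l a) ∧ GapC π M Ω C η := by
  have hj := norm_aM D
  have hU : URep (H421.Hs.UU hj) :=
    { iso := H421.Hs.norm_UU hj
      cont := fun ξ => by
        have h1 := (H421.Hs.cont_UU hj (cont_aM D contP) ξ).tendsto 1
        have h2 : H421.Hs.UU hj 1 ξ = ξ := by rw [map_one]; rfl
        rwa [h2] at h1 }
  exact gap_genK (val := Submodule.subtypeₗᵢ _) (f := H421.Hs.ee (jM M Ω)) D hU (fun T => rfl)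
    (fun g T => H421.Hs.UU_ee hj g T) lim erg sep ha η hη

end gap

/-! ### Families -/

section fam

variable {H : Type} [Group H] [TopologicalSpace H] [IsTopologicalGroup H] {K ι : Type}
  [NormedAddCommGroup K] [InnerProductSpace ℂ K] [CompleteSpace K] [Fintype ι]
  {Q : Type} [Group Q] [Fintype Q]
  {π : H →* (K →L[ℂ] K)} {M : StarSubalgebra ℂ (K →L[ℂ] K)} {Ω : ι → K}
  {F : ℕ → Submodule ℂ K}

/-- **Growth for a family of vectors, compact means** -/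
theorem growthFK (D : GrF π M Ω F) (j : ι ↪ Q) (contP : ∀ ξ, Continuous fun g => π g ξ) {a : H}
    (gap : ∀ η : ℝ, 0 < η → ∃ C : Set H, IsCompact C ∧ (∀ l ∈ C, Commute l a) ∧
      GapC (ampH Q π) (M.map (ampS Q K)) (ampO j Ω) C η)
    (kap : ∀ h : H, ∀ ε : ℝ, 0 < ε → ∃ J, ∃ Z ∈ M, ‖Z‖ ≤ 1 ∧ (∀ i, Z (π h (Ω i)) ∈ F J) ∧
      ∑ i, ‖(Z - 1) (Ω i)‖ ^ 2 ≤ ε ^ 2) {ε : ℝ} (hε : 0 < ε) :
    ∃ C : ℕ, ∀ n : ℕ, 1 ≤ n → ∀ i, ∃ v ∈ F (C * n ^ 3), ‖π (a ^ n) (Ω i) - v‖ ≤ ε := by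
  have hcont : Tendsto (fun g => ampH Q π g (ampO j Ω)) (𝓝 1) (𝓝 (ampO j Ω)) := by
    have h1 := (cont_amp (Q := Q) contP (ampO j Ω)).tendsto 1
    have h2 : amp (π 1) (ampO j Ω) = ampO j Ω := by rw [map_one, H333.Amp.amp_one]; rfl
    rw [h2] at h1
    exact h1
  obtain ⟨C, hC⟩ := (D.toGrD j).growth_cpt hcont (a := a) gap (fun h ε hε => by
    obtain ⟨J, Z, hZ, hZ1, hZ2, hZ3⟩ := kap h ε hε
    refine ⟨J, amp Z, ⟨mem_ampM.2 ⟨Z, hZ, rfl⟩, by rw [H333.Amp.norm_amp]; exact hZ1, ?_⟩, ?_⟩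
    · rw [RC.ampH_ap, amp_ampO, amp_ampO, ampO_mem]
      exact hZ2
    · have e1 : (amp (Q := Q) Z - 1) (ampO j Ω) = amp (Z - 1) (ampO j Ω) := by
        rw [H333.Amp.amp_sub, H333.Amp.amp_one]
      rw [e1]
      refine le_of_pow_le_pow_left₀ two_ne_zero hε.le ?_
      rw [amp_ampO, RC.norm_ampO]
      exact hZ3) hε
  refine ⟨C, fun n hn i => ?_⟩
  obtain ⟨v, hv, hv1⟩ := hC n hn
  refine ⟨v (j i), hv (j i), ?_⟩
  have e1 : π (a ^ n) (Ω i) - v (j i) =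
      H333.Amp.co (j i) (ampH Q π (a ^ n) (ampO j Ω) - v) := by
    rw [map_sub, H333.Amp.co_apply, H333.Amp.co_apply, RC.ampH_ap, amp_ampO, RC.ampO_ap]
  rw [e1]
  refine le_trans ?_ hv1
  exact PiLp.norm_apply_le (ampH Q π (a ^ n) (ampO j Ω) - v) (j i)

end fam

section pos

variable {P G H : Type} [Group G] [Group H] [TopologicalSpace H] [IsTopologicalGroup H]
  {K ι : Type} [NormedAddCommGroup K] [InnerProductSpace ℂ K] [CompleteSpace K]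
  {w : P → (K →L[ℂ] K)} {pr : P → G} {Ω : ι → K} [Fintype ι] {π : H →* (K →L[ℂ] K)}

/-- **Growth for a family of vectors with positions, compact means.** -/
theorem growthPK (D : PosG π w pr Ω) {B : ℕ → Set G}
    (hB : Flt B) (contP : ∀ ξ, Continuous fun g => π g ξ)
    (erg : ∀ z ∈ MP D.toPos, (∀ g, z * π g = π g * z) → ∃ c : ℂ, z = c • (1 : K →L[ℂ] K))
    (kap : ∀ h : H, ∀ ε : ℝ, 0 < ε → ∃ J, ∃ Z ∈ MP D.toPos, ‖Z‖ ≤ 1 ∧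
      (∀ i, Z (π h (Ω i)) ∈ FP w pr Ω (B J)) ∧ ∑ i, ‖(Z - 1) (Ω i)‖ ^ 2 ≤ ε ^ 2)
    {a : H} (ha : LeviGapK a) {ε : ℝ} (hε : 0 < ε) :
    ∃ C : ℕ, ∀ n : ℕ, 1 ≤ n → ∀ i, ∃ v ∈ FP w pr Ω (B (C * n ^ 3)),
      ‖π (a ^ n) (Ω i) - v‖ ≤ ε := by
  classical
  -- a finite group with enough elements
  obtain ⟨Q, _, _, ⟨j⟩⟩ : ∃ (Q : Type) (_ : Group Q) (_ : Fintype Q), Nonempty (ι ↪ Q) :=
    exists_grp ι
  have DF := D.toGrF hB
  have DD := DF.toGrD j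
  refine growthFK DF j contP (a := a) ?_ kap hε
  refine fun η hη => gap_absK DD ?_ ?_ ?_ ?_ ha η hη
  · intro ξ
    exact RC.cont_amp contP ξ
  · intro T C ζ hT hC hl
    have hT' : ∀ n, ∃ S ∈ MP D.toPos, H333.Amp.amp (Q := Q) S = T n := fun n => mem_ampM.1 (hT n)
    choose S hS hST using hT'
    have hS1 : ∀ n, ‖S n‖ ≤ C := fun n => by
      have := hC n
      rwa [← hST n, H333.Amp.norm_amp] at this
    obtain ⟨z, hz, hz1⟩ := D.toPos.lim (ζ := fun i => ζ (j i)) hS hS1 (fun i => by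
      have h1 := ((H333.Amp.co (j i)).continuous.tendsto ζ).comp hl
      refine h1.congr fun n => ?_
      change H333.Amp.co (j i) (T n (RC.ampO j Ω)) = _
      rw [← hST n, amp_ampO, H333.Amp.co_apply, RC.ampO_ap])
    refine ⟨_, mem_ampM.2 ⟨z, hz, rfl⟩, ?_⟩
    rw [amp_ampO]
    refine H333.Amp.ext_co fun q => ?_
    by_cases hq : ∃ i, j i = q
    · obtain ⟨i, rfl⟩ := hq
      rw [RC.ampO_ap, hz1]
    · have h1 : ∀ v : ι → K, RC.ampO j v q = 0 := fun v => RC.ampO_ne j v fun i hi => hq ⟨i, hi⟩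
      rw [h1]
      have h2 := ((H333.Amp.co q).continuous.tendsto ζ).comp hl
      have h3 : Tendsto (fun n : ℕ => H333.Amp.co q (T n (RC.ampO j Ω))) atTop (𝓝 0) := by
        have e : (fun n : ℕ => H333.Amp.co q (T n (RC.ampO j Ω))) = fun _ => (0 : K) := by
          funext n
          rw [← hST n, amp_ampO, H333.Amp.co_apply, h1]
        rw [e]
        exact tendsto_const_nhds
      exact (tendsto_nhds_unique h2 h3).symm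
  · intro z hz hzc
    obtain ⟨S, hS, rfl⟩ := mem_ampM.1 hz
    obtain ⟨c, hc⟩ := erg S hS fun g => by
      refine H333.Amp.amp_inj (Q := Q) ?_
      rw [H333.Amp.amp_mul, H333.Amp.amp_mul]
      exact hzc g
    refine ⟨c, ?_⟩
    rw [hc, H333.Amp.amp_smul, H333.Amp.amp_one]
  · intro z hz h0
    obtain ⟨S, hS, rfl⟩ := mem_ampM.1 hz
    rw [amp_ampO] at h0
    have h1 : ∀ i, S (Ω i) = 0 := fun i => by
      have := congrArg (fun v => v (j i)) h0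
      rw [← RC.ampO_ap j (fun i => S (Ω i)) i]
      exact this
    rw [D.toPos.sep hS h1, H333.Amp.amp_zero]

/-- **Polynomial sizes, compact means.** -/
theorem sz3PK (D : PosG π w pr Ω) {B : ℕ → Set G} (hB : Flt B)
    (contP : ∀ ξ, Continuous fun g => π g ξ)
    (erg : ∀ z ∈ MP D.toPos, (∀ g, z * π g = π g * z) → ∃ c : ℂ, z = c • (1 : K →L[ℂ] K))
    (kap : ∀ h : H, ∀ ε : ℝ, 0 < ε → ∃ J, ∃ Z ∈ MP D.toPos, ‖Z‖ ≤ 1 ∧
      (∀ i, Z (π h (Ω i)) ∈ FP w pr Ω (B J)) ∧ ∑ i, ‖(Z - 1) (Ω i)‖ ^ 2 ≤ ε ^ 2)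
    {m : Set G → (K →L[ℂ] K)} (mle : ∀ S v, ‖m S v‖ ≤ ‖v‖)
    (madj : ∀ S, adjoint (m S) = m S) (msk₀ : ∀ S p i, pr p ∉ S → m S (w p (Ω i)) = 0)
    (msk₁ : ∀ S p i, pr p ∈ S → m S (w p (Ω i)) = w p (Ω i)) (p₁ : P) (hp₁ : w p₁ = 1)
    {σ : G → ℝ} (hσ : ∀ J γ, γ ∈ B J → σ γ ≤ Real.exp J) {a : H} (ha : LeviGapK a) (i : ι) :
    SZ3 a π (Ω i) m σ := by
  intro g ε hε
  obtain ⟨C, hC⟩ := growthPK D hB contP erg kap (ha.conj g).inv hε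
  obtain ⟨C', hC'⟩ := hB.ex (pr p₁)
  refine ⟨max C C', fun N => ?_⟩
  have key : ∃ v ∈ FP w pr Ω (B (max C C' * (N + 1) ^ 3)),
      ‖π (g * a ^ N * g⁻¹)⁻¹ (Ω i) - v‖ ≤ ε := by
    have e : (g * a ^ N * g⁻¹)⁻¹ = ((g * a * g⁻¹)⁻¹) ^ N := by rw [inv_pow, conj_pow]
    rcases Nat.eq_zero_or_pos N with h0 | h0
    · refine ⟨Ω i, FP_mono (hB.mono (show C' ≤ max C C' * (N + 1) ^ 3 from ?_)) ?_, ?_⟩
      · rw [h0]
        simp
      · intro p hp j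
        have h1 := D.hon p p₁ j i fun h2 => hp (by rw [h2]; exact hC')
        rw [hp₁] at h1
        exact h1
      · rw [h0]
        simp [hε.le]
    · obtain ⟨v, hv, hv1⟩ := hC N h0 i
      refine ⟨v, FP_mono (hB.mono ?_) hv, ?_⟩
      · exact Nat.mul_le_mul (le_max_left _ _) (Nat.pow_le_pow_left (Nat.le_succ N) 3)
      · rw [e]; exact hv1
  obtain ⟨v, hv, hv1⟩ := key
  obtain ⟨S, hS⟩ : ∃ S : Set G, S = {γ | Real.exp ((max C C' * (N + 1) ^ 3 : ℕ) : ℝ) < σ γ} :=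
    ⟨_, rfl⟩
  have h0 : m S v = 0 := D.toPos.mask_zero madj msk₀ msk₁ (fun x hx hx' => by
    rw [hS] at hx
    exact absurd (hσ _ x hx') (not_le.2 hx)) hv
  rw [← hS]
  have h3 : m S (π (g * a ^ N * g⁻¹)⁻¹ (Ω i)) = m S (π (g * a ^ N * g⁻¹)⁻¹ (Ω i) - v) := by
    rw [map_sub, h0, sub_zero]
  rw [h3]
  exact (mle _ _).trans hv1

end pos

/-! ### The triple -/

section group

variable {E : Type} [Group E] [TopologicalSpace E] [IsTopologicalGroup E] [LocallyCompactSpace E]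
  [SecondCountableTopology E] [T2Space E] [MeasurableSpace E] [BorelSpace E]
  {Γ : Subgroup E} [DiscreteTopology Γ] [Countable Γ] [MeasurableSpace (E ⧸ Γ)]
  [BorelSpace (E ⧸ Γ)] {ν : Measure (E ⧸ Γ)} [IsProbabilityMeasure ν]
  (hν : ∀ g : E, ν.map (fun x => g • x) = ν)
  {ℋ : Type} [NormedAddCommGroup ℋ] [InnerProductSpace ℂ ℋ] [CompleteSpace ℋ]
  {V R₁ R₂ : Γ →* (ℋ →L[ℂ] ℋ)} (hV : ∀ v, adjoint (V v) = V v⁻¹)
  {I : Type} [Countable I] (b : HilbertBasis I ℂ ℋ) {ι : Type} [Fintype ι] {ξ : ι → ℋ}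

include b in
theorem sz3_triK' (h : SR.Tri V R₁ R₂ ξ)
    (hirr : ∀ A : ℋ →L[ℂ] ℋ, (∀ v, A * V v = V v * A) → (∀ g, A * R₁ g = R₁ g * A) →
      (∀ g, A * R₂ g = R₂ g * A) → ∃ z : ℂ, A = z • (1 : ℋ →L[ℂ] ℋ)) {c : ℂ} (hc : c ≠ 0)
    (h1 : ∑ i, ‖OI (cdat ν hν) c ξ i‖ ^ 2 = 1)
    {m : Set Γ → (Lp ℋ 2 (cdat ν hν).μ →L[ℂ] Lp ℋ 2 (cdat ν hν).μ)}
    (hM : MskL (Ind.lam (cdat ν hν) R₁)
      (Xset (cdat ν hν) ℋ ∪ Set.range (Ind.lam (cdat ν hν) R₂)) (OI (cdat ν hν) c ξ) m)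
    {B : ℕ → Set Γ} (hB : Flt B) {σ : Γ → ℝ} (hσ : ∀ J γ, γ ∈ B J → σ γ ≤ Real.exp J)
    {a : E} (ha : LeviGapK a) (i : ι) :
    SZ3 a (Ind.pi (cdat ν hν) hV) (OI (cdat ν hν) c ξ i) m σ := by
  have hRa := AmpE.two_adj h.comm₁₂ h.adj₁ h.adj₂
  have hf := AmpE.frq_two h
  have hon := fun p i j hp => hon_of_msk hν h.comm₁₂ hc hM p i j hp
  have hVR : ∀ v p, V v * AmpE.two R₁ R₂ h.comm₁₂ p = AmpE.two R₁ R₂ h.comm₁₂ p * V v :=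
    fun v p => AmpE.two_comm h.comm₁₂ (h.comm₁ v) (h.comm₂ v) p
  have D := posG_ind (d := cdat ν hν) (pr := MonoidHom.fst Γ Γ) hV hRa hf hon hc hVR h1
  refine sz3PK D hB (AmpE.cont_pi hν hV) ?_ ?_ (m := m) hM.le hM.adj ?_ ?_
    (⟨univ, MeasurableSet.univ⟩, 1) ?_ hσ ha i
  · intro z hz hzc
    obtain ⟨A, a1, a2, a3⟩ := AmpE.const_all hν hV b (aa_of_wI hz) hzc
    obtain ⟨t, ht⟩ := hirr A a1 (AmpE.two_left h.comm₁₂ a2) (AmpE.two_right h.comm₁₂ a2)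
    refine ⟨t, ?_⟩
    rw [a3, ht, H790.comp_smul, comp_one]
  · intro g ε hε
    obtain ⟨J, Z, z1, z2, z3, z4⟩ := kap_ind (cdat ν hν) hV hRa hf hon hc hVR h1 hB g hε
    exact ⟨J, Z, wI_of_aa z1, z2, z3, z4⟩
  · intro S p i hp
    have h5 : (1 : Γ) ∉ (fun x => p.2.1⁻¹ * x) '' S := fun h3 => hp (mem_img.1 h3)
    rw [msk_wI hν h.comm₁₂ hM, hM.notMem h5, map_zero]
  · intro S p i hp
    have h5 : (1 : Γ) ∈ (fun x => p.2.1⁻¹ * x) '' S := mem_img.2 hp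
    rw [msk_wI hν h.comm₁₂ hM, hM.mem h5]
  · rw [wI_two, ind_univ]
    change 1 * (Ind.lam (cdat ν hν) R₁ 1 * Ind.lam (cdat ν hν) R₂ 1) = 1
    rw [map_one, map_one, one_mul, one_mul]

include b in
/-- **Polynomial sizes for a triple with a finite Parseval family, compact means.** -/
theorem sz3_triK (h : SR.Tri V R₁ R₂ ξ)
    (hirr : ∀ A : ℋ →L[ℂ] ℋ, (∀ v, A * V v = V v * A) → (∀ g, A * R₁ g = R₁ g * A) →
      (∀ g, A * R₂ g = R₂ g * A) → ∃ z : ℂ, A = z • (1 : ℋ →L[ℂ] ℋ))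
    {m : Set Γ → (Lp ℋ 2 (cdat ν hν).μ →L[ℂ] Lp ℋ 2 (cdat ν hν).μ)}
    (hM : MskL (Ind.lam (cdat ν hν) R₁)
      (Xset (cdat ν hν) ℋ ∪ Set.range (Ind.lam (cdat ν hν) R₂)) (AmpE.nrm hν ξ) m)
    {B : ℕ → Set Γ} (hB : Flt B) {σ : Γ → ℝ} (hσ : ∀ J γ, γ ∈ B J → σ γ ≤ Real.exp J)
    {a : E} (ha : LeviGapK a) (i : ι) :
    SZ3 a (Ind.pi (cdat ν hν) hV) (AmpE.nrm hν ξ i) m σ := by
  have h3 : 0 < ∑ j, ‖ξ j‖ ^ 2 := by
    obtain ⟨i, hi⟩ := h.ne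
    exact Finset.sum_pos' (fun _ _ => sq_nonneg _)
      ⟨i, Finset.mem_univ _, by have := norm_pos_iff.2 hi; positivity⟩
  have h4 : 0 < (Real.sqrt (∑ j, ‖ξ j‖ ^ 2))⁻¹ := by positivity
  have hc : ((((Real.sqrt (∑ j, ‖ξ j‖ ^ 2))⁻¹ : ℝ) : ℂ)) ≠ 0 := by exact_mod_cast h4.ne'
  exact sz3_triK' hν hV b h hirr hc (AmpE.sum_nrm hν h.ne) hM hB hσ ha i

end group

/-! ### `L²(E ⧸ Γ; HH(α, β, γ))` -/

section hh

variable {E : Type} [Group E] [TopologicalSpace E] [IsTopologicalGroup E] [LocallyCompactSpace E]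
  [SecondCountableTopology E] [T2Space E] [MeasurableSpace E] [BorelSpace E]
  {Γ : Subgroup E} [DiscreteTopology Γ] [Countable Γ] [MeasurableSpace (E ⧸ Γ)]
  [BorelSpace (E ⧸ Γ)] {ν : Measure (E ⧸ Γ)} [IsProbabilityMeasure ν]
  (hν : ∀ g : E, ν.map (fun x => g • x) = ν)
  {Λ I J K : Type} [Group Λ] [Countable Λ] [Fintype I] [Fintype J] [Fintype K]
  {α : Γ → (Ell2 (I × Λ) →L[ℂ] Ell2 (I × Λ))} {β : Γ → (Ell2 (J × Λ) →L[ℂ] Ell2 (J × Λ))}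
  {γ : Γ → (Ell2 (K × Λ) →L[ℂ] Ell2 (K × Λ))} (hα : AF α) (hβ : AF β) (hγ : AF γ)
  (hΓ : ∀ g : Γ, g ≠ 1 → Set.Infinite {y : Γ | ∃ h, y = h * g * h⁻¹})
  (hΛ : ∀ s : Λ, s ≠ 1 → Set.Infinite {y : Λ | ∃ h, y = h * s * h⁻¹})
  {ι : Type} [Fintype ι] {ξ : ι → HH (PT α β γ)}

include hΓ hΛ

section

variable (hV : ∀ g, adjoint (V3 hα hβ hγ g) = V3 hα hβ hγ g⁻¹)

/-- **Polynomial sizes, first leg, all amplifications, compact means.** -/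
theorem sz3_HHK₁ (h : Tri (V3 hα hβ hγ) (A3R hα hβ hγ) (B3R hα hβ hγ) ξ)
    {m : Set Γ → (Lp (HH (PT α β γ)) 2 (cdat ν hν).μ →L[ℂ] Lp (HH (PT α β γ)) 2 (cdat ν hν).μ)}
    (hM : MskL (Ind.lam (cdat ν hν) (A3R hα hβ hγ)) (Xset (cdat ν hν) (HH (PT α β γ)) ∪
      Set.range (Ind.lam (cdat ν hν) (B3R hα hβ hγ))) (AmpE.nrm hν ξ) m)
    {B : ℕ → Set Γ} (hB : Flt B) {σ : Γ → ℝ} (hσ : ∀ J γ, γ ∈ B J → σ γ ≤ Real.exp J)
    {a : E} (ha : LeviGapK a) (i : ι) :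
    SZ3 a (Ind.pi (cdat ν hν) hV) (AmpE.nrm hν ξ i) m σ := by
  obtain ⟨w, b, hw⟩ := H421.HsT.exists_basisHH (P := PT α β γ)
  haveI : Countable w := hw
  exact sz3_triK hν hV b h (fun A h0 h1 h2 =>
    Vale.Agent.P092.H962.irr_HH hΓ hΛ hα hβ hγ h0 h1 h2) hM hB hσ ha i

/-- **Polynomial sizes, second leg, all amplifications, compact means.** -/
theorem sz3_HHK₂ (h : Tri (V3 hα hβ hγ) (B3R hα hβ hγ) (A3R hα hβ hγ) ξ)
    {m : Set Γ → (Lp (HH (PT α β γ)) 2 (cdat ν hν).μ →L[ℂ] Lp (HH (PT α β γ)) 2 (cdat ν hν).μ)}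
    (hM : MskL (Ind.lam (cdat ν hν) (B3R hα hβ hγ)) (Xset (cdat ν hν) (HH (PT α β γ)) ∪
      Set.range (Ind.lam (cdat ν hν) (A3R hα hβ hγ))) (AmpE.nrm hν ξ) m)
    {B : ℕ → Set Γ} (hB : Flt B) {σ : Γ → ℝ} (hσ : ∀ J γ, γ ∈ B J → σ γ ≤ Real.exp J)
    {a : E} (ha : LeviGapK a) (i : ι) :
    SZ3 a (Ind.pi (cdat ν hν) hV) (AmpE.nrm hν ξ i) m σ := by
  obtain ⟨w, b, hw⟩ := H421.HsT.exists_basisHH (P := PT α β γ)
  haveI : Countable w := hw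
  exact sz3_triK hν hV b h (fun A h0 h1 h2 =>
    Vale.Agent.P092.H962.irr_HH hΓ hΛ hα hβ hγ h0 h2 h1) hM hB hσ ha i

end

/-- **sizes, first leg, all amplifications, compact means**: any target field -/
theorem size_HHK₁ {k : Type} [NontriviallyNormedField k] {M : ℕ} {q : Γ → GG k M} (hq : PH q)
    {b : E} (hb : LeviGapK b)
    (hT : Tri (V3 hα hβ hγ) (A3R hα hβ hγ) (B3R hα hβ hγ) ξ)
    {m : Set Γ → (Lp (HH (PT α β γ)) 2 (cdat ν hν).μ →L[ℂ] Lp (HH (PT α β γ)) 2 (cdat ν hν).μ)}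
    (hM : MskL (Ind.lam (cdat ν hν) (A3R hα hβ hγ)) (Xset (cdat ν hν) (HH (PT α β γ)) ∪
      Set.range (Ind.lam (cdat ν hν) (B3R hα hβ hγ))) (AmpE.nrm hν ξ) m) (i : ι) :
    SIZEG b (Ind.pi (cdat ν hν) (V := V3 hα hβ hγ) hT.adjV) (AmpE.nrm hν ξ i) m
        (fun γ => nm (q γ)) ∧
      SIZEG b (Ind.pi (cdat ν hν) (V := V3 hα hβ hγ) hT.adjV) (AmpE.nrm hν ξ i) m
        (fun γ => nm (ct (q γ))) := by
  have h1 := sz3_HHK₁ hν hα hβ hγ hΓ hΛ hT.adjV hT hM (flt_Dq hq) (Dq_le hq) hb i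
  exact ⟨sz3_exp_exp hM (sz3_mono hM h1 fun γ => le_max_left _ _),
    sz3_exp_exp hM (sz3_mono hM h1 fun γ => le_max_right _ _)⟩

/-- **sizes, second leg, all amplifications, compact means** -/
theorem size_HHK₂ {k : Type} [NontriviallyNormedField k] {M : ℕ} {q : Γ → GG k M} (hq : PH q)
    {b : E} (hb : LeviGapK b)
    (hT : Tri (V3 hα hβ hγ) (B3R hα hβ hγ) (A3R hα hβ hγ) ξ)
    {m : Set Γ → (Lp (HH (PT α β γ)) 2 (cdat ν hν).μ →L[ℂ] Lp (HH (PT α β γ)) 2 (cdat ν hν).μ)}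
    (hM : MskL (Ind.lam (cdat ν hν) (B3R hα hβ hγ)) (Xset (cdat ν hν) (HH (PT α β γ)) ∪
      Set.range (Ind.lam (cdat ν hν) (A3R hα hβ hγ))) (AmpE.nrm hν ξ) m) (i : ι) :
    SIZEG b (Ind.pi (cdat ν hν) (V := V3 hα hβ hγ) hT.adjV) (AmpE.nrm hν ξ i) m
        (fun γ => nm (q γ)) ∧
      SIZEG b (Ind.pi (cdat ν hν) (V := V3 hα hβ hγ) hT.adjV) (AmpE.nrm hν ξ i) m
        (fun γ => nm (ct (q γ))) := by
  have h1 := sz3_HHK₂ hν hα hβ hγ hΓ hΛ hT.adjV hT hM (flt_Dq hq) (Dq_le hq) hb i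
  exact ⟨sz3_exp_exp hM (sz3_mono hM h1 fun γ => le_max_left _ _),
    sz3_exp_exp hM (sz3_mono hM h1 fun γ => le_max_right _ _)⟩

/-- **`orb`, `orb'`, `size`, `size'`, first leg, all amplifications, compact means** -/
theorem legBFK_HH₁ {kS : Type} [NontriviallyNormedField kS] [ProperSpace kS] [MeasurableSpace kS]
    [BorelSpace kS] {μ : Measure kS} [μ.IsAddHaarMeasure] {N M : ℕ}
    {k : Type} [NontriviallyNormedField k]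
    {ι₀ : GG kS N →* E} {a a' : E →* PG kS (N + 1)}
    (h : Adm ι₀ a a') {w : kSˣ} (hw : ‖(w : kS)‖ < 1) {q : Γ → GG k M} (hq : PH q)
    (ha : LeviGapK (ι₀ (bw w)))
    (hT : Tri (V3 hα hβ hγ) (A3R hα hβ hγ) (B3R hα hβ hγ) ξ)
    {m : Set Γ → (Lp (HH (PT α β γ)) 2 (cdat ν hν).μ →L[ℂ] Lp (HH (PT α β γ)) 2 (cdat ν hν).μ)}
    (hM : MsF (Ind.lam (cdat ν hν) (A3R hα hβ hγ)) (Xset (cdat ν hν) (HH (PT α β γ)) ∪
      Set.range (Ind.lam (cdat ν hν) (B3R hα hβ hγ))) (AmpE.nrm hν ξ) m) :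
    LegBF μ w ι₀ (Ind.pi (cdat ν hν) (V := V3 hα hβ hγ) hT.adjV)
      (Ind.lam (cdat ν hν) (A3R hα hβ hγ)) (Xset (cdat ν hν) (HH (PT α β γ)) ∪
      Set.range (Ind.lam (cdat ν hν) (B3R hα hβ hγ))) (AmpE.nrm hν ξ) m q where
  orb := fun hj => (orb_HHN hν hα hβ hγ h hw hT hj).1
  orb' := fun hj => (orb_HHN hν hα hβ hγ h hw hT hj).2
  size := fun i => (size_HHK₁ hν hα hβ hγ hΓ hΛ hq ha hT (MskL.of_msF hM) i).1
  size' := fun i => (size_HHK₁ hν hα hβ hγ hΓ hΛ hq (gapK_ct ha) hT (MskL.of_msF hM) i).2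

end hh

end Vale.Agent.P092.H725.SN
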