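import Vale.Agent.P092.H725.SN.SizeN
import Vale.Agent.P092.H368.SN.GeoB
import Vale.Agent.P092.H368.SN.OrbP
import Vale.Agent.P092.H103.PicI

/-!
P092 (helper725), team N, [N-EX]: the fields `ms`, `uc`, `orb`, `orb'`, `size`, `size'` of `LegN`,
for both legs of the frame model, for a lattice in any admissible source group `E` and for target
maps `q` which are homomorphisms modulo scalars.
-/

set_option linter.all false

open scoped InnerProductSpace ENNReal LinearAlgebra.Projectivization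
open Set Filter Topology MeasureTheory ContinuousLinearMap Matrix

namespace Vale.Agent.P092.H725.SN

open Vale.Agent.P092.H160 Vale.Agent.P092.H933 Vale.Agent.P092.H368 Vale.Agent.P092.H103
open Vale.Agent.P092.SD (Ms UC)
open Vale.Agent.P092.H725
open Vale.Agent.P092.SR Vale.Agent.P092.H839
open Vale.Agent.P092.RC (Cm KK pic lam₁ lam₂ XX Om GG PG YY ct)
open Vale.Agent.P092.SN (nm bw PH Adm un)
open Vale.Agent.P092.H790.CTA (SIZEG ORBG)
open Vale.Agent.P092.H368.SN (Spr spr_map md md_pos md_nonneg md_lt_one md_pow ad0_of tv)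
open Vale.Agent.P092.H35 (sp sp_proper)

/-! ### `ι` is proper -/

section proper

variable {k : Type} [NontriviallyNormedField k] [ProperSpace k] {N : ℕ} {E : Type} [Group E]
  [TopologicalSpace E] {ι : GG k N →* E} {a a' : E →* PG k (N + 1)}

/-- preimages of compact sets under `ι` are relatively compact -/
theorem adm_proper (h : Adm ι a a') (C : Set E) (hC : IsCompact C) :
    ∃ C' : Set (GG k N), IsCompact C' ∧ ι ⁻¹' C ⊆ C' := by
  obtain ⟨R, hR⟩ := (hC.image (H35.np_cont.comp h.ca)).bddAbove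
  refine ⟨_, H35.isCompact_bdd (k := k) (n := N + 1) (max 1 R), fun g hg => ?_⟩
  have h1 : H35.np (a (ι g)) ≤ R := hR ⟨_, hg, rfl⟩
  rw [(ad0_of h).a_ι] at h1
  exact H35.nmx_le_of_np (Nat.succ_ne_zero N) h1

theorem adm_proper_ct (h : Adm ι a a') (C : Set E) (hC : IsCompact C) :
    ∃ C' : Set (GG k N), IsCompact C' ∧ (ι.comp ct) ⁻¹' C ⊆ C' := by
  obtain ⟨C', hC', hsub⟩ := adm_proper h C hC
  refine ⟨ct '' C', hC'.image H368.SN.ct_cont, fun g hg => ⟨ct g, hsub hg, H368.SN.ct_ct g⟩⟩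

end proper

/-! ### Spreading of the root groups -/

section spr

variable {k : Type} [NontriviallyNormedField k] [ProperSpace k] [MeasurableSpace k] [BorelSpace k]
  {μ : Measure k} [μ.IsAddHaarMeasure] {N : ℕ} {E : Type} [Group E]
  [TopologicalSpace E] {ι : GG k N →* E} {a a' : E →* PG k (N + 1)}

theorem un_eq {j : Fin (N + 1)} (hj : (0 : Fin (N + 1)) ≠ j) (s : k) :
    un hj s = tv hj s := rfl

theorem spr_bw (h : Adm ι a a') (w : kˣ) {j : Fin (N + 1)} (hj : (0 : Fin (N + 1)) ≠ j) :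
    Spr μ (ι (bw w)) (fun s => ι (un hj s)) (md w ^ (N + 1)) := by
  have h1 := H368.SN.spr_wl_map (μ := μ) (adm_proper h) hj w
  rw [Fintype.card_fin, ← H368.SN.bw_eq] at h1
  exact h1

theorem spr_bw' (h : Adm ι a a') (w : kˣ) {j : Fin (N + 1)} (hj : (0 : Fin (N + 1)) ≠ j) :
    Spr μ (ι (ct (bw w))) (fun s => ι (ct (un hj s))) (md w ^ (N + 1)) := by
  have h1 := H368.SN.spr_wl_map (μ := μ) (adm_proper_ct h) hj w
  rw [Fintype.card_fin, ← H368.SN.bw_eq] at h1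
  exact h1

omit [MeasurableSpace k] [BorelSpace k] in
theorem continuous_un {j : Fin (N + 1)} (hj : (0 : Fin (N + 1)) ≠ j) :
    Continuous fun s : k => un hj s := H368.SN.continuous_tv hj

end spr

/-! ### The six fields -/

/-- the fields `ms`, `uc`, `orb`, `orb'`, `size`, `size'` of `LegN` -/
structure LegB {k : Type} [NontriviallyNormedField k] {N : ℕ} {E Γ K : Type}
    [Group E] [TopologicalSpace E] [Group Γ] [NormedAddCommGroup K] [InnerProductSpace ℂ K]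
    [CompleteSpace K] [MeasurableSpace k] (μ : Measure k) (w : kˣ) (ι : GG k N →* E)
    (π : E →* (K →L[ℂ] K)) (lam : Γ →* (K →L[ℂ] K)) (W : Set (K →L[ℂ] K)) (Ω : K)
    (m : Set Γ → (K →L[ℂ] K)) (q : Γ → GG k N) : Prop where
  ms : Ms lam W Ω m
  uc : UC π W Ω m
  orb : ∀ {j : Fin (N + 1)} (hj : (0 : Fin (N + 1)) ≠ j), ∃ ρ : ℝ, 0 < ρ ∧ ρ < 1 ∧
    ORBG μ (ι (bw w)) (fun s => ι (un hj s)) ρ π lam W Ω
  orb' : ∀ {j : Fin (N + 1)} (hj : (0 : Fin (N + 1)) ≠ j), ∃ ρ : ℝ, 0 < ρ ∧ ρ < 1 ∧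
    ORBG μ (ι (ct (bw w))) (fun s => ι (ct (un hj s))) ρ π lam W Ω
  size : SIZEG (ι (bw w)) π Ω m fun γ => nm (q γ)
  size' : SIZEG (ι (ct (bw w))) π Ω m fun γ => nm (ct (q γ))

section legb

variable {k : Type} [NontriviallyNormedField k] [ProperSpace k] [MeasurableSpace k] [BorelSpace k]
  {μ : Measure k} [μ.IsAddHaarMeasure] {N : ℕ}
  {E : Type} [Group E] [TopologicalSpace E] [IsTopologicalGroup E] [LocallyCompactSpace E]
  [SecondCountableTopology E] [T2Space E] [MeasurableSpace E] [BorelSpace E]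
  {ι : GG k N →* E} {a a' : E →* PG k (N + 1)}
  {Γ : Subgroup E} [DiscreteTopology Γ] [Countable Γ] [MeasurableSpace (E ⧸ Γ)]
  [BorelSpace (E ⧸ Γ)] {ν : Measure (E ⧸ Γ)} [IsProbabilityMeasure ν]
  (hν : ∀ g : E, ν.map (fun x => g • x) = ν)
  {Λ : Type} [Group Λ] {α : Γ →* (Ell2 Λ →L[ℂ] Ell2 Λ)} (hα : Frame α)
  (hΛ : ∀ s : Λ, s ≠ 1 → Set.Infinite {y : Λ | ∃ h, y = h * s * h⁻¹})

include hΛ

/-- **the six fields, first leg** -/
theorem legB₁ (h : Adm ι a a') {w : kˣ} (hw : ‖(w : k)‖ < 1) {q : Γ → GG k N} (hq : PH q)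
    (ha : LeviGap (ι (bw w))) :
    LegB μ w ι (pic hν hα) (lam₁ ν α) (XX ν Λ ∪ Set.range (lam₂ ν α)) (Om ν Λ) (mS₁ ν hα) q := by
  have hs := size_N₁ hν hα hΛ (bF₁ hα) (bF₁_ap hα) (ms₁ hα) hq ι ha
  have hr0 : 0 < md w ^ (N + 1) := pow_pos (md_pos w) _
  have hr1 : md w ^ (N + 1) < 1 := pow_lt_one₀ (md_nonneg w) (md_lt_one hw) (Nat.succ_ne_zero N)
  exact
    { ms := ms₁ hα
      uc := uc₁ hν hα
      orb := fun hj => ⟨_, hr0, hr1, H368.SN.orbE₁ hν hα (h.cι.comp (continuous_un hj))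
        (spr_bw h w hj)⟩
      orb' := fun hj => ⟨_, hr0, hr1, H368.SN.orbE₁ hν hα
        ((h.cι.comp H368.SN.ct_cont).comp (continuous_un hj)) (spr_bw' h w hj)⟩
      size := hs.1
      size' := hs.2 }

/-- **the six fields, second leg** -/
theorem legB₂ (h : Adm ι a a') {w : kˣ} (hw : ‖(w : k)‖ < 1) {q : Γ → GG k N} (hq : PH q)
    (ha : LeviGap (ι (bw w))) :
    LegB μ w ι (pic hν hα) (lam₂ ν α) (XX ν Λ ∪ Set.range (lam₁ ν α)) (Om ν Λ) (mS₂ ν hα) q := by
  have hs := size_N₂ hν hα hΛ (bF₂ hα) (bF₂_ap hα) (ms₂ hα) hq ι ha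
  have hr0 : 0 < md w ^ (N + 1) := pow_pos (md_pos w) _
  have hr1 : md w ^ (N + 1) < 1 := pow_lt_one₀ (md_nonneg w) (md_lt_one hw) (Nat.succ_ne_zero N)
  exact
    { ms := ms₂ hα
      uc := uc₂ hν hα
      orb := fun hj => ⟨_, hr0, hr1, H368.SN.orbE₂ hν hα (h.cι.comp (continuous_un hj))
        (spr_bw h w hj)⟩
      orb' := fun hj => ⟨_, hr0, hr1, H368.SN.orbE₂ hν hα
        ((h.cι.comp H368.SN.ct_cont).comp (continuous_un hj)) (spr_bw' h w hj)⟩
      size := hs.1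
      size' := hs.2 }

end legb

/-! ### Instances of the gap -/

section inst

/-- `Π_j SL_(N_j+1)(k_j) / Z_j`, the wall element of the factor `j` -/
theorem leviGap_PS {J : Type} [Finite J] [DecidableEq J] {k : J → Type}
    [∀ j, NontriviallyNormedField (k j)] {N : J → ℕ} (hk : ∀ j, LocK (k j)) (hN : ∀ j, 2 ≤ N j)
    (Z : ∀ j, Subgroup (GG (k j) (N j))) [∀ j, (Z j).Normal] (j : J) (w : (k j)ˣ) :
    LeviGap (MonoidHom.mulSingle (fun j => GG (k j) (N j) ⧸ Z j) j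
      (QuotientGroup.mk' (Z j) (bw w))) :=
  leviGap_mulSingle (fun i => leviGap_one_mk (hk i) (hN i) (Z i)) j
    (leviGap_bw_mk (hk j) (hN j) w (Z j))

/-- `Π_j SL_(N_j+1)(k_j)` -/
theorem leviGap_SLP {J : Type} [Finite J] [DecidableEq J] {k : J → Type}
    [∀ j, NontriviallyNormedField (k j)] {N : J → ℕ} (hk : ∀ j, LocK (k j)) (hN : ∀ j, 2 ≤ N j)
    (j : J) (w : (k j)ˣ) :
    LeviGap (MonoidHom.mulSingle (fun j => GG (k j) (N j)) j (bw w)) :=
  leviGap_mulSingle (fun i => leviGap_one (n := N i + 1) (hk i) (by have := hN i; omega)) j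
    (leviGap_bw (hk j) (hN j) w)

end inst

end Vale.Agent.P092.H725.SN
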