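import Vale.Agent.P092.H725.SN.Abs
import Vale.Agent.P092.H933.GLAll

/-!
P092 (helper725), team N, [N-SIZE]: the maximum of the norms of the entries on `SL_ι(k)`, the wall
elements of all types, and their gaps.
-/

set_option linter.all false

open scoped InnerProductSpace ENNReal Nat
open Set Filter Topology MeasureTheory ContinuousLinearMap Matrix

namespace Vale.Agent.P092.H725.SN

open Vale.Agent.P092.H933

/-! ### The norm -/

section nrm

variable {ι : Type} [Fintype ι] [DecidableEq ι] {k : Type} [NontriviallyNormedField k]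

/-- the maximum of the norms of the entries -/
noncomputable def nmm (h : SpecialLinearGroup ι k) : ℝ := ‖(fun i j => h.1 i j : ι → ι → k)‖

theorem nmm_nonneg (g : SpecialLinearGroup ι k) : 0 ≤ nmm g := norm_nonneg _

theorem entry_le (g : SpecialLinearGroup ι k) (i j : ι) : ‖g.1 i j‖ ≤ nmm g := by
  have h1 := norm_le_pi_norm (fun i j => g.1 i j : ι → ι → k) i
  have h2 := norm_le_pi_norm (fun j => g.1 i j : ι → k) j
  exact h2.trans h1

theorem nmm_le_iff {g : SpecialLinearGroup ι k} {C : ℝ} (hC : 0 ≤ C) :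
    nmm g ≤ C ↔ ∀ i j, ‖g.1 i j‖ ≤ C := by
  refine ⟨fun h i j => (entry_le g i j).trans h, fun h => ?_⟩
  exact (pi_norm_le_iff_of_nonneg hC).2 fun i => (pi_norm_le_iff_of_nonneg hC).2 fun j => h i j

theorem nmm_mul (g h : SpecialLinearGroup ι k) :
    nmm (g * h) ≤ Fintype.card ι * nmm g * nmm h := by
  have h0 : 0 ≤ Fintype.card ι * nmm g * nmm h := by
    have := nmm_nonneg g
    have := nmm_nonneg h
    positivity
  refine (nmm_le_iff h0).2 fun i j => ?_
  have e : (g * h).1 i j = ∑ l, g.1 i l * h.1 l j := by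
    change (g.1 * h.1) i j = _
    rw [Matrix.mul_apply]
  rw [e]
  calc ‖∑ l, g.1 i l * h.1 l j‖ ≤ ∑ l, ‖g.1 i l * h.1 l j‖ := norm_sum_le _ _
    _ ≤ ∑ _l : ι, nmm g * nmm h := by
        refine Finset.sum_le_sum fun l _ => ?_
        rw [norm_mul]
        exact mul_le_mul (entry_le g i l) (entry_le h l j) (norm_nonneg _) (nmm_nonneg g)
    _ = Fintype.card ι * nmm g * nmm h := by
        rw [Finset.sum_const, Finset.card_univ, nsmul_eq_mul]; ring

theorem nms_nmm [Nonempty ι] : NmS (nmm (ι := ι) (k := k)) (Fintype.card ι) where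
  nonneg := nmm_nonneg
  mul := nmm_mul
  one_le := by exact_mod_cast Fintype.card_pos

/-- determinants of matrices with bounded rows -/
theorem norm_det_le (A : Matrix ι ι k) {B : ι → ℝ} (hB : ∀ i, 0 ≤ B i)
    (h : ∀ i j, ‖A i j‖ ≤ B i) : ‖A.det‖ ≤ (Fintype.card ι)! * ∏ i, B i := by
  rw [Matrix.det_apply]
  calc ‖∑ σ : Equiv.Perm ι, Equiv.Perm.sign σ • ∏ i, A (σ i) i‖
      ≤ ∑ σ : Equiv.Perm ι, ‖Equiv.Perm.sign σ • ∏ i, A (σ i) i‖ := norm_sum_le _ _
    _ ≤ ∑ _σ : Equiv.Perm ι, ∏ i, B i := by
        refine Finset.sum_le_sum fun σ _ => ?_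
        have h1 : ‖Equiv.Perm.sign σ • ∏ i, A (σ i) i‖ = ‖∏ i, A (σ i) i‖ := by
          rcases Int.units_eq_one_or (Equiv.Perm.sign σ) with h | h
          · rw [h, one_smul]
          · rw [h, Units.neg_smul, one_smul, norm_neg]
        rw [h1, norm_prod]
        calc ∏ i, ‖A (σ i) i‖ ≤ ∏ i, B (σ i) :=
              Finset.prod_le_prod (fun i _ => norm_nonneg _) fun i _ => h (σ i) i
          _ = ∏ i, B i := Equiv.prod_comp σ B
    _ = (Fintype.card ι)! * ∏ i, B i := by
        rw [Finset.sum_const, Finset.card_univ, Fintype.card_perm, nsmul_eq_mul]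

theorem one_le_nmm (g : SpecialLinearGroup ι k) :
    1 ≤ (Fintype.card ι)! * nmm g ^ Fintype.card ι := by
  have h := norm_det_le g.1 (B := fun _ => nmm g) (fun _ => nmm_nonneg g) fun i j => entry_le g i j
  rw [g.2, norm_one, Finset.prod_const, Finset.card_univ] at h
  exact h

theorem nmm_pos [Nonempty ι] (g : SpecialLinearGroup ι k) : 0 < nmm g := by
  rcases (nmm_nonneg g).eq_or_lt with h | h
  · have h1 := one_le_nmm g
    rw [← h, zero_pow Fintype.card_ne_zero, mul_zero] at h1
    exact absurd h1 (by norm_num)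
  · exact h

theorem nmm_inv (g : SpecialLinearGroup ι k) :
    nmm g⁻¹ ≤ (Fintype.card ι)! * nmm g ^ (Fintype.card ι - 1) := by
  have h0 : 0 ≤ (Fintype.card ι)! * nmm g ^ (Fintype.card ι - 1) := by
    have := nmm_nonneg g
    positivity
  refine (nmm_le_iff h0).2 fun i j => ?_
  have e : (g⁻¹).1 i j = (g.1.updateRow j (Pi.single i 1)).det := by
    rw [Matrix.SpecialLinearGroup.coe_inv, Matrix.adjugate_apply]
  rw [e]
  have h := norm_det_le (g.1.updateRow j (Pi.single i 1)) (B := Function.update (fun _ => nmm g) j 1)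
    (fun l => by
      by_cases hl : l = j
      · subst hl; simp
      · rw [Function.update_of_ne hl]; exact nmm_nonneg g)
    (fun a b => by
      by_cases ha : a = j
      · subst ha
        rw [Matrix.updateRow_self, Function.update_self]
        by_cases hb : b = i
        · subst hb; simp
        · rw [Pi.single_eq_of_ne hb]; simp
      · rw [Matrix.updateRow_ne ha, Function.update_of_ne ha]
        exact entry_le g a b)
  refine h.trans (le_of_eq ?_)
  rw [Finset.prod_update_of_mem (Finset.mem_univ j), one_mul, Finset.prod_const,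
    Finset.card_sdiff_of_subset (Finset.subset_univ _), Finset.card_univ, Finset.card_singleton]

/-- inverse transpose: any homomorphism which is given by `g ↦ (g⁻¹)ᵀ` -/
theorem nmm_tr {g h : SpecialLinearGroup ι k} (e : h.1 = ((g⁻¹).1)ᵀ) : nmm h = nmm g⁻¹ := by
  refine le_antisymm ((nmm_le_iff (nmm_nonneg _)).2 fun i j => ?_)
    ((nmm_le_iff (nmm_nonneg _)).2 fun i j => ?_)
  · rw [e, Matrix.transpose_apply]; exact entry_le g⁻¹ j i
  · have h1 := entry_le h j i
    rwa [e, Matrix.transpose_apply] at h1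

theorem continuous_nmm : Continuous (nmm : SpecialLinearGroup ι k → ℝ) := by
  unfold nmm
  exact continuous_norm.comp (continuous_pi fun i => continuous_pi fun j =>
    (continuous_apply_apply i j).comp continuous_subtype_val)

theorem isCompact_ball [ProperSpace k] (C : ℝ) : IsCompact {g : SpecialLinearGroup ι k | nmm g ≤ C} := by
  have h1 : Topology.IsClosedEmbedding
      (fun g : SpecialLinearGroup ι k => (fun i j => g.1 i j : ι → ι → k)) := by
    have hc : IsClosed {A : ι → ι → k | (Matrix.of A).det = 1} := by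
      refine isClosed_eq (Continuous.matrix_det (continuous_pi fun i => continuous_pi fun j =>
        continuous_apply_apply i j)) continuous_const
    refine ⟨⟨?_, ?_⟩, ?_⟩
    · constructor
      change instTopologicalSpaceSubtype = _
      rfl
    · intro a b hab
      exact Subtype.ext hab
    · convert hc using 1
      ext A
      constructor
      · rintro ⟨g, rfl⟩
        exact g.2
      · intro hA
        exact ⟨⟨Matrix.of A, hA⟩, rfl⟩
  have h2 := h1.isCompact_preimage (isCompact_closedBall (0 : ι → ι → k) C)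
  convert h2 using 1
  ext g
  simp [nmm]

/-- the balls of a discrete subgroup are finite -/
theorem finite_ball [ProperSpace k] (Γ : Subgroup (SpecialLinearGroup ι k)) [DiscreteTopology Γ]
    (C : ℝ) : {γ : Γ | nmm (γ : SpecialLinearGroup ι k) ≤ C}.Finite := by
  have h1 : IsClosed (Γ : Set (SpecialLinearGroup ι k)) := Subgroup.isClosed_of_discrete
  have h2 : Topology.IsClosedEmbedding (Subtype.val : Γ → SpecialLinearGroup ι k) :=
    h1.isClosedEmbedding_subtypeVal
  have h3 := h2.isCompact_preimage (isCompact_ball (ι := ι) (k := k) C)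
  exact isCompact_iff_finite.1 h3

/-- the same for an embedding with discrete image -/
theorem finite_ball_hom [ProperSpace k] {Γ : Type} [Group Γ] (q : Γ →* SpecialLinearGroup ι k)
    (hq : Function.Injective q) [DiscreteTopology q.range] (C : ℝ) :
    {γ : Γ | nmm (q γ) ≤ C}.Finite := by
  have h1 := finite_ball q.range C
  refine Set.Finite.of_finite_image (f := fun γ => (⟨q γ, ⟨γ, rfl⟩⟩ : q.range)) (h1.subset ?_) ?_
  · rintro _ ⟨γ, hγ, rfl⟩
    exact hγ
  · intro a _ b _ hab
    exact hq (Subtype.ext_iff.1 hab)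

end nrm

/-! ### The wall elements -/

section wall

variable {n : ℕ} {k : Type} [Field k]

/-- the entries of the wall element of the coordinate plane `J` -/
def wd (w : kˣ) (J : Finset (Fin n)) (i : Fin n) : k :=
  if i ∈ J then ((w⁻¹ : kˣ) : k) ^ (n - J.card) else (w : k) ^ J.card

/-- the wall element `diag(w^{-(n-j)} on J, w^j off J)`, `j = |J|`, of the coordinate plane `J` -/
def wJ (w : kˣ) (J : Finset (Fin n)) : SpecialLinearGroup (Fin n) k :=
  ⟨Matrix.diagonal (wd w J), by
    classical
    rw [Matrix.det_diagonal]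
    have h1 : ∏ i, wd w J i = (∏ i ∈ J, ((w⁻¹ : kˣ) : k) ^ (n - J.card)) *
        ∏ i ∈ Jᶜ, (w : k) ^ J.card := by
      rw [← Finset.prod_mul_prod_compl J]
      congr 1
      · exact Finset.prod_congr rfl fun i hi => by rw [wd, if_pos hi]
      · exact Finset.prod_congr rfl fun i hi => by rw [wd, if_neg (Finset.mem_compl.1 hi)]
    rw [h1, Finset.prod_const, Finset.prod_const, Finset.card_compl, Fintype.card_fin,
      ← pow_mul, ← pow_mul, mul_comm (n - J.card) J.card, ← mul_pow, ← Units.val_mul,
      inv_mul_cancel, Units.val_one, one_pow]⟩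

theorem wJ_coe (w : kˣ) (J : Finset (Fin n)) : (wJ w J).1 = Matrix.diagonal (wd w J) := rfl

end wall

section wgap

variable {n : ℕ} {k : Type} [NontriviallyNormedField k]

/-- a map on at least three indices with two values takes one of them twice -/
theorem exists_eq_wd (hn : 3 ≤ n) (w : kˣ) (J : Finset (Fin n)) :
    ∃ j l : Fin n, j ≠ l ∧ wd w J j = wd w J l := by
  have key : ∃ j l : Fin n, j ≠ l ∧ (j ∈ J ↔ l ∈ J) := by
    by_contra hcon
    push Not at hcon
    have h0 : (⟨0, by omega⟩ : Fin n) ≠ ⟨1, by omega⟩ := by simp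
    have h1 : (⟨0, by omega⟩ : Fin n) ≠ ⟨2, by omega⟩ := by simp
    have h2 : (⟨1, by omega⟩ : Fin n) ≠ ⟨2, by omega⟩ := by simp
    have a := hcon _ _ h0
    have b := hcon _ _ h1
    have c := hcon _ _ h2
    by_cases x : (⟨0, by omega⟩ : Fin n) ∈ J <;> by_cases y : (⟨1, by omega⟩ : Fin n) ∈ J <;>
      by_cases z : (⟨2, by omega⟩ : Fin n) ∈ J <;> simp_all
  obtain ⟨j, l, hjl, h⟩ := key
  refine ⟨j, l, hjl, ?_⟩
  unfold wd
  by_cases hj : j ∈ J
  · rw [if_pos hj, if_pos (h.1 hj)]
  · rw [if_neg hj, if_neg fun hl => hj (h.2 hl)]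

/-- **the gap of every wall element of `SL_n(k)`, `n ≥ 3`** -/
theorem leviGap_wJ (hk : LocK k) (hn : 3 ≤ n) (w : kˣ) (J : Finset (Fin n)) :
    LeviGap (wJ w J) := by
  obtain ⟨j, l, hjl, h⟩ := exists_eq_wd hn w J
  exact leviGap_diag hk hn hjl (wJ_coe w J) h

end wgap

end Vale.Agent.P092.H725.SN
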