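import Vale.Agent.P092.H725.SN.GapP

/-!
P092 (helper725), team N: `LeviGap` for groups which contain a normal subgroup of finite index with
the gap (e.g. `PGL_n(k)`, `GL_n(k)/center`, `k` of characteristic zero), and the filtration by a
size function given on `Γ` itself (homomorphisms modulo scalars).
-/

set_option linter.all false

open scoped InnerProductSpace ENNReal
open Set Filter Topology MeasureTheory ContinuousLinearMap

namespace Vale.Agent.P092.H725.SN

open Vale.Agent.P092.H933

/-- **`LeviGap` from a normal subgroup of finite index** (the range of `p`), if the cosets have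
representatives which commute with `a`. -/
theorem leviGap_normal {S E : Type} [Group S] [TopologicalSpace S] [Group E] [TopologicalSpace E]
    (p : S →* E) (hp : ContinuousAt p 1) (hn : p.range.Normal) {m : ℕ} (z : Fin m → E)
    (hz : ∀ e : E, ∃! j : Fin m, (z j)⁻¹ * e ∈ p.range) {a : E} (hza : ∀ j, Commute (z j) a)
    {b : S} (hb : LeviGap b) (hba : ∀ l, Commute l b → Commute (p l) a) : LeviGap a := by
  intro 𝓗 _ _ _ σ hσ e he
  have hm : 0 < m := by
    obtain ⟨j, -, -⟩ := hz 1
    exact lt_of_le_of_lt (Nat.zero_le _) j.2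
  have hσp : URep (σ.comp p) := hσ.comp p hp
  obtain ⟨k, hk, l, hl, hlv⟩ := hb 𝓗 (σ.comp p) hσp e he
  refine ⟨k * m, Nat.mul_pos hk hm, fun i => p (l (finProdFinEquiv.symm i).1) *
    z (finProdFinEquiv.symm i).2, fun i => (hba _ (hl _)).mul_left (hza _), fun v hv => ?_⟩
  -- the mean over the product
  have hmean : (((k * m : ℕ) : ℂ))⁻¹ • ∑ i : Fin (k * m),
      σ (p (l (finProdFinEquiv.symm i).1) * z (finProdFinEquiv.symm i).2) v =
      ((k : ℂ))⁻¹ • ∑ i, (σ.comp p) (l i) (((m : ℂ))⁻¹ • ∑ j, σ (z j) v) := by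
    have h1 : ∑ i : Fin (k * m), σ (p (l (finProdFinEquiv.symm i).1) *
        z (finProdFinEquiv.symm i).2) v =
        ∑ q : Fin k × Fin m, σ (p (l q.1) * z q.2) v :=
      Fintype.sum_equiv finProdFinEquiv.symm _ _ fun i => rfl
    rw [h1, Fintype.sum_prod_type]
    push_cast
    rw [mul_inv, mul_smul]
    congr 1
    rw [Finset.smul_sum]
    refine Finset.sum_congr rfl fun i _ => ?_
    rw [map_smul, map_sum]
    congr 1
    refine Finset.sum_congr rfl fun j _ => ?_
    rw [URep.mul_apply]
    rfl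
  rw [hmean]
  -- the mean over the cosets is orthogonal to the vectors fixed by the subgroup
  have horth : ∀ η ∈ fixedSub (σ.comp p), ⟪η, ((m : ℂ))⁻¹ • ∑ j, σ (z j) v⟫_ℂ = 0 := by
    intro η hη
    have hη' : ∀ s ∈ p.range, σ s η = η := by
      rintro _ ⟨s, rfl⟩
      exact hη s
    rw [inner_smul_right, inner_sum]
    have h1 : ∀ j, ⟪η, σ (z j) v⟫_ℂ = ⟪σ (z j)⁻¹ η, v⟫_ℂ := fun j => hσ.inner_right _ _ _
    simp only [h1]
    rw [← sum_inner]
    have h2 : ⟪∑ j, σ (z j)⁻¹ η, v⟫_ℂ = 0 := by
      refine hv _ fun g => ?_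
      -- the sum of the translates is fixed
      -- first: `g` permutes the cosets
      have key : ∀ j, ∃ j' : Fin m, ∃ s ∈ p.range, g * (z j)⁻¹ = (z j')⁻¹ * s := by
        intro j
        obtain ⟨j', hj', -⟩ := hz (z j * g⁻¹)
        -- (z j')⁻¹ * (z j * g⁻¹) ∈ range; conjugate
        refine ⟨j', z j' * (g * (z j)⁻¹), ?_, by group⟩
        have h3 : ((z j')⁻¹ * (z j * g⁻¹))⁻¹ ∈ p.range := p.range.inv_mem hj'
        have h4 : ((z j')⁻¹ * (z j * g⁻¹))⁻¹ = g * (z j)⁻¹ * z j' := by group
        rw [h4] at h3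
        have h5 := hn.conj_mem _ h3 (z j')
        have h6 : z j' * (g * (z j)⁻¹ * z j') * (z j')⁻¹ = z j' * (g * (z j)⁻¹) := by group
        rwa [h6] at h5
      choose φ s hs hφ using key
      have hinj : Function.Injective φ := by
        intro j j' hjj
        have e1 : (z j)⁻¹ = g⁻¹ * ((z (φ j))⁻¹ * s j) := by rw [← hφ j]; group
        have e2 : (z j')⁻¹ = g⁻¹ * ((z (φ j))⁻¹ * s j') := by rw [hjj, ← hφ j']; group
        -- `z j'` and `z j` are in the same coset
        have e3 : z j' * (z j)⁻¹ ∈ p.range := by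
          have e4 : z j' * (z j)⁻¹ = (s j')⁻¹ * s j := by
            have e5 : z j' = (s j')⁻¹ * (z (φ j)) * g := by
              rw [← inv_inv (z j'), e2]; group
            rw [e1, e5]; group
          rw [e4]
          exact p.range.mul_mem (p.range.inv_mem (hs j')) (hs j)
        have e6 : (z j)⁻¹ * z j' ∈ p.range := by
          have h5 := hn.conj_mem _ e3 (z j)⁻¹
          have h6 : (z j)⁻¹ * (z j' * (z j)⁻¹) * ((z j)⁻¹)⁻¹ = (z j)⁻¹ * z j' := by group
          rwa [h6] at h5
        obtain ⟨i, -, hi⟩ := hz (z j')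
        have a1 := hi j e6
        have a2 := hi j' (by
          change (z j')⁻¹ * z j' ∈ p.range
          rw [inv_mul_cancel]; exact p.range.one_mem)
        rw [a1, a2]
      rw [map_sum]
      have h7 : ∀ j, σ g (σ (z j)⁻¹ η) = σ (z (φ j))⁻¹ η := by
        intro j
        rw [← URep.mul_apply, hφ j, URep.mul_apply, hη' _ (hs j)]
      simp only [h7]
      have hbij : Function.Bijective φ := Finite.injective_iff_bijective.1 hinj
      exact Fintype.sum_bijective φ hbij _ _ fun j => rfl
    rw [h2, mul_zero]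
  refine (hlv _ horth).trans ?_
  exact mul_le_mul_of_nonneg_left (URep.sum_norm_le hσ hm z v) he.le

end Vale.Agent.P092.H725.SN
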