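import Vale.Agent.P092.H725.SN.Nrm

/-!
P092 (helper725), team N, [N-SIZE]: polynomial sizes for the frame model over `SL_n(k) ⧸ Γ`,
`n ≥ 3`, `k` any local field, for the wall elements of all types, both legs, and any homomorphism
`q : Γ →* SL_ι(k')` to the special linear group of any field; the forms `SIZE` and `SIZE8`, and the
dual forms.
-/

set_option linter.all false

open scoped InnerProductSpace ENNReal
open Set Filter Topology MeasureTheory ContinuousLinearMap Matrix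

namespace Vale.Agent.P092.H725.SN

open Vale.Agent.P092.H160 Vale.Agent.P092.H933 Vale.Agent.P092.H368 Vale.Agent.P092.H103
open Vale.Agent.P092.SD (Ms)
open Vale.Agent.P092.H725
open Vale.Agent.P092.SR Vale.Agent.P092.H839
open Vale.Agent.P092.RC (Cm KK pic lam₁ lam₂ XX Om)

/-- the size of `γ`: the maximum of the norms of the entries of `q γ` and of `(q γ)⁻¹` -/
noncomputable def sz {Γ ι k : Type} [Group Γ] [Fintype ι] [DecidableEq ι]
    [NontriviallyNormedField k] (q : Γ →* SpecialLinearGroup ι k) (γ : Γ) : ℝ :=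
  max (nmm (q γ)) (nmm (q γ)⁻¹)

section tau

variable {n : ℕ} {k : Type} [Field k]

/-- the inverse transpose of a wall element is its inverse -/
theorem tr_wJ {θ : SpecialLinearGroup (Fin n) k →* SpecialLinearGroup (Fin n) k}
    (hθ : ∀ g, (θ g).1 = ((g⁻¹).1)ᵀ) (w : kˣ) (J : Finset (Fin n)) :
    θ (wJ w J) = (wJ w J)⁻¹ := by
  have h : θ (wJ w J) = (wJ w J)⁻¹ ↔ θ (wJ w J)⁻¹ = wJ w J := by
    rw [map_inv, inv_eq_iff_eq_inv]
  rw [h]
  apply Subtype.ext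
  rw [hθ, inv_inv, wJ_coe, Matrix.diagonal_transpose]

end tau

section model

variable {n : ℕ} {k : Type} [NontriviallyNormedField k] [ProperSpace k]
  [LocallyCompactSpace (SpecialLinearGroup (Fin n) k)]
  [SecondCountableTopology (SpecialLinearGroup (Fin n) k)]
  [MeasurableSpace (SpecialLinearGroup (Fin n) k)] [BorelSpace (SpecialLinearGroup (Fin n) k)]
  {Γ : Subgroup (SpecialLinearGroup (Fin n) k)} [DiscreteTopology Γ] [Countable Γ]
  [MeasurableSpace (SpecialLinearGroup (Fin n) k ⧸ Γ)]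
  [BorelSpace (SpecialLinearGroup (Fin n) k ⧸ Γ)]
  {ν : Measure (SpecialLinearGroup (Fin n) k ⧸ Γ)} [IsProbabilityMeasure ν]
  (hν : ∀ g : SpecialLinearGroup (Fin n) k, ν.map (fun x => g • x) = ν)
  {Λ : Type} [Group Λ] {α : Γ →* (Ell2 Λ →L[ℂ] Ell2 Λ)} (hα : Frame α)
  (hΛ : ∀ s : Λ, s ≠ 1 → Set.Infinite {y : Λ | ∃ h, y = h * s * h⁻¹})
  {lam : Γ →* (KK ν Λ →L[ℂ] KK ν Λ)} {W : Set (KK ν Λ →L[ℂ] KK ν Λ)}
  (b : HilbertBasis (Γ × Γ) ℂ (Ell2 (Λ × Λ)))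
  {ι k' : Type} [Fintype ι] [DecidableEq ι] [Nonempty ι] [NontriviallyNormedField k']
  (hk : LocK k) (hn : 3 ≤ n)

include hΛ hk hn

/-- first leg, any element with the gap -/
theorem sz3_leg₁ (hb : ∀ γ s, b (γ, s) = RR₁ α γ (RR₂ α s (dl 1)))
    (hM : Ms lam W (Om ν Λ) (mm ν b Prod.fst)) {a : SpecialLinearGroup (Fin n) k}
    (ha : LeviGap a) (q : Γ →* SpecialLinearGroup ι k') :
    SZ3 a (pic hν hα) (Om ν Λ) (mm ν b Prod.fst) (sz q) := by
  obtain ⟨u, hu⟩ := exists_mooreSet (k := k) (N := n) hk (by omega)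
  exact sz3₁ hν hα hΛ b hb hM (flt_DS (nms_nmm (ι := ι) (k := k')) q)
    (fun J γ hγ => max_le (DS_le nms_nmm hγ) (DS_inv_le nms_nmm hγ)) hu ha

/-- second leg, any element with the gap -/
theorem sz3_leg₂ (hb : ∀ γ s, b (γ, s) = RR₂ α γ (RR₁ α s (dl 1)))
    (hM : Ms lam W (Om ν Λ) (mm ν b Prod.fst)) {a : SpecialLinearGroup (Fin n) k}
    (ha : LeviGap a) (q : Γ →* SpecialLinearGroup ι k') :
    SZ3 a (pic hν hα) (Om ν Λ) (mm ν b Prod.fst) (sz q) := by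
  obtain ⟨u, hu⟩ := exists_mooreSet (k := k) (N := n) hk (by omega)
  exact sz3₂ hν hα hΛ b hb hM (flt_DS (nms_nmm (ι := ι) (k := k')) q)
    (fun J γ hγ => max_le (DS_le nms_nmm hγ) (DS_inv_le nms_nmm hγ)) hu ha

/-- **[N-SIZE]**, first leg: polynomial sizes for all wall elements -/
theorem sz3_wall₁ (hb : ∀ γ s, b (γ, s) = RR₁ α γ (RR₂ α s (dl 1)))
    (hM : Ms lam W (Om ν Λ) (mm ν b Prod.fst)) (w : kˣ) (J : Finset (Fin n))
    (q : Γ →* SpecialLinearGroup ι k') :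
    SZ3 (wJ w J) (pic hν hα) (Om ν Λ) (mm ν b Prod.fst) (sz q) :=
  sz3_leg₁ hν hα hΛ b hk hn hb hM (leviGap_wJ hk hn w J) q

/-- **[N-SIZE]**, second leg -/
theorem sz3_wall₂ (hb : ∀ γ s, b (γ, s) = RR₂ α γ (RR₁ α s (dl 1)))
    (hM : Ms lam W (Om ν Λ) (mm ν b Prod.fst)) (w : kˣ) (J : Finset (Fin n))
    (q : Γ →* SpecialLinearGroup ι k') :
    SZ3 (wJ w J) (pic hν hα) (Om ν Λ) (mm ν b Prod.fst) (sz q) :=
  sz3_leg₂ hν hα hΛ b hk hn hb hM (leviGap_wJ hk hn w J) q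

/-- dual form, first leg: `θ` the inverse transpose of the source -/
theorem sz3_dual₁ (hb : ∀ γ s, b (γ, s) = RR₁ α γ (RR₂ α s (dl 1)))
    (hM : Ms lam W (Om ν Λ) (mm ν b Prod.fst))
    {θ : SpecialLinearGroup (Fin n) k →* SpecialLinearGroup (Fin n) k}
    (hθ : ∀ g, (θ g).1 = ((g⁻¹).1)ᵀ) (w : kˣ) (J : Finset (Fin n))
    (q : Γ →* SpecialLinearGroup ι k') :
    SZ3 (wJ w J) ((pic hν hα).comp θ) (Om ν Λ) (mm ν b Prod.fst) (sz q) := by
  refine SZ3.comp θ ?_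
  rw [tr_wJ hθ]
  exact sz3_leg₁ hν hα hΛ b hk hn hb hM (leviGap_wJ hk hn w J).inv q

/-- dual form, second leg -/
theorem sz3_dual₂ (hb : ∀ γ s, b (γ, s) = RR₂ α γ (RR₁ α s (dl 1)))
    (hM : Ms lam W (Om ν Λ) (mm ν b Prod.fst))
    {θ : SpecialLinearGroup (Fin n) k →* SpecialLinearGroup (Fin n) k}
    (hθ : ∀ g, (θ g).1 = ((g⁻¹).1)ᵀ) (w : kˣ) (J : Finset (Fin n))
    (q : Γ →* SpecialLinearGroup ι k') :
    SZ3 (wJ w J) ((pic hν hα).comp θ) (Om ν Λ) (mm ν b Prod.fst) (sz q) := by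
  refine SZ3.comp θ ?_
  rw [tr_wJ hθ]
  exact sz3_leg₂ hν hα hΛ b hk hn hb hM (leviGap_wJ hk hn w J).inv q

end model

/-! ### From `sz` to `nmm ∘ q` and `nmm ∘ τ ∘ q` -/

section sz

variable {E Γ K ι k : Type} [Group E] [Group Γ] [NormedAddCommGroup K] [InnerProductSpace ℂ K]
  [CompleteSpace K] {lam : Γ →* (K →L[ℂ] K)} {W : Set (K →L[ℂ] K)} {Ω : K}
  {m : Set Γ → (K →L[ℂ] K)} {π : E →* (K →L[ℂ] K)} {a : E} [Fintype ι] [DecidableEq ι]
  [NontriviallyNormedField k] {q : Γ →* SpecialLinearGroup ι k}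

theorem SZ3.nmm (hM : Ms lam W Ω m) (h : SZ3 a π Ω m (sz q)) :
    SZ3 a π Ω m fun γ => SN.nmm (q γ) :=
  h.mono hM fun γ => le_max_left _ _

theorem SZ3.nmm_inv (hM : Ms lam W Ω m) (h : SZ3 a π Ω m (sz q)) :
    SZ3 a π Ω m fun γ => SN.nmm (q γ)⁻¹ :=
  h.mono hM fun γ => le_max_right _ _

theorem SZ3.nmm_tr (hM : Ms lam W Ω m) (h : SZ3 a π Ω m (sz q))
    {θ : SpecialLinearGroup ι k →* SpecialLinearGroup ι k}
    (hθ : ∀ g, (θ g).1 = ((g⁻¹).1)ᵀ) : SZ3 a π Ω m fun γ => SN.nmm (θ.comp q γ) := by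
  refine (h.nmm_inv hM).mono hM fun γ => le_of_eq ?_
  exact SN.nmm_tr (hθ (q γ))

theorem nonneg_sz [Nonempty ι] (γ : Γ) : 0 ≤ sz q γ := (nmm_nonneg _).trans (le_max_left _ _)

end sz

end Vale.Agent.P092.H725.SN
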