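import Vale.Agent.P092.SN.Defs
import Vale.Agent.P092.H725.SN.GapN
import Vale.Agent.P092.H725.SN.Size

/-!
P092 (helper725), team N, [N-SIZE] in the letters of `SN/Defs`: the fields `size`, `size'` of
`LegN`, for both legs of the frame model, for every lattice of every source group `E` in which the
image of the wall element has the gap, and for target maps `q` which are homomorphisms modulo
scalars.
-/

set_option linter.all false

open scoped InnerProductSpace ENNReal LinearAlgebra.Projectivization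
open Set Filter Topology MeasureTheory ContinuousLinearMap Matrix

namespace Vale.Agent.P092.H725.SN

open Vale.Agent.P092.H160 Vale.Agent.P092.H933 Vale.Agent.P092.H368 Vale.Agent.P092.H103
open Vale.Agent.P092.SD (Ms)
open Vale.Agent.P092.H725
open Vale.Agent.P092.SR Vale.Agent.P092.H839
open Vale.Agent.P092.RC (Cm KK pic XX Om GG PG YY ct)
open Vale.Agent.P092.SN (nm bw PH Adm un)
open Vale.Agent.P092.H790.CTA (SIZEG)

/-! ### Homomorphisms modulo scalars -/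

section ph

variable {k : Type} [NontriviallyNormedField k] {N : ℕ} {Γ : Type} [Group Γ] {q : Γ → GG k N}

theorem nm_eq (g : GG k N) : nm g = nmm g := rfl

theorem nm_smul {g h : GG k N} {c : k} (e : g.1 = c • h.1) : nm g = nm h := by
  have hc : ‖c‖ = 1 := by
    have h1 := congrArg Matrix.det e
    rw [Matrix.det_smul, g.2, h.2, mul_one, Fintype.card_fin] at h1
    have h2 : ‖c‖ ^ (N + 1) = 1 := by rw [← norm_pow, ← h1, norm_one]
    exact (pow_eq_one_iff_of_nonneg (norm_nonneg c) (Nat.succ_ne_zero N)).1 h2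
  have key : (fun i j => g.1 i j : Fin (N + 1) → Fin (N + 1) → k) =
      c • (fun i j => h.1 i j : Fin (N + 1) → Fin (N + 1) → k) := by
    funext i j
    have := congrFun (congrFun e i) j
    simpa using this
  unfold nm
  rw [key, norm_smul, hc, one_mul]

/-- `q γ⁻¹ = (q γ)⁻¹` modulo scalars -/
theorem PH.inv (hq : PH q) (γ : Γ) : ∃ c : k, (q γ⁻¹).1 = c • (q γ)⁻¹.1 := by
  obtain ⟨c, hc⟩ := hq γ γ⁻¹
  obtain ⟨d, hd⟩ := hq 1 1
  rw [mul_inv_cancel] at hc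
  rw [mul_one] at hd
  have hq1 : (1 : Matrix (Fin (N + 1)) (Fin (N + 1)) k) = d • (q 1).1 := by
    have h1 : (q 1).1 * (q 1)⁻¹.1 = 1 := by
      have := congrArg Subtype.val (mul_inv_cancel (q 1))
      exact this
    have h2 : (q 1 * q 1).1 = (q 1).1 * (q 1).1 := rfl
    calc (1 : Matrix (Fin (N + 1)) (Fin (N + 1)) k) = (q 1).1 * (q 1)⁻¹.1 := h1.symm
      _ = (d • ((q 1).1 * (q 1).1)) * (q 1)⁻¹.1 := by rw [← h2, ← hd]
      _ = d • ((q 1).1 * ((q 1).1 * (q 1)⁻¹.1)) := by rw [smul_mul_assoc, mul_assoc]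
      _ = d • (q 1).1 := by rw [h1, mul_one]
  have h4 : (1 : Matrix (Fin (N + 1)) (Fin (N + 1)) k) = (d * c) • ((q γ).1 * (q γ⁻¹).1) := by
    rw [hq1, hc, smul_smul]
    rfl
  have h5 : (q γ)⁻¹.1 * (q γ).1 = 1 := by
    have := congrArg Subtype.val (inv_mul_cancel (q γ))
    exact this
  have h6 : (q γ)⁻¹.1 = (d * c) • (q γ⁻¹).1 := by
    calc (q γ)⁻¹.1 = (q γ)⁻¹.1 * 1 := (mul_one _).symm
      _ = (q γ)⁻¹.1 * ((d * c) • ((q γ).1 * (q γ⁻¹).1)) := by rw [← h4]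
      _ = (d * c) • (((q γ)⁻¹.1 * (q γ).1) * (q γ⁻¹).1) := by rw [mul_smul_comm, mul_assoc]
      _ = (d * c) • (q γ⁻¹).1 := by rw [h5, one_mul]
  have hdc : d * c ≠ 0 := by
    intro h0
    rw [h0, zero_smul] at h4
    exact one_ne_zero h4
  refine ⟨(d * c)⁻¹, ?_⟩
  rw [h6, smul_smul, inv_mul_cancel₀ hdc, one_smul]

theorem PH.nm_mul (hq : PH q) (γ γ' : Γ) : nm (q (γ * γ')) ≤ (N + 1 : ℕ) * nm (q γ) * nm (q γ') := by
  obtain ⟨c, hc⟩ := hq γ γ'
  rw [nm_smul hc]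
  have := nmm_mul (q γ) (q γ')
  rwa [Fintype.card_fin] at this

theorem PH.nm_inv (hq : PH q) (γ : Γ) : nm (q γ⁻¹) = nm (q γ)⁻¹ := by
  obtain ⟨c, hc⟩ := PH.inv hq γ
  exact nm_smul hc

theorem nm_ct (g : GG k N) : nm (ct g) = nm g⁻¹ := nmm_tr (g := g) (h := ct g) rfl

/-- `γ ↦ nm (q γ)` is submultiplicative on `Γ` -/
theorem nms_ph (hq : PH q) : NmS (fun γ => nm (q γ)) ((N + 1 : ℕ) : ℝ) where
  nonneg γ := nmm_nonneg _
  mul γ γ' := PH.nm_mul hq γ γ'
  one_le := by exact_mod_cast Nat.succ_le_succ (Nat.zero_le N)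

/-- the larger of the two sizes -/
noncomputable def szq (q : Γ → GG k N) (γ : Γ) : ℝ := max (nm (q γ)) (nm (ct (q γ)))

/-- the filtration of `Γ` -/
noncomputable def Dq (q : Γ → GG k N) : ℕ → Set Γ :=
  DS (fun γ => nm (q γ)) ((N + 1 : ℕ) : ℝ) (MonoidHom.id Γ)

theorem flt_Dq (hq : PH q) : Flt (Dq q) := flt_DS (nms_ph hq) (MonoidHom.id Γ)

theorem Dq_le (hq : PH q) (J : ℕ) (γ : Γ) (h : γ ∈ Dq q J) : szq q γ ≤ Real.exp J := by
  have h0 : nm (q γ) ≤ Real.exp J := DS_le (nms_ph hq) (q := MonoidHom.id Γ) h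
  have h1 : nm (q γ⁻¹) ≤ Real.exp J := DS_inv_le (nms_ph hq) (q := MonoidHom.id Γ) h
  rw [PH.nm_inv hq, ← nm_ct] at h1
  exact max_le h0 h1

theorem PH.ct (hq : PH q) : PH fun γ => ct (q γ) := by
  intro γ γ'
  obtain ⟨c, hc⟩ := hq γ γ'
  have hdet : c ^ (N + 1) = 1 := by
    have h1 := congrArg Matrix.det hc
    rw [Matrix.det_smul, (q (γ * γ')).2, (q γ * q γ').2, mul_one, Fintype.card_fin] at h1
    exact h1.symm
  have hc0 : c ≠ 0 := by
    rintro rfl
    rw [zero_pow (Nat.succ_ne_zero N)] at hdet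
    exact one_ne_zero hdet.symm
  refine ⟨c⁻¹, ?_⟩
  have key : (q (γ * γ'))⁻¹.1 = c⁻¹ • ((q γ * q γ')⁻¹).1 := by
    have h1 : (q (γ * γ')).1 * (c⁻¹ • ((q γ * q γ')⁻¹).1) = 1 := by
      rw [hc, smul_mul_smul_comm, mul_inv_cancel₀ hc0, one_smul]
      have := congrArg Subtype.val (mul_inv_cancel (q γ * q γ'))
      exact this
    have h2 : (q (γ * γ'))⁻¹.1 * (q (γ * γ')).1 = 1 := by
      have := congrArg Subtype.val (inv_mul_cancel (q (γ * γ')))
      exact this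
    calc (q (γ * γ'))⁻¹.1 = (q (γ * γ'))⁻¹.1 * ((q (γ * γ')).1 * (c⁻¹ • ((q γ * q γ')⁻¹).1)) := by
          rw [h1, mul_one]
      _ = _ := by rw [← mul_assoc, h2, one_mul]
  change ((q (γ * γ'))⁻¹.1)ᵀ = c⁻¹ • (RC.ct (q γ) * RC.ct (q γ')).1
  rw [key, Matrix.transpose_smul, ← map_mul]
  rfl

end ph

/-! ### The wall element -/

section wall

variable {k : Type} [NontriviallyNormedField k] {N : ℕ}

theorem ct_bw (w : kˣ) : ct (bw (N := N) w) = (bw w)⁻¹ := by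
  apply Subtype.ext
  have h1 : (bw (N := N) w).1 = Matrix.diagonal
    fun i => if i = 0 then ((w⁻¹ : kˣ) : k) ^ N else (w : k) := rfl
  have h2 : ((bw (N := N) w)⁻¹).1 = Matrix.diagonal
      fun i => if i = 0 then (w : k) ^ N else ((w⁻¹ : kˣ) : k) := by
    have e : (bw (N := N) w).1 * (Matrix.diagonal
        fun i => if i = 0 then (w : k) ^ N else ((w⁻¹ : kˣ) : k)) = 1 := by
      rw [h1, Matrix.diagonal_mul_diagonal, ← Matrix.diagonal_one]
      congr 1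
      funext i
      by_cases hi : i = 0
      · rw [if_pos hi, if_pos hi, ← mul_pow, ← Units.val_mul, inv_mul_cancel, Units.val_one, one_pow]
      · rw [if_neg hi, if_neg hi, ← Units.val_mul, mul_inv_cancel, Units.val_one]
    have e' : ((bw (N := N) w)⁻¹).1 * (bw (N := N) w).1 = 1 := by
      have := congrArg Subtype.val (inv_mul_cancel (bw (N := N) w))
      exact this
    calc ((bw (N := N) w)⁻¹).1 = ((bw (N := N) w)⁻¹).1 * ((bw (N := N) w).1 * (Matrix.diagonal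
        fun i => if i = 0 then (w : k) ^ N else ((w⁻¹ : kˣ) : k))) := by rw [e, mul_one]
      _ = _ := by rw [← mul_assoc, e', one_mul]
  change ((bw (N := N) w)⁻¹.1)ᵀ = _
  rw [h2, Matrix.diagonal_transpose]

/-- the gap of the wall element `bw w` of `SL_(N+1)(k)`, `N ≥ 2` -/
theorem leviGap_bw (hk : LocK k) (hN : 2 ≤ N) (w : kˣ) : LeviGap (bw (N := N) w) := by
  refine leviGap_diag hk (N := N + 1) (by omega) (j := ⟨1, by omega⟩) (l := ⟨2, by omega⟩)
    (by simp) (d := fun i => if i = 0 then ((w⁻¹ : kˣ) : k) ^ N else (w : k)) rfl ?_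
  have h1 : (⟨1, by omega⟩ : Fin (N + 1)) ≠ 0 := by
    intro h; have := congrArg Fin.val h; simp at this
  have h2 : (⟨2, by omega⟩ : Fin (N + 1)) ≠ 0 := by
    intro h; have := congrArg Fin.val h; simp at this
  simp only [h1, h2, if_false]

/-- quotients, e.g. `PSL_(N+1)(k)` -/
theorem leviGap_bw_mk (hk : LocK k) (hN : 2 ≤ N) (w : kˣ) (Z : Subgroup (GG k N)) [Z.Normal] :
    LeviGap (QuotientGroup.mk' Z (bw (N := N) w)) :=
  leviGap_map (QuotientGroup.mk' Z) (continuous_quotient_mk'.continuousAt)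
    (QuotientGroup.mk'_surjective Z) (leviGap_bw hk hN w)

theorem leviGap_one_mk (hk : LocK k) (hN : 2 ≤ N) (Z : Subgroup (GG k N)) [Z.Normal] :
    LeviGap (1 : GG k N ⧸ Z) := by
  have h1 := leviGap_map (QuotientGroup.mk' Z) (continuous_quotient_mk'.continuousAt)
    (QuotientGroup.mk'_surjective Z) (leviGap_one (n := N + 1) hk (by omega))
  rwa [map_one] at h1

/-- products: one factor has the wall element, the others the unit element -/
theorem leviGap_mulSingle {J : Type} [Finite J] [DecidableEq J] {F : J → Type}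
    [∀ j, Group (F j)] [∀ j, TopologicalSpace (F j)] (h1 : ∀ j, LeviGap (1 : F j)) (j : J)
    {a : F j} (ha : LeviGap a) : LeviGap (MonoidHom.mulSingle F j a) := by
  change LeviGap (Pi.mulSingle j a)
  refine leviGap_pi fun i => ?_
  by_cases hi : i = j
  · subst hi
    rw [Pi.mulSingle_eq_same]
    exact ha
  · rw [Pi.mulSingle_eq_of_ne hi]
    exact h1 i

end wall

/-! ### The fields `size`, `size'` of `LegN` -/

section szn

variable {k : Type} [NontriviallyNormedField k] {N : ℕ}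
  {E : Type} [Group E] [TopologicalSpace E] [IsTopologicalGroup E] [LocallyCompactSpace E]
  [SecondCountableTopology E] [T2Space E] [MeasurableSpace E] [BorelSpace E]
  {Γ : Subgroup E} [DiscreteTopology Γ] [Countable Γ] [MeasurableSpace (E ⧸ Γ)]
  [BorelSpace (E ⧸ Γ)] {ν : Measure (E ⧸ Γ)} [IsProbabilityMeasure ν]
  (hν : ∀ g : E, ν.map (fun x => g • x) = ν)
  {Λ : Type} [Group Λ] {α : Γ →* (Ell2 Λ →L[ℂ] Ell2 Λ)} (hα : Frame α)
  (hΛ : ∀ s : Λ, s ≠ 1 → Set.Infinite {y : Λ | ∃ h, y = h * s * h⁻¹})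
  {lam : Γ →* (KK ν Λ →L[ℂ] KK ν Λ)} {W : Set (KK ν Λ →L[ℂ] KK ν Λ)}
  (b : HilbertBasis (Γ × Γ) ℂ (Ell2 (Λ × Λ)))

include hΛ

/-- **[N-SIZE], first leg**: `size` and `size'` of `LegN` together -/
theorem size_N₁ (hb : ∀ γ s, b (γ, s) = RR₁ α γ (RR₂ α s (dl 1)))
    (hM : Ms lam W (Om ν Λ) (mm ν b Prod.fst)) {q : Γ → GG k N} (hq : PH q)
    {w : kˣ} (ι : GG k N →* E) (ha : LeviGap (ι (bw w))) :
    SIZEG (ι (bw w)) (pic hν hα) (Om ν Λ) (mm ν b Prod.fst) (fun γ => nm (q γ)) ∧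
    SIZEG (ι (ct (bw w))) (pic hν hα) (Om ν Λ) (mm ν b Prod.fst) (fun γ => nm (ct (q γ))) := by
  have h1 : ∀ {a : E}, LeviGap a →
      SZ3 a (pic hν hα) (Om ν Λ) (mm ν b Prod.fst) (szq q) := fun {a} h =>
    sz3₁' hν hα hΛ b hb hM (flt_Dq hq) (Dq_le hq) h
  have ha' : LeviGap (ι (ct (bw w))) := by rw [ct_bw, map_inv]; exact ha.inv
  exact ⟨((h1 ha).mono hM fun γ => le_max_left _ _).exp_exp hM,
    ((h1 ha').mono hM fun γ => le_max_right _ _).exp_exp hM⟩

/-- **[N-SIZE], second leg** -/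
theorem size_N₂ (hb : ∀ γ s, b (γ, s) = RR₂ α γ (RR₁ α s (dl 1)))
    (hM : Ms lam W (Om ν Λ) (mm ν b Prod.fst)) {q : Γ → GG k N} (hq : PH q)
    {w : kˣ} (ι : GG k N →* E) (ha : LeviGap (ι (bw w))) :
    SIZEG (ι (bw w)) (pic hν hα) (Om ν Λ) (mm ν b Prod.fst) (fun γ => nm (q γ)) ∧
    SIZEG (ι (ct (bw w))) (pic hν hα) (Om ν Λ) (mm ν b Prod.fst) (fun γ => nm (ct (q γ))) := by
  have h1 : ∀ {a : E}, LeviGap a →
      SZ3 a (pic hν hα) (Om ν Λ) (mm ν b Prod.fst) (szq q) := fun {a} h =>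
    sz3₂' hν hα hΛ b hb hM (flt_Dq hq) (Dq_le hq) h
  have ha' : LeviGap (ι (ct (bw w))) := by rw [ct_bw, map_inv]; exact ha.inv
  exact ⟨((h1 ha).mono hM fun γ => le_max_left _ _).exp_exp hM,
    ((h1 ha').mono hM fun γ => le_max_right _ _).exp_exp hM⟩

/-- sizes at every time, both legs, any element `a` with the gap: at most `c (N + 1)^3` -/
theorem sz3_N₁ (hb : ∀ γ s, b (γ, s) = RR₁ α γ (RR₂ α s (dl 1)))
    (hM : Ms lam W (Om ν Λ) (mm ν b Prod.fst)) {q : Γ → GG k N} (hq : PH q)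
    {a : E} (ha : LeviGap a) : SZ3 a (pic hν hα) (Om ν Λ) (mm ν b Prod.fst) (szq q) :=
  sz3₁' hν hα hΛ b hb hM (flt_Dq hq) (Dq_le hq) ha

theorem sz3_N₂ (hb : ∀ γ s, b (γ, s) = RR₂ α γ (RR₁ α s (dl 1)))
    (hM : Ms lam W (Om ν Λ) (mm ν b Prod.fst)) {q : Γ → GG k N} (hq : PH q)
    {a : E} (ha : LeviGap a) : SZ3 a (pic hν hα) (Om ν Λ) (mm ν b Prod.fst) (szq q) :=
  sz3₂' hν hα hΛ b hb hM (flt_Dq hq) (Dq_le hq) ha

end szn

end Vale.Agent.P092.H725.SN
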