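import Vale.Agent.P092.H725.SizeP

/-!
P092 (helper725), team N, [N-SIZE]: the growth lemma gives polynomial sizes, for any locally compact
group `E` with a lattice, any element `a` with `LeviGap a`, any filtration of `Γ` and any size
function `σ` on `Γ` which is at most `exp J` on the `J`-th set of the filtration.
-/

set_option linter.all false

open scoped InnerProductSpace ENNReal
open Set Filter Topology MeasureTheory ContinuousLinearMap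

namespace Vale.Agent.P092.H725.SN

open Vale.Agent.P092.H160 Vale.Agent.P092.H933 Vale.Agent.P092.H368 Vale.Agent.P092.H103
open Vale.Agent.P092.SD (Ms)
open Vale.Agent.P092.H725
open Vale.Agent.P092.SR Vale.Agent.P092.H839
open Vale.Agent.P092.RC (Cm KK pic XX Om)

/-! ### Filtrations from submultiplicative sizes -/

section nms

/-- a size function on a group, submultiplicative up to the constant `C` -/
structure NmS {Q : Type} [Group Q] (s : Q → ℝ) (C : ℝ) : Prop where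
  nonneg : ∀ g, 0 ≤ s g
  mul : ∀ g h, s (g * h) ≤ C * s g * s h
  one_le : 1 ≤ C

variable {Q : Type} [Group Q] {s : Q → ℝ} {C : ℝ}

/-- the elements of size at most `J` -/
def DS {Γ : Type} [Group Γ] (s : Q → ℝ) (C : ℝ) (q : Γ →* Q) (J : ℕ) : Set Γ :=
  {γ | C * s (q γ) ≤ Real.exp J ∧ C * s (q γ)⁻¹ ≤ Real.exp J}

theorem flt_DS {Γ : Type} [Group Γ] (hs : NmS s C) (q : Γ →* Q) : Flt (DS s C q) where
  mono J J' hJ γ hγ := by
    have h1 : Real.exp J ≤ Real.exp J' := Real.exp_le_exp.2 (by exact_mod_cast hJ)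
    exact ⟨hγ.1.trans h1, hγ.2.trans h1⟩
  mul := by
    intro a b J J' ha hb
    have hC : 0 < C := lt_of_lt_of_le one_pos hs.one_le
    have e : Real.exp ((J + J' : ℕ) : ℝ) = Real.exp J * Real.exp J' := by
      rw [Nat.cast_add, Real.exp_add]
    have key : ∀ (x y : Q) (S T : ℝ), C * s x ≤ S → C * s y ≤ T → C * s (x * y) ≤ S * T := by
      intro x y S T hx hy
      have h1 := hs.mul x y
      have h2 : (C * s x) * (C * s y) ≤ S * T :=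
        mul_le_mul hx hy (by have := hs.nonneg y; positivity)
          ((by have := hs.nonneg x; positivity : (0 : ℝ) ≤ C * s x).trans hx)
      calc C * s (x * y) ≤ C * (C * s x * s y) := by gcongr
        _ = (C * s x) * (C * s y) := by ring
        _ ≤ S * T := h2
    refine ⟨?_, ?_⟩
    · rw [map_mul, e]; exact key _ _ _ _ ha.1 hb.1
    · rw [map_mul, mul_inv_rev, e, mul_comm (Real.exp (J : ℝ))]; exact key _ _ _ _ hb.2 ha.2
  inv := by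
    intro a J ha
    refine ⟨?_, ?_⟩
    · rw [map_inv]; exact ha.2
    · rw [map_inv, inv_inv]; exact ha.1
  ex := by
    intro a
    obtain ⟨J, hJ⟩ := exists_nat_gt (max (C * s (q a)) (C * s (q a)⁻¹))
    refine ⟨J, ?_, ?_⟩
    · have h1 := (le_max_left _ _).trans hJ.le
      have h2 := Real.add_one_le_exp (J : ℝ)
      linarith
    · have h1 := (le_max_right _ _).trans hJ.le
      have h2 := Real.add_one_le_exp (J : ℝ)
      linarith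

theorem DS_le {Γ : Type} [Group Γ] (hs : NmS s C) {q : Γ →* Q} {J : ℕ} {γ : Γ}
    (h : γ ∈ DS s C q J) : s (q γ) ≤ Real.exp J := by
  have h1 := h.1
  have h2 := hs.nonneg (q γ)
  have h3 := hs.one_le
  nlinarith

theorem DS_inv_le {Γ : Type} [Group Γ] (hs : NmS s C) {q : Γ →* Q} {J : ℕ} {γ : Γ}
    (h : γ ∈ DS s C q J) : s (q γ)⁻¹ ≤ Real.exp J := by
  have h1 := h.2
  have h2 := hs.nonneg (q γ)⁻¹
  have h3 := hs.one_le
  nlinarith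

end nms

/-! ### Polynomial sizes -/

section sz

variable {E Γ K : Type} [Group E] [Group Γ] [NormedAddCommGroup K] [InnerProductSpace ℂ K]
  [CompleteSpace K]

/-- the sizes `log σ` of `π (g a ^ N g⁻¹)⁻¹ Ω` are at most `c * (N + 1) ^ 3`, up to `ε` -/
def SZ3 (a : E) (π : E →* (K →L[ℂ] K)) (Ω : K) (m : Set Γ → (K →L[ℂ] K)) (σ : Γ → ℝ) : Prop :=
  ∀ g : E, ∀ ε : ℝ, 0 < ε → ∃ c : ℕ, ∀ N : ℕ,
    ‖m {γ | Real.exp ((c * (N + 1) ^ 3 : ℕ) : ℝ) < σ γ} (π (g * a ^ N * g⁻¹)⁻¹ Ω)‖ ≤ ε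

variable {lam : Γ →* (K →L[ℂ] K)} {W : Set (K →L[ℂ] K)} {Ω : K} {m : Set Γ → (K →L[ℂ] K)}
  {π : E →* (K →L[ℂ] K)} {a : E} {σ σ' : Γ → ℝ}

theorem SZ3.mono (hM : Ms lam W Ω m) (h : SZ3 a π Ω m σ) (hσ : ∀ γ, σ' γ ≤ σ γ) :
    SZ3 a π Ω m σ' := by
  intro g ε hε
  obtain ⟨c, hc⟩ := h g ε hε
  refine ⟨c, fun N => le_trans (H458.Size.ms_mono hM (fun γ hγ => ?_) _) (hc N)⟩
  exact lt_of_lt_of_le hγ (hσ γ)

/-- composition with a homomorphism of the source group, e.g. the inverse transpose -/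
theorem SZ3.comp {E' : Type} [Group E'] (θ : E' →* E) {b : E'} (h : SZ3 (θ b) π Ω m σ) :
    SZ3 b (π.comp θ) Ω m σ := by
  intro g ε hε
  obtain ⟨c, hc⟩ := h (θ g) ε hε
  refine ⟨c, fun N => ?_⟩
  have e : θ (g * b ^ N * g⁻¹)⁻¹ = (θ g * θ b ^ N * (θ g)⁻¹)⁻¹ := by
    rw [map_inv, map_mul, map_mul, map_inv, map_pow]
  rw [MonoidHom.comp_apply, e]
  exact hc N

/-- conjugates -/
theorem SZ3.conj (h : SZ3 a π Ω m σ) (u : E) : SZ3 (u * a * u⁻¹) π Ω m σ := by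
  intro g ε hε
  obtain ⟨c, hc⟩ := h (g * u) ε hε
  refine ⟨c, fun N => ?_⟩
  have e : g * (u * a * u⁻¹) ^ N * g⁻¹ = g * u * a ^ N * (g * u)⁻¹ := by
    rw [conj_pow]; group
  rw [e]
  exact hc N

/-- sizes in the form `exp (exp (η N))` -/
theorem SZ3.exp_exp (hM : Ms lam W Ω m) (h : SZ3 a π Ω m σ) :
    ∀ g : E, ∀ η > 0, ∀ ε > 0, ∀ᶠ N : ℕ in atTop,
      ‖m {γ | Real.exp (Real.exp (η * N)) < σ γ} (π (g * a ^ N * g⁻¹)⁻¹ Ω)‖ ≤ ε := by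
  intro g η hη ε hε
  obtain ⟨C, hC⟩ := h g ε hε
  have hlim : ∀ᶠ N : ℕ in atTop, ((C * (N + 1) ^ 3 : ℕ) : ℝ) ≤ Real.exp (η * N) := by
    have h1 : (fun x : ℝ => x ^ 3) =o[atTop] fun x : ℝ => Real.exp (η * x) :=
      isLittleO_pow_exp_pos_mul_atTop 3 hη
    have h2 : (fun N : ℕ => (N : ℝ) ^ 3) =o[atTop] fun N : ℕ => Real.exp (η * (N : ℝ)) :=
      h1.comp_tendsto tendsto_natCast_atTop_atTop
    have hc : (0 : ℝ) < 1 / (8 * C + 1) := by positivity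
    filter_upwards [h2.def hc, eventually_ge_atTop 1] with N hN h1N
    have h3 : ((N : ℝ) + 1) ^ 3 ≤ 8 * (N : ℝ) ^ 3 := by
      have : (1 : ℝ) ≤ N := by exact_mod_cast h1N
      calc ((N : ℝ) + 1) ^ 3 ≤ (2 * N) ^ 3 := by gcongr; linarith
        _ = 8 * (N : ℝ) ^ 3 := by ring
    rw [Real.norm_of_nonneg (by positivity), Real.norm_of_nonneg (by positivity)] at hN
    push_cast
    have h4 : (8 * C + 1) * (N : ℝ) ^ 3 ≤ Real.exp (η * N) := by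
      have h5 : (0 : ℝ) < 8 * C + 1 := by positivity
      have := mul_le_mul_of_nonneg_left hN h5.le
      rwa [← mul_assoc, mul_one_div_cancel h5.ne', one_mul] at this
    calc (C : ℝ) * ((N : ℝ) + 1) ^ 3 ≤ C * (8 * (N : ℝ) ^ 3) := by gcongr
      _ ≤ (8 * C + 1) * (N : ℝ) ^ 3 := by nlinarith [pow_nonneg (Nat.cast_nonneg (α := ℝ) N) 3]
      _ ≤ _ := h4
  filter_upwards [hlim] with N hN
  exact le_trans (H458.Size.ms_mono hM (fun γ hγ => lt_of_le_of_lt (Real.exp_le_exp.2 hN) hγ) _)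
    (hC N)

/-- sizes at all times, in terms of `log σ` -/
theorem SZ3.log (hM : Ms lam W Ω m) (hσ : ∀ γ, 0 ≤ σ γ) (h : SZ3 a π Ω m σ) :
    ∀ g : E, ∀ ε > 0, ∃ c : ℝ, 0 ≤ c ∧ ∀ N : ℕ,
      ‖m {γ | c * (N + 1) ^ 3 < Real.log (σ γ)} (π (g * a ^ N * g⁻¹)⁻¹ Ω)‖ ≤ ε := by
  intro g ε hε
  obtain ⟨C, hC⟩ := h g ε hε
  refine ⟨C, by positivity, fun N => ?_⟩
  refine le_trans (H458.Size.ms_mono hM (fun γ hγ => ?_) _) (hC N)
  have hγ' : (C : ℝ) * (N + 1) ^ 3 < Real.log (σ γ) := hγ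
  have h0 : (0 : ℝ) ≤ (C : ℝ) * (N + 1) ^ 3 := by positivity
  have hpos : 0 < σ γ := by
    rcases (hσ γ).eq_or_lt with h | h
    · rw [← h, Real.log_zero] at hγ'
      linarith
    · exact h
  change Real.exp ((C * (N + 1) ^ 3 : ℕ) : ℝ) < σ γ
  push_cast
  exact (Real.lt_log_iff_exp_lt hpos).1 hγ'

/-- sizes at the times `2 ^ j` -/
theorem SZ3.log8 (hM : Ms lam W Ω m) (hσ : ∀ γ, 0 ≤ σ γ) (h : SZ3 a π Ω m σ) :
    ∀ g : E, ∀ ε > 0, ∃ c : ℝ, ∀ j : ℕ,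
      ‖m {γ | c * 8 ^ j < Real.log (σ γ)} (π (g * a ^ (2 ^ j) * g⁻¹)⁻¹ Ω)‖ ≤ ε := by
  intro g ε hε
  obtain ⟨C, hC0, hC⟩ := h.log hM hσ g ε hε
  refine ⟨8 * C, fun j => ?_⟩
  refine le_trans (H458.Size.ms_mono hM (fun γ hγ => ?_) _) (hC (2 ^ j))
  refine lt_of_le_of_lt ?_ (show 8 * C * 8 ^ j < Real.log (σ γ) from hγ)
  have h1 : (1 : ℝ) ≤ 2 ^ j := one_le_pow₀ (by norm_num)
  have h2 : ((2 : ℝ) ^ j + 1) ^ 3 ≤ 8 * 8 ^ j := by
    calc ((2 : ℝ) ^ j + 1) ^ 3 ≤ (2 * 2 ^ j) ^ 3 := by gcongr; linarith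
      _ = 8 * (2 ^ 3) ^ j := by rw [mul_pow, ← pow_mul, ← pow_mul, mul_comm j 3]; norm_num
      _ = 8 * 8 ^ j := by norm_num
  push_cast
  calc (C : ℝ) * (2 ^ j + 1) ^ 3 ≤ C * (8 * 8 ^ j) := by gcongr
    _ = _ := by ring

/-- `SZ3` from the growth lemma -/
theorem sz3_of (hM : Ms lam W Ω m) {F : ℕ → Submodule ℂ K} {M : StarSubalgebra ℂ (K →L[ℂ] K)}
    (D : H221.Gr.GrD π M Ω F)
    (hF : ∀ J : ℕ, ∀ v ∈ F J, m {γ | Real.exp J < σ γ} v = 0)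
    (gap : ∀ g : E, Gap π M Ω (g * a * g⁻¹)⁻¹)
    (kap : ∀ h : E, ∀ ε : ℝ, 0 < ε → ∃ J, ∃ Z ∈ H221.Gr.CC π M Ω F J h, ‖(Z - 1) Ω‖ ≤ ε) :
    SZ3 a π Ω m σ := by
  intro g ε hε
  obtain ⟨C, hC⟩ := D.growth_vec_all (gap g) kap hε
  -- also for `N = 0`
  obtain ⟨C', hC'⟩ := D.growth_vec_all (a := (1 : E)) (by
    intro η hη
    obtain ⟨p, hp, l, hl, hg⟩ := gap g η hη
    exact ⟨p, hp, l, fun i => Commute.one_right _, hg⟩) kap hε
  refine ⟨max C C', fun N => ?_⟩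
  have key : ∃ v ∈ F (max C C' * (N + 1) ^ 3), ‖π (g * a ^ N * g⁻¹)⁻¹ Ω - v‖ ≤ ε := by
    have e : (g * a ^ N * g⁻¹)⁻¹ = ((g * a * g⁻¹)⁻¹) ^ N := by rw [inv_pow, conj_pow]
    rcases Nat.eq_zero_or_pos N with h0 | h0
    · obtain ⟨v, hv, hv1⟩ := hC' 1 le_rfl
      refine ⟨v, D.mono ?_ hv, ?_⟩
      · rw [h0]; simp
      · rw [e, h0, pow_zero]
        rwa [pow_one] at hv1
    · obtain ⟨v, hv, hv1⟩ := hC N h0
      refine ⟨v, D.mono ?_ hv, ?_⟩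
      · exact Nat.mul_le_mul (le_max_left _ _) (Nat.pow_le_pow_left (Nat.le_succ N) 3)
      · rw [e]; exact hv1
  obtain ⟨v, hv, hv1⟩ := key
  have h3 : m {γ | Real.exp ((max C C' * (N + 1) ^ 3 : ℕ) : ℝ) < σ γ} (π (g * a ^ N * g⁻¹)⁻¹ Ω) =
      m {γ | Real.exp ((max C C' * (N + 1) ^ 3 : ℕ) : ℝ) < σ γ}
        (π (g * a ^ N * g⁻¹)⁻¹ Ω - v) := by
    rw [map_sub, hF _ v hv, sub_zero]
  rw [h3]
  exact (H458.Size.ms_norm_le hM _ _).trans hv1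

end sz

/-! ### The concrete picture over `E ⧸ Λ` -/

section conc

variable {E : Type} [Group E] [TopologicalSpace E] [IsTopologicalGroup E] [LocallyCompactSpace E]
  [SecondCountableTopology E] [T2Space E] [MeasurableSpace E] [BorelSpace E]
  {Λ : Subgroup E} [DiscreteTopology Λ] [MeasurableSpace (E ⧸ Λ)] [BorelSpace (E ⧸ Λ)]
  {ν : Measure (E ⧸ Λ)} [IsProbabilityMeasure ν]
  (hν : ∀ g : E, ν.map (fun x => g • x) = ν) [Countable Λ]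
  {Γ Γ₂ K : Type} [Group Γ] [Group Γ₂] [Countable Γ] [Countable Γ₂] [NormedAddCommGroup K]
  [InnerProductSpace ℂ K] [CompleteSpace K] {ρ : Γ × Γ₂ →* (K →L[ℂ] K)} {ω : K}
  {V : Λ →* (K →L[ℂ] K)}

/-- **Polynomial sizes** for the concrete picture. -/
theorem sz3_lp (h : RegRep ρ ω) (hVa : ∀ v, adjoint (V v) = V v⁻¹) (hc : ∀ v, Cmm ρ (V v))
    (hirr : ∀ A : K →L[ℂ] K, Cmm ρ A → Cmm V A → ∃ c : ℂ, A = c • 1)
    (b : HilbertBasis (Γ × Γ₂) ℂ K) (hb : ∀ p, b p = ρ p ω)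
    {lam : Γ →* (Lp K 2 ν →L[ℂ] Lp K 2 ν)} {W : Set (Lp K 2 ν →L[ℂ] Lp K 2 ν)}
    (hM : Ms lam W (Lp.const 2 ν ω) (mm ν b Prod.fst))
    {D : ℕ → Set Γ} (hD : Flt D) {σ : Γ → ℝ} (hσ : ∀ J γ, γ ∈ D J → σ γ ≤ Real.exp J)
    {u : E} (hu : MooreSet E {u}) {a : E} (ha : LeviGap a) :
    SZ3 a (irep hν hVa) (Lp.const 2 ν ω) (mm ν b Prod.fst) σ := by
  have hD' : Flt (fun J => (MonoidHom.fst Γ Γ₂) ⁻¹' D J) := hD.comap _
  refine sz3_of hM (grD hν hVa h hc hD') ?_ ?_ ?_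
  · intro J v hv
    refine mm_eq_zero b Prod.fst fun i hi => ?_
    rw [hb]
    exact mem_SzV.1 hv i fun hmem => absurd (hσ J _ hmem) (not_le.2 hi)
  · intro g η hη
    exact gap_fin hν hVa h hc hirr hu (ha.conj g).inv η hη
  · intro g ε hε
    exact kap_gl hν h hVa hc hD' g hε

end conc

/-! ### The frame model (`H34/PicD`), both legs -/

section model

variable {E : Type} [Group E] [TopologicalSpace E] [IsTopologicalGroup E] [LocallyCompactSpace E]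
  [SecondCountableTopology E] [T2Space E] [MeasurableSpace E] [BorelSpace E]
  {Γ : Subgroup E} [DiscreteTopology Γ] [Countable Γ] [MeasurableSpace (E ⧸ Γ)]
  [BorelSpace (E ⧸ Γ)] {ν : Measure (E ⧸ Γ)} [IsProbabilityMeasure ν]
  (hν : ∀ g : E, ν.map (fun x => g • x) = ν)
  {Λ : Type} [Group Λ] {α : Γ →* (Ell2 Λ →L[ℂ] Ell2 Λ)} (hα : Frame α)
  (hΛ : ∀ s : Λ, s ≠ 1 → Set.Infinite {y : Λ | ∃ h, y = h * s * h⁻¹})
  {lam : Γ →* (KK ν Λ →L[ℂ] KK ν Λ)} {W : Set (KK ν Λ →L[ℂ] KK ν Λ)}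
  (b : HilbertBasis (Γ × Γ) ℂ (Ell2 (Λ × Λ)))

include hΛ

theorem sz3₁ (hb : ∀ γ s, b (γ, s) = RR₁ α γ (RR₂ α s (dl 1)))
    (hM : Ms lam W (Om ν Λ) (mm ν b Prod.fst))
    {D : ℕ → Set Γ} (hD : Flt D) {σ : Γ → ℝ} (hσ : ∀ J γ, γ ∈ D J → σ γ ≤ Real.exp J)
    {u : E} (hu : MooreSet E {u}) {a : E} (ha : LeviGap a) :
    SZ3 a (pic hν hα) (Om ν Λ) (mm ν b Prod.fst) σ :=
  sz3_lp hν (regRep_RR hα) (adj_VV hα) (cmm_RR_VV hα) (irr_RR hα hΛ) b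
    (by rintro ⟨g, h⟩; rw [hb, RR_eq]; rfl) hM hD hσ hu ha

theorem sz3₂ (hb : ∀ γ s, b (γ, s) = RR₂ α γ (RR₁ α s (dl 1)))
    (hM : Ms lam W (Om ν Λ) (mm ν b Prod.fst))
    {D : ℕ → Set Γ} (hD : Flt D) {σ : Γ → ℝ} (hσ : ∀ J γ, γ ∈ D J → σ γ ≤ Real.exp J)
    {u : E} (hu : MooreSet E {u}) {a : E} (ha : LeviGap a) :
    SZ3 a (pic hν hα) (Om ν Λ) (mm ν b Prod.fst) σ :=
  sz3_lp hν (regRep_RRs hα) (adj_VV hα) (cmm_RRs_VV hα) (irr_RRs hα hΛ) b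
    (by rintro ⟨g, h⟩; rw [hb, RRs_eq]; rfl) hM hD hσ hu ha

end model

end Vale.Agent.P092.H725.SN
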