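import Vale.Agent.P092.H725.SN.Size

/-!
P092 (helper725), team N, [N-SIZE], second part: the gap of the finite algebra and polynomial sizes
for EVERY locally compact group with a lattice (no Moore set; the lattice may be reducible), and the
property `LeviGap` for finite products and along homomorphisms.
-/

set_option linter.all false

open scoped InnerProductSpace ENNReal
open Set Filter Topology MeasureTheory ContinuousLinearMap
open Matrix (SpecialLinearGroup)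

namespace Vale.Agent.P092.H725.SN

open Vale.Agent.P092.H790 Vale.Agent.P092.H85
open Vale.Agent.P092.H160 Vale.Agent.P092.H933 Vale.Agent.P092.H368 Vale.Agent.P092.H103
open Vale.Agent.P092.SD (Ms)
open Vale.Agent.P092.H725
open Vale.Agent.P092.SR Vale.Agent.P092.H839
open Vale.Agent.P092.RC (Cm KK pic lam₁ lam₂ XX Om)

/-! ### The minimal vector of an invariant convex set -/

theorem exists_fixed_min {G H : Type} [Group G] [NormedAddCommGroup H] [InnerProductSpace ℂ H]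
    [CompleteSpace H] {σ : G →* (H →L[ℂ] H)} (hσ : ∀ g ξ, ‖σ g ξ‖ = ‖ξ‖) {S : Set H}
    (hne : S.Nonempty) (hconv' : ∀ x ∈ S, ∀ y ∈ S, ∀ s t : ℝ, 0 ≤ s → 0 ≤ t → s + t = 1 →
      (s : ℂ) • x + (t : ℂ) • y ∈ S) (hinv : ∀ g, ∀ x ∈ S, σ g x ∈ S) :
    ∃ ζ ∈ closure S, ∀ g, σ g ζ = ζ := by
  letI : InnerProductSpace ℝ H := InnerProductSpace.complexToReal
  have hconv : Convex ℝ S := fun x hx y hy s t hs ht hst => hconv' x hx y hy s t hs ht hst
  have hcomp : IsComplete (closure S) := isClosed_closure.isComplete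
  obtain ⟨ζ, hζ, hmin⟩ := exists_norm_eq_iInf_of_complete_convex hne.closure hcomp
    hconv.closure (0 : H)
  rw [norm_eq_iInf_iff_real_inner_le_zero hconv.closure hζ] at hmin
  refine ⟨ζ, hζ, fun g => ?_⟩
  have hgζ : σ g ζ ∈ closure S := by
    have h1 : MapsTo (σ g) S S := fun x hx => hinv g x hx
    exact h1.closure (σ g).continuous hζ
  have h1 := hmin _ hgζ
  rw [zero_sub, inner_neg_left, inner_sub_right] at h1
  have h2 : ‖σ g ζ - ζ‖ ^ 2 = 0 := by
    have h3 := norm_sub_sq_real (σ g ζ) ζ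
    rw [hσ] at h3
    have h4 : ⟪σ g ζ, ζ⟫_ℝ = ⟪ζ, σ g ζ⟫_ℝ := real_inner_comm _ _
    have h5 : ⟪ζ, ζ⟫_ℝ = ‖ζ‖ ^ 2 := real_inner_self_eq_norm_sq _
    have h6 := sq_nonneg ‖σ g ζ - ζ‖
    rw [h4] at h3
    rw [h5] at h1
    linarith
  rw [sq_eq_zero_iff, norm_eq_zero, sub_eq_zero] at h2
  exact h2

theorem mooreSet_univ (E : Type) [Group E] [TopologicalSpace E] : MooreSet E univ :=
  fun 𝓗 _ _ _ σ _ ξ h g => h g (mem_univ g)

/-! ### The gap of the finite algebra, every lattice -/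

section gap

variable {E : Type} [Group E] [TopologicalSpace E] [IsTopologicalGroup E] [LocallyCompactSpace E]
  [SecondCountableTopology E] [T2Space E] [MeasurableSpace E] [BorelSpace E]
  {Λ : Subgroup E} [DiscreteTopology Λ] [MeasurableSpace (E ⧸ Λ)] [BorelSpace (E ⧸ Λ)]
  {ν : Measure (E ⧸ Λ)} [IsProbabilityMeasure ν]
  (hν : ∀ g : E, ν.map (fun x => g • x) = ν)
  {Γ K : Type} [Group Γ] [NormedAddCommGroup K] [InnerProductSpace ℂ K] [CompleteSpace K]
  {ρ : Γ →* (K →L[ℂ] K)} {ω : K} [Countable Λ] [Countable Γ]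
  {V : Λ →* (K →L[ℂ] K)} (hVa : ∀ v, adjoint (V v) = V v⁻¹)

include hVa in
/-- The vectors `x Ω - τ(x) Ω` are orthogonal to the fixed vectors. -/
theorem sg_orth' (h : RegRep ρ ω) (hc : ∀ v, Cmm ρ (V v))
    (hirr : ∀ A : K →L[ℂ] K, Cmm ρ A → Cmm V A → ∃ c : ℂ, A = c • 1)
    {x : Lp K 2 ν →L[ℂ] Lp K 2 ν} (hx : x ∈ FinM ν h.adj)
    {η : Lp K 2 ν} (hη : η ∈ fixedSub (sg hν hVa h hc)) :
    ⟪η, x (Lp.const 2 ν ω) - ⟪Lp.const 2 ν ω, x (Lp.const 2 ν ω)⟫_ℂ • Lp.const 2 ν ω⟫_ℂ = 0 := by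
  have hU := sg_urep hν hVa h hc
  obtain ⟨Ω, hΩ⟩ : ∃ Ω : Lp K 2 ν, Ω = Lp.const 2 ν ω := ⟨_, rfl⟩
  -- the convex set
  obtain ⟨S, hS⟩ : ∃ S : Set (Lp K 2 ν), S = {y | ∃ T ∈ FinM ν h.adj, ‖T‖ ≤ ‖x‖ ∧
      (∀ w ∈ fixedSub (sg hν hVa h hc), ⟪w, T Ω⟫_ℂ = ⟪w, x Ω⟫_ℂ) ∧ T Ω = y} := ⟨_, rfl⟩
  have hfixΩ : ∀ g, sg hν hVa h hc g Ω = Ω := by
    intro g
    have h1 := sg_apply hν hVa h hc g (T := 1) (one_mem _)
    rw [mul_one, ← map_mul, mul_inv_cancel, map_one] at h1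
    rw [hΩ]
    exact h1
  have hne : S.Nonempty := ⟨x Ω, by
    rw [hS]
    exact ⟨x, hx, le_rfl, fun w _ => rfl, rfl⟩⟩
  have hconv : ∀ x ∈ S, ∀ y ∈ S, ∀ s t : ℝ, 0 ≤ s → 0 ≤ t → s + t = 1 →
      (s : ℂ) • x + (t : ℂ) • y ∈ S := by
    rw [hS]
    rintro _ ⟨T, hT, hT1, hT2, rfl⟩ _ ⟨T', hT', hT1', hT2', rfl⟩ s t hs ht hst
    refine ⟨(s : ℂ) • T + (t : ℂ) • T', add_mem ((FinM ν h.adj).smul_mem hT _)
      ((FinM ν h.adj).smul_mem hT' _), ?_, fun w hw => ?_, ?_⟩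
    · refine (norm_add_le _ _).trans ?_
      rw [norm_smul, norm_smul, Complex.norm_real, Complex.norm_real, Real.norm_of_nonneg hs,
        Real.norm_of_nonneg ht]
      calc s * ‖T‖ + t * ‖T'‖ ≤ s * ‖x‖ + t * ‖x‖ := by gcongr
        _ = ‖x‖ := by rw [← add_mul, hst, one_mul]
    · rw [add_apply, smul_apply, smul_apply, inner_add_right, inner_smul_right, inner_smul_right,
        hT2 w hw, hT2' w hw, ← add_mul, ← Complex.ofReal_add, hst, Complex.ofReal_one, one_mul]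
    · rw [add_apply, smul_apply, smul_apply]
  have hinv : ∀ g, ∀ y ∈ S, sg hν hVa h hc g y ∈ S := by
    rw [hS]
    rintro g _ ⟨T, hT, hT1, hT2, rfl⟩
    refine ⟨irep hν hVa g * T * irep hν hVa g⁻¹, conj_mem hν hVa h hc g hT,
      (norm_conj_le hν hVa g T).trans hT1, fun w hw => ?_, ?_⟩
    · rw [← hT2 w hw, hΩ, ← sg_apply hν hVa h hc g hT, hU.inner_right, hw]
    · rw [hΩ, ← sg_apply hν hVa h hc g hT]
  obtain ⟨ζ, hζ, hζf⟩ := exists_fixed_min hU.iso hne hconv hinv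
  obtain ⟨z₀, hz₀, hz₀l⟩ := mem_closure_iff_seq_limit.1 hζ
  have hz₀' : ∀ n, ∃ T ∈ FinM ν h.adj, ‖T‖ ≤ ‖x‖ ∧
      (∀ w ∈ fixedSub (sg hν hVa h hc), ⟪w, T Ω⟫_ℂ = ⟪w, x Ω⟫_ℂ) ∧ T Ω = z₀ n := by
    intro n
    have := hz₀ n
    rwa [hS] at this
  choose T hT hT1 hT2 hT3 using hz₀'
  have hlim : Tendsto (fun n => T n (Lp.const 2 ν ω)) atTop (𝓝 ζ) := by
    rw [← hΩ]
    simp only [hT3]
    exact hz₀l
  obtain ⟨z, hz, -, hzΩ⟩ := FinM.lim h hT hT1 hlim
  have hzc : ∀ g, irep hν hVa g * z * irep hν hVa g⁻¹ = z := by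
    intro g
    refine FinM.ext h (conj_mem hν hVa h hc g hz) hz ?_
    rw [← sg_apply hν hVa h hc g hz, hzΩ, hζf g]
  obtain ⟨c, hc'⟩ := a1 hν h hVa hc hirr (R := univ) (mooreSet_univ E) (T := z) hz.1 hz.2 (by
    intro q _
    have h1 := hzc q
    have h2 : irep hν hVa q⁻¹ * irep hν hVa q = 1 := by
      rw [← map_mul, inv_mul_cancel, map_one]
    have h3 : z * irep hν hVa q = irep hν hVa q * z := by
      calc z * irep hν hVa q = irep hν hVa q * z * irep hν hVa q⁻¹ * irep hν hVa q := by rw [h1]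
        _ = _ := by rw [mul_assoc, h2, mul_one]
    exact h3)
  have hζc : ζ = c • Ω := by
    rw [← hzΩ, hc', hΩ]
    rfl
  have hlw : ∀ w ∈ fixedSub (sg hν hVa h hc), ⟪w, ζ⟫_ℂ = ⟪w, x Ω⟫_ℂ := by
    intro w hw
    have h1 : Tendsto (fun n => ⟪w, z₀ n⟫_ℂ) atTop (𝓝 ⟪w, ζ⟫_ℂ) :=
      tendsto_const_nhds.inner hz₀l
    refine tendsto_nhds_unique h1 ?_
    have e : (fun n => ⟪w, z₀ n⟫_ℂ) = fun _ => ⟪w, x Ω⟫_ℂ := by
      funext n
      rw [← hT3 n, hT2 n w hw]
    rw [e]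
    exact tendsto_const_nhds
  have hcv : c = ⟪Ω, x Ω⟫_ℂ := by
    have h1 := hlw Ω hfixΩ
    rw [hζc, inner_smul_right, inner_self_eq_norm_sq_to_K, hΩ, norm_const h] at h1
    simp only [RCLike.ofReal_one, one_pow, mul_one] at h1
    rw [hΩ]
    exact h1
  rw [← hΩ, ← hcv, ← hζc, inner_sub_right, hlw η hη, sub_self]

include hVa in
/-- **the gap hypothesis of the growth lemma, every lattice** -/
theorem gap_fin' (h : RegRep ρ ω) (hc : ∀ v, Cmm ρ (V v))
    (hirr : ∀ A : K →L[ℂ] K, Cmm ρ A → Cmm V A → ∃ c : ℂ, A = c • 1)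
    {a : E} (ha : LeviGap a) (η : ℝ) (hη : 0 < η) :
    ∃ p : ℕ, 0 < p ∧ ∃ l : Fin p → E, (∀ i, Commute (l i) a) ∧
      ∀ x ∈ FinM ν h.adj, ‖x‖ ≤ 1 →
        ‖(((p : ℂ)⁻¹) • ∑ i, irep hν hVa (l i) * x * irep hν hVa (l i)⁻¹) (Lp.const 2 ν ω) -
          ⟪Lp.const 2 ν ω, x (Lp.const 2 ν ω)⟫_ℂ • Lp.const 2 ν ω‖ ≤ η := by
  have hU := sg_urep hν hVa h hc
  obtain ⟨p, hp, l, hl, hl'⟩ := ha (Lp K 2 ν) (sg hν hVa h hc) hU (η / 2) (by positivity)
  refine ⟨p, hp, l, hl, fun x hx hx1 => ?_⟩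
  obtain ⟨Ω, hΩ⟩ : ∃ Ω : Lp K 2 ν, Ω = Lp.const 2 ν ω := ⟨_, rfl⟩
  have h1 := hl' (x Ω - ⟪Ω, x Ω⟫_ℂ • Ω) (fun w hw => by
    rw [hΩ]
    exact sg_orth' hν hVa h hc hirr hx hw)
  have hΩ1 : ‖Ω‖ = 1 := by rw [hΩ]; exact norm_const h
  have hxΩ : ‖x Ω‖ ≤ 1 := by
    refine (x.le_opNorm _).trans ?_
    rw [hΩ1, mul_one]; exact hx1
  have h2 : ‖x Ω - ⟪Ω, x Ω⟫_ℂ • Ω‖ ≤ 2 := by
    refine (norm_sub_le _ _).trans ?_
    rw [norm_smul, hΩ1, mul_one]
    have h3 : ‖⟪Ω, x Ω⟫_ℂ‖ ≤ 1 := by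
      refine (norm_inner_le_norm _ _).trans ?_
      rw [hΩ1, one_mul]; exact hxΩ
    linarith
  have hfix : ∀ g, sg hν hVa h hc g Ω = Ω := by
    intro g
    have h1 := sg_apply hν hVa h hc g (T := 1) (one_mem _)
    rw [mul_one, ← map_mul, mul_inv_cancel, map_one] at h1
    rw [hΩ]
    exact h1
  have hp' : (p : ℂ) ≠ 0 := by exact_mod_cast hp.ne'
  have e : (((p : ℂ)⁻¹) • ∑ i, irep hν hVa (l i) * x * irep hν hVa (l i)⁻¹) Ω -
      ⟪Ω, x Ω⟫_ℂ • Ω = ((p : ℂ))⁻¹ • ∑ i, sg hν hVa h hc (l i) (x Ω - ⟪Ω, x Ω⟫_ℂ • Ω) := by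
    have e1 : ∀ i, sg hν hVa h hc (l i) (x Ω - ⟪Ω, x Ω⟫_ℂ • Ω) =
        (irep hν hVa (l i) * x * irep hν hVa (l i)⁻¹) Ω - ⟪Ω, x Ω⟫_ℂ • Ω := by
      intro i
      rw [map_sub, map_smul, hfix, hΩ, sg_apply hν hVa h hc (l i) hx]
    simp only [e1]
    rw [Finset.sum_sub_distrib, smul_sub, Finset.sum_const, Finset.card_univ, Fintype.card_fin,
      ← Nat.cast_smul_eq_nsmul ℂ, smul_smul (((p : ℕ) : ℂ)⁻¹) ((p : ℕ) : ℂ), inv_mul_cancel₀ hp',
      one_smul, smul_apply, sum_apply]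
  rw [← hΩ, e]
  calc _ ≤ η / 2 * ‖x Ω - ⟪Ω, x Ω⟫_ℂ • Ω‖ := h1
    _ ≤ η / 2 * 2 := by gcongr
    _ = η := by ring

end gap

/-! ### Polynomial sizes, every lattice -/

section conc

variable {E : Type} [Group E] [TopologicalSpace E] [IsTopologicalGroup E] [LocallyCompactSpace E]
  [SecondCountableTopology E] [T2Space E] [MeasurableSpace E] [BorelSpace E]
  {Λ : Subgroup E} [DiscreteTopology Λ] [MeasurableSpace (E ⧸ Λ)] [BorelSpace (E ⧸ Λ)]
  {ν : Measure (E ⧸ Λ)} [IsProbabilityMeasure ν]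
  (hν : ∀ g : E, ν.map (fun x => g • x) = ν) [Countable Λ]
  {Γ Γ₂ K : Type} [Group Γ] [Group Γ₂] [Countable Γ] [Countable Γ₂] [NormedAddCommGroup K]
  [InnerProductSpace ℂ K] [CompleteSpace K] {ρ : Γ × Γ₂ →* (K →L[ℂ] K)} {ω : K}
  {V : Λ →* (K →L[ℂ] K)}

/-- **Polynomial sizes** for the concrete picture, every lattice. -/
theorem sz3_lp' (h : RegRep ρ ω) (hVa : ∀ v, adjoint (V v) = V v⁻¹) (hc : ∀ v, Cmm ρ (V v))
    (hirr : ∀ A : K →L[ℂ] K, Cmm ρ A → Cmm V A → ∃ c : ℂ, A = c • 1)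
    (b : HilbertBasis (Γ × Γ₂) ℂ K) (hb : ∀ p, b p = ρ p ω)
    {lam : Γ →* (Lp K 2 ν →L[ℂ] Lp K 2 ν)} {W : Set (Lp K 2 ν →L[ℂ] Lp K 2 ν)}
    (hM : Ms lam W (Lp.const 2 ν ω) (mm ν b Prod.fst))
    {D : ℕ → Set Γ} (hD : Flt D) {σ : Γ → ℝ} (hσ : ∀ J γ, γ ∈ D J → σ γ ≤ Real.exp J)
    {a : E} (ha : LeviGap a) :
    SZ3 a (irep hν hVa) (Lp.const 2 ν ω) (mm ν b Prod.fst) σ := by
  have hD' : Flt (fun J => (MonoidHom.fst Γ Γ₂) ⁻¹' D J) := hD.comap _
  refine sz3_of hM (grD hν hVa h hc hD') ?_ ?_ ?_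
  · intro J v hv
    refine mm_eq_zero b Prod.fst fun i hi => ?_
    rw [hb]
    exact mem_SzV.1 hv i fun hmem => absurd (hσ J _ hmem) (not_le.2 hi)
  · intro g η hη
    exact gap_fin' hν hVa h hc hirr (ha.conj g).inv η hη
  · intro g ε hε
    exact kap_gl hν h hVa hc hD' g hε

end conc

section model

variable {E : Type} [Group E] [TopologicalSpace E] [IsTopologicalGroup E] [LocallyCompactSpace E]
  [SecondCountableTopology E] [T2Space E] [MeasurableSpace E] [BorelSpace E]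
  {Γ : Subgroup E} [DiscreteTopology Γ] [Countable Γ] [MeasurableSpace (E ⧸ Γ)]
  [BorelSpace (E ⧸ Γ)] {ν : Measure (E ⧸ Γ)} [IsProbabilityMeasure ν]
  (hν : ∀ g : E, ν.map (fun x => g • x) = ν)
  {Λ : Type} [Group Λ] {α : Γ →* (Ell2 Λ →L[ℂ] Ell2 Λ)} (hα : Frame α)
  (hΛ : ∀ s : Λ, s ≠ 1 → Set.Infinite {y : Λ | ∃ h, y = h * s * h⁻¹})
  {lam : Γ →* (KK ν Λ →L[ℂ] KK ν Λ)} {W : Set (KK ν Λ →L[ℂ] KK ν Λ)}
  (b : HilbertBasis (Γ × Γ) ℂ (Ell2 (Λ × Λ)))

include hΛ

/-- **Polynomial sizes, frame model, first leg, every lattice of every group.** -/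
theorem sz3₁' (hb : ∀ γ s, b (γ, s) = RR₁ α γ (RR₂ α s (dl 1)))
    (hM : Ms lam W (Om ν Λ) (mm ν b Prod.fst))
    {D : ℕ → Set Γ} (hD : Flt D) {σ : Γ → ℝ} (hσ : ∀ J γ, γ ∈ D J → σ γ ≤ Real.exp J)
    {a : E} (ha : LeviGap a) :
    SZ3 a (pic hν hα) (Om ν Λ) (mm ν b Prod.fst) σ :=
  sz3_lp' hν (regRep_RR hα) (adj_VV hα) (cmm_RR_VV hα) (irr_RR hα hΛ) b
    (by rintro ⟨g, h⟩; rw [hb, RR_eq]; rfl) hM hD hσ ha

/-- **Polynomial sizes, frame model, second leg, every lattice of every group.** -/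
theorem sz3₂' (hb : ∀ γ s, b (γ, s) = RR₂ α γ (RR₁ α s (dl 1)))
    (hM : Ms lam W (Om ν Λ) (mm ν b Prod.fst))
    {D : ℕ → Set Γ} (hD : Flt D) {σ : Γ → ℝ} (hσ : ∀ J γ, γ ∈ D J → σ γ ≤ Real.exp J)
    {a : E} (ha : LeviGap a) :
    SZ3 a (pic hν hα) (Om ν Λ) (mm ν b Prod.fst) σ :=
  sz3_lp' hν (regRep_RRs hα) (adj_VV hα) (cmm_RRs_VV hα) (irr_RRs hα hΛ) b
    (by rintro ⟨g, h⟩; rw [hb, RRs_eq]; rfl) hM hD hσ ha

end model

/-! ### `LeviGap` for products and along homomorphisms -/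

section prod

theorem URep.sum_norm_le {E 𝓗 : Type} [Group E] [TopologicalSpace E] [NormedAddCommGroup 𝓗]
    [InnerProductSpace ℂ 𝓗] {σ : E →* (𝓗 →L[ℂ] 𝓗)} (hσ : URep σ) {p : ℕ}
    (hp : 0 < p) (l : Fin p → E) (v : 𝓗) : ‖((p : ℂ))⁻¹ • ∑ i, σ (l i) v‖ ≤ ‖v‖ := by
  rw [norm_smul, norm_inv, Complex.norm_natCast]
  have hp' : (0 : ℝ) < p := by exact_mod_cast hp
  rw [inv_mul_le_iff₀ hp']
  refine (norm_sum_le _ _).trans ?_
  simp only [hσ.iso]
  simp

/-- **`LeviGap` from a finite family of commuting homomorphisms.** -/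
theorem leviGap_family {J : Type} [Finite J] {E : Type} [Group E] [TopologicalSpace E]
    {F : J → Type} [∀ j, Group (F j)] [∀ j, TopologicalSpace (F j)] (f : ∀ j, F j →* E)
    (hf : ∀ j, ContinuousAt (f j) 1) (hcomm : ∀ i j, i ≠ j → ∀ x y, Commute (f i x) (f j y))
    (hfix : ∀ (𝓗 : Type) [NormedAddCommGroup 𝓗] [InnerProductSpace ℂ 𝓗] [CompleteSpace 𝓗]
      (σ : E →* (𝓗 →L[ℂ] 𝓗)), URep σ → ∀ ξ, (∀ j x, σ (f j x) ξ = ξ) → ∀ g, σ g ξ = ξ)
    {a : E} (ha : ∀ j, ∃ b : F j, LeviGap b ∧ ∀ l, Commute l b → Commute (f j l) a) :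
    LeviGap a := by
  classical
  haveI := Fintype.ofFinite J
  intro 𝓗 _ _ _ σ hσ
  -- the vectors fixed by the groups of a subset
  have key : ∀ s : Finset J, ∀ e : ℝ, 0 < e → ∃ (p : ℕ) (_ : 0 < p) (l : Fin p → E),
      (∀ i, Commute (l i) a) ∧
      ∀ v : 𝓗, (∀ η : 𝓗, (∀ j ∈ s, ∀ x, σ (f j x) η = η) → ⟪η, v⟫_ℂ = 0) →
        ‖((p : ℂ))⁻¹ • ∑ i, σ (l i) v‖ ≤ e * ‖v‖ := by
    intro s
    induction s using Finset.induction_on with
    | empty =>
      intro e he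
      refine ⟨1, one_pos, fun _ => 1, fun _ => Commute.one_left _, fun v hv => ?_⟩
      have h1 : v = 0 := by
        have := hv v (fun j hj => absurd hj (Finset.notMem_empty j))
        exact inner_self_eq_zero.1 this
      rw [h1]
      simp
    | insert j s hj ih =>
      intro e he
      obtain ⟨p, hp, l, hl, hlv⟩ := ih (e / 2) (by positivity)
      obtain ⟨b, hb, hba⟩ := ha j
      have hσj : URep (σ.comp (f j)) := hσ.comp (f j) (hf j)
      obtain ⟨p', hp', l', hl', hlv'⟩ := hb 𝓗 (σ.comp (f j)) hσj (e / 2) (by positivity)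
      refine ⟨p * p', Nat.mul_pos hp hp', fun i => l (finProdFinEquiv.symm i).1 *
        f j (l' (finProdFinEquiv.symm i).2), fun i => (hl _).mul_left (hba _ (hl' _)),
        fun v hv => ?_⟩
      -- the projection on the fixed vectors of the new factor
      obtain ⟨P, hP⟩ : ∃ P : 𝓗 →L[ℂ] 𝓗, P = (fixedSub (σ.comp (f j))).starProjection := ⟨_, rfl⟩
      have hPmem : ∀ w, P w ∈ fixedSub (σ.comp (f j)) := fun w => by
        rw [hP]; exact Submodule.starProjection_apply_mem _ _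
      have hPorth : ∀ w, ∀ η ∈ fixedSub (σ.comp (f j)), ⟪η, w - P w⟫_ℂ = 0 := fun w η hη => by
        have h1 : ⟪w - (fixedSub (σ.comp (f j))).starProjection w, η⟫_ℂ = 0 :=
          Submodule.starProjection_inner_eq_zero w η hη
        rw [hP, ← inner_conj_symm, h1, map_zero]
      have hPnorm : ∀ w, ‖P w‖ ≤ ‖w‖ := fun w => by
        rw [hP]; exact Submodule.norm_starProjection_apply_le _ w
      have hPsub : ∀ w, ‖w - P w‖ ≤ ‖w‖ := by
        intro w
        have h1 : ⟪P w, w - P w⟫_ℂ = 0 := hPorth w _ (hPmem w)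
        have h2 : ‖w‖ * ‖w‖ = ‖P w‖ * ‖P w‖ + ‖w - P w‖ * ‖w - P w‖ := by
          have := norm_add_sq_eq_norm_sq_add_norm_sq_of_inner_eq_zero (𝕜 := ℂ) (P w) (w - P w) h1
          rwa [add_sub_cancel] at this
        have h3 := mul_self_nonneg ‖P w‖
        nlinarith [norm_nonneg w, norm_nonneg (w - P w)]
      -- the projection is uniquely determined and commutes
      have hPcomm : ∀ i ∈ s, ∀ x w, P (σ (f i x) w) = σ (f i x) (P w) := by
        intro i hi x w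
        have hij : i ≠ j := fun h => hj (h ▸ hi)
        have m1 : σ (f i x) (P w) ∈ fixedSub (σ.comp (f j)) := by
          intro y
          have h1 := hPmem w y
          change σ (f j y) (σ (f i x) (P w)) = σ (f i x) (P w)
          rw [← URep.mul_apply, ← (hcomm i j hij x y).eq, URep.mul_apply]
          exact congrArg _ h1
        have m2 : ∀ η ∈ fixedSub (σ.comp (f j)),
            ⟪η, σ (f i x) w - σ (f i x) (P w)⟫_ℂ = 0 := by
          intro η hη
          rw [← map_sub, hσ.inner_right]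
          refine hPorth w _ fun y => ?_
          have h1 := hη y
          change σ (f j y) (σ (f i x)⁻¹ η) = σ (f i x)⁻¹ η
          rw [← URep.mul_apply, ← (hcomm i j hij x y).inv_left.eq, URep.mul_apply]
          exact congrArg _ h1
        have m3 := sub_mem (hPmem (σ (f i x) w)) m1
        have m4 : ⟪P (σ (f i x) w) - σ (f i x) (P w),
            P (σ (f i x) w) - σ (f i x) (P w)⟫_ℂ = 0 := by
          have e1 : P (σ (f i x) w) - σ (f i x) (P w) =
              (σ (f i x) w - σ (f i x) (P w)) - (σ (f i x) w - P (σ (f i x) w)) := by abel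
          conv_lhs => rw [e1]
          rw [inner_sub_left]
          have s1 : ⟪σ (f i x) w - σ (f i x) (P w), P (σ (f i x) w) - σ (f i x) (P w)⟫_ℂ = 0 := by
            rw [← inner_conj_symm, m2 _ m3, map_zero]
          have s2 : ⟪σ (f i x) w - P (σ (f i x) w), P (σ (f i x) w) - σ (f i x) (P w)⟫_ℂ = 0 := by
            rw [← inner_conj_symm, hPorth _ _ m3, map_zero]
          rw [← e1, s1, s2, sub_zero]
        exact sub_eq_zero.1 (inner_self_eq_zero.1 m4)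
      -- the mean over the product
      have hmean : ∀ w : 𝓗, (((p * p' : ℕ) : ℂ))⁻¹ • ∑ i : Fin (p * p'),
          σ (l (finProdFinEquiv.symm i).1 * f j (l' (finProdFinEquiv.symm i).2)) w =
          ((p : ℂ))⁻¹ • ∑ i, σ (l i) (((p' : ℂ))⁻¹ • ∑ i', (σ.comp (f j)) (l' i') w) := by
        intro w
        have h1 : ∑ i : Fin (p * p'),
            σ (l (finProdFinEquiv.symm i).1 * f j (l' (finProdFinEquiv.symm i).2)) w =
            ∑ q : Fin p × Fin p', σ (l q.1 * f j (l' q.2)) w :=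
          Fintype.sum_equiv finProdFinEquiv.symm _ _ fun i => rfl
        rw [h1, Fintype.sum_prod_type]
        push_cast
        rw [mul_inv, mul_smul]
        congr 1
        rw [Finset.smul_sum]
        refine Finset.sum_congr rfl fun i _ => ?_
        rw [map_smul, map_sum]
        congr 1
        refine Finset.sum_congr rfl fun i' _ => ?_
        rw [URep.mul_apply]
        rfl
      rw [hmean]
      -- split
      have hκP : ((p' : ℂ))⁻¹ • ∑ i', (σ.comp (f j)) (l' i') v =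
          ((p' : ℂ))⁻¹ • ∑ i', (σ.comp (f j)) (l' i') (v - P v) + P v := by
        have h1 : ∀ i', (σ.comp (f j)) (l' i') v =
            (σ.comp (f j)) (l' i') (v - P v) + P v := by
          intro i'
          rw [map_sub, hPmem v (l' i'), sub_add_cancel]
        simp only [h1]
        rw [Finset.sum_add_distrib, smul_add, Finset.sum_const, Finset.card_univ,
          Fintype.card_fin, ← Nat.cast_smul_eq_nsmul ℂ,
          smul_smul (((p' : ℕ) : ℂ)⁻¹) ((p' : ℕ) : ℂ),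
          inv_mul_cancel₀ (by exact_mod_cast hp'.ne'), one_smul]
      rw [hκP]
      have hlin : ((p : ℂ))⁻¹ • ∑ i, σ (l i)
          (((p' : ℂ))⁻¹ • ∑ i', (σ.comp (f j)) (l' i') (v - P v) + P v) =
          ((p : ℂ))⁻¹ • ∑ i, σ (l i) (((p' : ℂ))⁻¹ • ∑ i', (σ.comp (f j)) (l' i') (v - P v)) +
          ((p : ℂ))⁻¹ • ∑ i, σ (l i) (P v) := by
        rw [← smul_add, ← Finset.sum_add_distrib]
        congr 1
        exact Finset.sum_congr rfl fun i _ => map_add _ _ _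
      rw [hlin]
      have b1 : ‖((p : ℂ))⁻¹ • ∑ i, σ (l i)
          (((p' : ℂ))⁻¹ • ∑ i', (σ.comp (f j)) (l' i') (v - P v))‖ ≤ e / 2 * ‖v‖ := by
        refine (URep.sum_norm_le hσ hp l _).trans ?_
        refine (hlv' (v - P v) fun η hη => hPorth v η hη).trans ?_
        exact mul_le_mul_of_nonneg_left (hPsub v) (by positivity)
      have b2 : ‖((p : ℂ))⁻¹ • ∑ i, σ (l i) (P v)‖ ≤ e / 2 * ‖v‖ := by
        refine (hlv (P v) fun η hη => ?_).trans
          (mul_le_mul_of_nonneg_left (hPnorm v) (by positivity))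
        have h1 : ⟪η, P v⟫_ℂ = ⟪P η, v⟫_ℂ := by
          have s1 : ⟪η - P η, P v⟫_ℂ = 0 := by
            rw [← inner_conj_symm, hPorth η _ (hPmem v), map_zero]
          have s2 : ⟪P η, v - P v⟫_ℂ = 0 := hPorth v _ (hPmem η)
          rw [inner_sub_left, sub_eq_zero] at s1
          rw [inner_sub_right, sub_eq_zero] at s2
          rw [s1, s2]
        rw [h1]
        refine hv (P η) fun i hi x => ?_
        rcases Finset.mem_insert.1 hi with rfl | hi'
        · exact hPmem η x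
        · rw [← hPcomm i hi', hη i hi']
      refine (norm_add_le _ _).trans ?_
      linarith
  intro e he
  obtain ⟨p, hp, l, hl, hlv⟩ := key Finset.univ e he
  refine ⟨p, hp, l, hl, fun v hv => hlv v fun η hη => hv η ?_⟩
  exact fun g => hfix 𝓗 σ hσ η (fun j x => hη j (Finset.mem_univ j) x) g

/-- along a surjective continuous homomorphism -/
theorem leviGap_map {E F : Type} [Group E] [TopologicalSpace E] [Group F] [TopologicalSpace F]
    (f : F →* E) (hf : ContinuousAt f 1) (hs : Function.Surjective f) {b : F} (hb : LeviGap b) :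
    LeviGap (f b) := by
  refine leviGap_family (J := Unit) (F := fun _ => F) (fun _ => f) (fun _ => hf)
    (fun i j hij => absurd (Subsingleton.elim i j) hij) ?_
    (fun _ => ⟨b, hb, fun l hl => hl.map f⟩)
  intro 𝓗 _ _ _ σ hσ ξ hξ g
  obtain ⟨x, rfl⟩ := hs g
  exact hξ () x

/-- **finite products** -/
theorem leviGap_pi {J : Type} [Finite J] {F : J → Type} [∀ j, Group (F j)]
    [∀ j, TopologicalSpace (F j)] {a : ∀ j, F j} (ha : ∀ j, LeviGap (a j)) : LeviGap a := by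
  classical
  haveI := Fintype.ofFinite J
  refine leviGap_family (fun j => MonoidHom.mulSingle F j) (fun j => ?_) (fun i j hij x y => ?_)
    ?_ (fun j => ⟨a j, ha j, fun l hl => ?_⟩)
  · exact (continuous_mulSingle j).continuousAt
  · exact Pi.mulSingle_commute hij x y
  · intro 𝓗 _ _ _ σ hσ ξ hξ g
    have key : ∀ s : Finset J, σ (fun j => if j ∈ s then g j else 1) ξ = ξ := by
      intro s
      induction s using Finset.induction_on with
      | empty =>
        have e : (fun j => if j ∈ (∅ : Finset J) then g j else 1) = (1 : ∀ j, F j) := by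
          funext j; simp
        rw [e, URep.one_apply]
      | insert j s hj ih =>
        have e : (fun i => if i ∈ insert j s then g i else 1) =
            Pi.mulSingle j (g j) * fun i => if i ∈ s then g i else (1 : F i) := by
          funext i
          rw [Pi.mul_apply]
          by_cases hi : i = j
          · subst hi
            rw [Pi.mulSingle_eq_same, if_pos (Finset.mem_insert_self _ _), if_neg hj, mul_one]
          · rw [Pi.mulSingle_eq_of_ne hi, one_mul]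
            by_cases his : i ∈ s
            · rw [if_pos (Finset.mem_insert_of_mem his), if_pos his]
            · rw [if_neg (fun h => (Finset.mem_insert.1 h).elim hi his), if_neg his]
        rw [e, URep.mul_apply, ih]
        exact hξ j (g j)
    have e : (fun j => if j ∈ (Finset.univ : Finset J) then g j else 1) = g := by
      funext j; simp
    rw [← e]
    exact key _
  · have h1 : l * a j = a j * l := hl
    refine funext fun i => ?_
    change Pi.mulSingle j l i * a i = a i * Pi.mulSingle j l i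
    by_cases hi : i = j
    · subst hi
      rw [Pi.mulSingle_eq_same, h1]
    · rw [Pi.mulSingle_eq_of_ne hi, one_mul, mul_one]

/-- the unit element of `SL_n(k)`, `n ≥ 3` -/
theorem leviGap_one {n : ℕ} {k : Type} [NontriviallyNormedField k] (hk : LocK k) (hn : 3 ≤ n) :
    LeviGap (1 : SpecialLinearGroup (Fin n) k) := by
  refine leviGap_diag hk hn (j := ⟨0, by omega⟩) (l := ⟨1, by omega⟩) (by simp)
    (d := fun _ => 1) ?_ rfl
  rw [Matrix.diagonal_one]
  rfl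

/-- **mixed products**: a wall element (of any type) of one factor of `Π_j SL_(n_j)(k_j)`,
`n_j ≥ 3`, `k_j` any local fields -/
theorem leviGap_single {J : Type} [Finite J] [DecidableEq J] {n : J → ℕ} {k : J → Type}
    [∀ j, NontriviallyNormedField (k j)] (hk : ∀ j, LocK (k j)) (hn : ∀ j, 3 ≤ n j) (j : J)
    (w : (k j)ˣ) (I : Finset (Fin (n j))) :
    LeviGap (Pi.mulSingle j (wJ w I) : ∀ j, SpecialLinearGroup (Fin (n j)) (k j)) := by
  refine leviGap_pi fun i => ?_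
  by_cases hi : i = j
  · subst hi
    rw [Pi.mulSingle_eq_same]
    exact leviGap_wJ (hk i) (hn i) w I
  · rw [Pi.mulSingle_eq_of_ne hi]
    exact leviGap_one (hk i) (hn i)

end prod

end Vale.Agent.P092.H725.SN
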