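import Vale.Agent.P092.H725.SN.Gap

/-!
P092 (helper725), team N, [N-SIZE], third part: the source group `S` acts through a homomorphism
`p : S →* E` into the group `E` which contains the lattice. The only input is the ergodicity of
`p (S)` on the finite algebra (for `p = id` it is automatic, `gap_fin'`).
-/

set_option linter.all false

open scoped InnerProductSpace ENNReal
open Set Filter Topology MeasureTheory ContinuousLinearMap
open Matrix (SpecialLinearGroup)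

namespace Vale.Agent.P092.H725.SN

open Vale.Agent.P092.H790 Vale.Agent.P092.H85
open Vale.Agent.P092.H160 Vale.Agent.P092.H933 Vale.Agent.P092.H368 Vale.Agent.P092.H103
open Vale.Agent.P092.SD (Ms)
open Vale.Agent.P092.H725
open Vale.Agent.P092.SR Vale.Agent.P092.H839
open Vale.Agent.P092.RC (Cm KK pic lam₁ lam₂ XX Om)

section gap

variable {E : Type} [Group E] [TopologicalSpace E] [IsTopologicalGroup E] [LocallyCompactSpace E]
  [SecondCountableTopology E] [T2Space E] [MeasurableSpace E] [BorelSpace E]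
  {Λ : Subgroup E} [DiscreteTopology Λ] [MeasurableSpace (E ⧸ Λ)] [BorelSpace (E ⧸ Λ)]
  {ν : Measure (E ⧸ Λ)} [IsProbabilityMeasure ν]
  (hν : ∀ g : E, ν.map (fun x => g • x) = ν)
  {Γ K : Type} [Group Γ] [NormedAddCommGroup K] [InnerProductSpace ℂ K] [CompleteSpace K]
  {ρ : Γ →* (K →L[ℂ] K)} {ω : K} [Countable Λ] [Countable Γ]
  {V : Λ →* (K →L[ℂ] K)} (hVa : ∀ v, adjoint (V v) = V v⁻¹)
  {S : Type} [Group S] [TopologicalSpace S] (p : S →* E)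

include hVa in
/-- The vectors `x Ω - τ(x) Ω` are orthogonal to the vectors fixed by `p (S)`. -/
theorem sg_orth_p (h : RegRep ρ ω) (hc : ∀ v, Cmm ρ (V v))
    (herg : ∀ T ∈ FinM ν h.adj, (∀ s : S, T * irep hν hVa (p s) = irep hν hVa (p s) * T) →
      ∃ c : ℂ, T = c • 1)
    {x : Lp K 2 ν →L[ℂ] Lp K 2 ν} (hx : x ∈ FinM ν h.adj)
    {η : Lp K 2 ν} (hη : ∀ s, sg hν hVa h hc (p s) η = η) :
    ⟪η, x (Lp.const 2 ν ω) - ⟪Lp.const 2 ν ω, x (Lp.const 2 ν ω)⟫_ℂ • Lp.const 2 ν ω⟫_ℂ = 0 := by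
  have hU := sg_urep hν hVa h hc
  obtain ⟨Ω, hΩ⟩ : ∃ Ω : Lp K 2 ν, Ω = Lp.const 2 ν ω := ⟨_, rfl⟩
  -- the convex set
  obtain ⟨S', hS⟩ : ∃ S' : Set (Lp K 2 ν), S' = {y | ∃ T ∈ FinM ν h.adj, ‖T‖ ≤ ‖x‖ ∧
      (∀ w : Lp K 2 ν, (∀ s, sg hν hVa h hc (p s) w = w) → ⟪w, T Ω⟫_ℂ = ⟪w, x Ω⟫_ℂ) ∧
        T Ω = y} := ⟨_, rfl⟩
  have hfixΩ : ∀ g, sg hν hVa h hc g Ω = Ω := by
    intro g
    have h1 := sg_apply hν hVa h hc g (T := 1) (one_mem _)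
    rw [mul_one, ← map_mul, mul_inv_cancel, map_one] at h1
    rw [hΩ]
    exact h1
  have hne : S'.Nonempty := ⟨x Ω, by
    rw [hS]
    exact ⟨x, hx, le_rfl, fun w _ => rfl, rfl⟩⟩
  have hconv : ∀ x ∈ S', ∀ y ∈ S', ∀ s t : ℝ, 0 ≤ s → 0 ≤ t → s + t = 1 →
      (s : ℂ) • x + (t : ℂ) • y ∈ S' := by
    rw [hS]
    rintro _ ⟨T, hT, hT1, hT2, rfl⟩ _ ⟨T', hT', hT1', hT2', rfl⟩ s t hs ht hst
    refine ⟨(s : ℂ) • T + (t : ℂ) • T', add_mem ((FinM ν h.adj).smul_mem hT _)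
      ((FinM ν h.adj).smul_mem hT' _), ?_, fun w hw => ?_, ?_⟩
    · refine (norm_add_le _ _).trans ?_
      rw [norm_smul, norm_smul, Complex.norm_real, Complex.norm_real, Real.norm_of_nonneg hs,
        Real.norm_of_nonneg ht]
      calc s * ‖T‖ + t * ‖T'‖ ≤ s * ‖x‖ + t * ‖x‖ := by gcongr
        _ = ‖x‖ := by rw [← add_mul, hst, one_mul]
    · rw [add_apply, smul_apply, smul_apply, inner_add_right, inner_smul_right, inner_smul_right,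
        hT2 w hw, hT2' w hw, ← add_mul, ← Complex.ofReal_add, hst, Complex.ofReal_one, one_mul]
    · rw [add_apply, smul_apply, smul_apply]
  have hinv : ∀ g, ∀ y ∈ S', ((sg hν hVa h hc).comp p) g y ∈ S' := by
    rw [hS]
    rintro g _ ⟨T, hT, hT1, hT2, rfl⟩
    refine ⟨irep hν hVa (p g) * T * irep hν hVa (p g)⁻¹, conj_mem hν hVa h hc (p g) hT,
      (norm_conj_le hν hVa (p g) T).trans hT1, fun w hw => ?_, ?_⟩
    · rw [← hT2 w hw, hΩ, ← sg_apply hν hVa h hc (p g) hT, hU.inner_right, ← map_inv p, hw]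
    · rw [hΩ, ← sg_apply hν hVa h hc (p g) hT]
      rfl
  obtain ⟨ζ, hζ, hζf⟩ := exists_fixed_min (σ := (sg hν hVa h hc).comp p)
    (fun g ξ => hU.iso (p g) ξ) hne hconv hinv
  obtain ⟨z₀, hz₀, hz₀l⟩ := mem_closure_iff_seq_limit.1 hζ
  have hz₀' : ∀ n, ∃ T ∈ FinM ν h.adj, ‖T‖ ≤ ‖x‖ ∧
      (∀ w : Lp K 2 ν, (∀ s, sg hν hVa h hc (p s) w = w) → ⟪w, T Ω⟫_ℂ = ⟪w, x Ω⟫_ℂ) ∧
        T Ω = z₀ n := by
    intro n
    have := hz₀ n
    rwa [hS] at this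
  choose T hT hT1 hT2 hT3 using hz₀'
  have hlim : Tendsto (fun n => T n (Lp.const 2 ν ω)) atTop (𝓝 ζ) := by
    rw [← hΩ]
    simp only [hT3]
    exact hz₀l
  obtain ⟨z, hz, -, hzΩ⟩ := FinM.lim h hT hT1 hlim
  have hzc : ∀ s, irep hν hVa (p s) * z * irep hν hVa (p s)⁻¹ = z := by
    intro s
    refine FinM.ext h (conj_mem hν hVa h hc (p s) hz) hz ?_
    rw [← sg_apply hν hVa h hc (p s) hz, hzΩ]
    exact hζf s
  obtain ⟨c, hc'⟩ := herg z hz (by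
    intro s
    have h1 := hzc s
    have h2 : irep hν hVa (p s)⁻¹ * irep hν hVa (p s) = 1 := by
      rw [← map_mul, inv_mul_cancel, map_one]
    have h3 : z * irep hν hVa (p s) = irep hν hVa (p s) * z := by
      calc z * irep hν hVa (p s) =
          irep hν hVa (p s) * z * irep hν hVa (p s)⁻¹ * irep hν hVa (p s) := by rw [h1]
        _ = _ := by rw [mul_assoc, h2, mul_one]
    exact h3)
  have hζc : ζ = c • Ω := by
    rw [← hzΩ, hc', hΩ]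
    rfl
  have hlw : ∀ w : Lp K 2 ν, (∀ s, sg hν hVa h hc (p s) w = w) → ⟪w, ζ⟫_ℂ = ⟪w, x Ω⟫_ℂ := by
    intro w hw
    have h1 : Tendsto (fun n => ⟪w, z₀ n⟫_ℂ) atTop (𝓝 ⟪w, ζ⟫_ℂ) :=
      tendsto_const_nhds.inner hz₀l
    refine tendsto_nhds_unique h1 ?_
    have e : (fun n => ⟪w, z₀ n⟫_ℂ) = fun _ => ⟪w, x Ω⟫_ℂ := by
      funext n
      rw [← hT3 n, hT2 n w hw]
    rw [e]
    exact tendsto_const_nhds
  have hcv : c = ⟪Ω, x Ω⟫_ℂ := by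
    have h1 := hlw Ω fun s => hfixΩ (p s)
    rw [hζc, inner_smul_right, inner_self_eq_norm_sq_to_K, hΩ, norm_const h] at h1
    simp only [RCLike.ofReal_one, one_pow, mul_one] at h1
    rw [hΩ]
    exact h1
  rw [← hΩ, ← hcv, ← hζc, inner_sub_right, hlw η hη, sub_self]

include hVa in
/-- **the gap hypothesis of the growth lemma for `p b`**, `b` an element of the acting group -/
theorem gap_fin_p (hp : ContinuousAt p 1) (h : RegRep ρ ω) (hc : ∀ v, Cmm ρ (V v))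
    (herg : ∀ T ∈ FinM ν h.adj, (∀ s : S, T * irep hν hVa (p s) = irep hν hVa (p s) * T) →
      ∃ c : ℂ, T = c • 1) {b : S} (hb : LeviGap b) :
    Gap (irep hν hVa) (FinM ν h.adj) (Lp.const 2 ν ω) (p b) := by
  intro η hη
  have hU := sg_urep hν hVa h hc
  obtain ⟨k, hk, l, hl, hl'⟩ := hb (Lp K 2 ν) ((sg hν hVa h hc).comp p) (hU.comp p hp) (η / 2)
    (by positivity)
  refine ⟨k, hk, fun i => p (l i), fun i => (hl i).map p, fun x hx hx1 => ?_⟩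
  obtain ⟨Ω, hΩ⟩ : ∃ Ω : Lp K 2 ν, Ω = Lp.const 2 ν ω := ⟨_, rfl⟩
  have h1 := hl' (x Ω - ⟪Ω, x Ω⟫_ℂ • Ω) (fun w hw => by
    rw [hΩ]
    exact sg_orth_p hν hVa p h hc herg hx fun s => hw s)
  have hΩ1 : ‖Ω‖ = 1 := by rw [hΩ]; exact norm_const h
  have hxΩ : ‖x Ω‖ ≤ 1 := by
    refine (x.le_opNorm _).trans ?_
    rw [hΩ1, mul_one]; exact hx1
  have h2 : ‖x Ω - ⟪Ω, x Ω⟫_ℂ • Ω‖ ≤ 2 := by
    refine (norm_sub_le _ _).trans ?_
    rw [norm_smul, hΩ1, mul_one]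
    have h3 : ‖⟪Ω, x Ω⟫_ℂ‖ ≤ 1 := by
      refine (norm_inner_le_norm _ _).trans ?_
      rw [hΩ1, one_mul]; exact hxΩ
    linarith
  have hfix : ∀ g, sg hν hVa h hc g Ω = Ω := by
    intro g
    have h1 := sg_apply hν hVa h hc g (T := 1) (one_mem _)
    rw [mul_one, ← map_mul, mul_inv_cancel, map_one] at h1
    rw [hΩ]
    exact h1
  have hk' : (k : ℂ) ≠ 0 := by exact_mod_cast hk.ne'
  have e : (((k : ℂ)⁻¹) • ∑ i, irep hν hVa (p (l i)) * x * irep hν hVa (p (l i))⁻¹) Ω -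
      ⟪Ω, x Ω⟫_ℂ • Ω =
        ((k : ℂ))⁻¹ • ∑ i, ((sg hν hVa h hc).comp p) (l i) (x Ω - ⟪Ω, x Ω⟫_ℂ • Ω) := by
    have e1 : ∀ i, ((sg hν hVa h hc).comp p) (l i) (x Ω - ⟪Ω, x Ω⟫_ℂ • Ω) =
        (irep hν hVa (p (l i)) * x * irep hν hVa (p (l i))⁻¹) Ω - ⟪Ω, x Ω⟫_ℂ • Ω := by
      intro i
      change sg hν hVa h hc (p (l i)) _ = _
      rw [map_sub, map_smul, hfix, hΩ, sg_apply hν hVa h hc (p (l i)) hx]
    simp only [e1]
    rw [Finset.sum_sub_distrib, smul_sub, Finset.sum_const, Finset.card_univ, Fintype.card_fin,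
      ← Nat.cast_smul_eq_nsmul ℂ, smul_smul (((k : ℕ) : ℂ)⁻¹) ((k : ℕ) : ℂ), inv_mul_cancel₀ hk',
      one_smul, smul_apply, sum_apply]
  rw [← hΩ, e]
  calc _ ≤ η / 2 * ‖x Ω - ⟪Ω, x Ω⟫_ℂ • Ω‖ := h1
    _ ≤ η / 2 * 2 := by gcongr
    _ = η := by ring

end gap

section conc

variable {E : Type} [Group E] [TopologicalSpace E] [IsTopologicalGroup E] [LocallyCompactSpace E]
  [SecondCountableTopology E] [T2Space E] [MeasurableSpace E] [BorelSpace E]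
  {Λ : Subgroup E} [DiscreteTopology Λ] [MeasurableSpace (E ⧸ Λ)] [BorelSpace (E ⧸ Λ)]
  {ν : Measure (E ⧸ Λ)} [IsProbabilityMeasure ν]
  (hν : ∀ g : E, ν.map (fun x => g • x) = ν) [Countable Λ]
  {Γ Γ₂ K : Type} [Group Γ] [Group Γ₂] [Countable Γ] [Countable Γ₂] [NormedAddCommGroup K]
  [InnerProductSpace ℂ K] [CompleteSpace K] {ρ : Γ × Γ₂ →* (K →L[ℂ] K)} {ω : K}
  {V : Λ →* (K →L[ℂ] K)} {S : Type} [Group S] [TopologicalSpace S] (p : S →* E)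

/-- **Polynomial sizes**, the acting group `S` acts through `p : S →* E`. -/
theorem sz3_lp_p (hp : ContinuousAt p 1) (h : RegRep ρ ω) (hVa : ∀ v, adjoint (V v) = V v⁻¹)
    (hc : ∀ v, Cmm ρ (V v))
    (herg : ∀ T ∈ FinM ν h.adj, (∀ s : S, T * irep hν hVa (p s) = irep hν hVa (p s) * T) →
      ∃ c : ℂ, T = c • 1)
    (b : HilbertBasis (Γ × Γ₂) ℂ K) (hb : ∀ p, b p = ρ p ω)
    {lam : Γ →* (Lp K 2 ν →L[ℂ] Lp K 2 ν)} {W : Set (Lp K 2 ν →L[ℂ] Lp K 2 ν)}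
    (hM : Ms lam W (Lp.const 2 ν ω) (mm ν b Prod.fst))
    {D : ℕ → Set Γ} (hD : Flt D) {σ : Γ → ℝ} (hσ : ∀ J γ, γ ∈ D J → σ γ ≤ Real.exp J)
    {a : S} (ha : LeviGap a) :
    SZ3 (p a) (irep hν hVa) (Lp.const 2 ν ω) (mm ν b Prod.fst) σ := by
  have hD' : Flt (fun J => (MonoidHom.fst Γ Γ₂) ⁻¹' D J) := hD.comap _
  refine sz3_of hM (grD hν hVa h hc hD') ?_ ?_ ?_
  · intro J v hv
    refine mm_eq_zero b Prod.fst fun i hi => ?_
    rw [hb]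
    exact mem_SzV.1 hv i fun hmem => absurd (hσ J _ hmem) (not_le.2 hi)
  · intro g
    exact ((gap_fin_p hν hVa p hp h hc herg ha).conj (grD hν hVa h hc hD') g).inv
  · intro g ε hε
    exact kap_gl hν h hVa hc hD' g hε

end conc

section model

variable {E : Type} [Group E] [TopologicalSpace E] [IsTopologicalGroup E] [LocallyCompactSpace E]
  [SecondCountableTopology E] [T2Space E] [MeasurableSpace E] [BorelSpace E]
  {Γ : Subgroup E} [DiscreteTopology Γ] [Countable Γ] [MeasurableSpace (E ⧸ Γ)]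
  [BorelSpace (E ⧸ Γ)] {ν : Measure (E ⧸ Γ)} [IsProbabilityMeasure ν]
  (hν : ∀ g : E, ν.map (fun x => g • x) = ν)
  {Λ : Type} [Group Λ] {α : Γ →* (Ell2 Λ →L[ℂ] Ell2 Λ)} (hα : Frame α)
  {lam : Γ →* (KK ν Λ →L[ℂ] KK ν Λ)} {W : Set (KK ν Λ →L[ℂ] KK ν Λ)}
  (b : HilbertBasis (Γ × Γ) ℂ (Ell2 (Λ × Λ)))
  {S : Type} [Group S] [TopologicalSpace S] (p : S →* E)

/-- **Polynomial sizes, frame model, first leg**, the acting group `S` acts through `p`. -/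
theorem sz3_p₁ (hp : ContinuousAt p 1)
    (herg : ∀ T ∈ FinM ν (regRep_RR hα).adj,
      (∀ s : S, T * pic hν hα (p s) = pic hν hα (p s) * T) → ∃ c : ℂ, T = c • 1)
    (hb : ∀ γ s, b (γ, s) = RR₁ α γ (RR₂ α s (dl 1)))
    (hM : Ms lam W (Om ν Λ) (mm ν b Prod.fst))
    {D : ℕ → Set Γ} (hD : Flt D) {σ : Γ → ℝ} (hσ : ∀ J γ, γ ∈ D J → σ γ ≤ Real.exp J)
    {a : S} (ha : LeviGap a) :
    SZ3 a ((pic hν hα).comp p) (Om ν Λ) (mm ν b Prod.fst) σ :=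
  SZ3.comp p (sz3_lp_p hν p hp (regRep_RR hα) (adj_VV hα) (cmm_RR_VV hα) herg b
    (by rintro ⟨g, h⟩; rw [hb, RR_eq]; rfl) hM hD hσ ha)

/-- **Polynomial sizes, frame model, second leg**, the acting group `S` acts through `p`. -/
theorem sz3_p₂ (hp : ContinuousAt p 1)
    (herg : ∀ T ∈ FinM ν (regRep_RRs hα).adj,
      (∀ s : S, T * pic hν hα (p s) = pic hν hα (p s) * T) → ∃ c : ℂ, T = c • 1)
    (hb : ∀ γ s, b (γ, s) = RR₂ α γ (RR₁ α s (dl 1)))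
    (hM : Ms lam W (Om ν Λ) (mm ν b Prod.fst))
    {D : ℕ → Set Γ} (hD : Flt D) {σ : Γ → ℝ} (hσ : ∀ J γ, γ ∈ D J → σ γ ≤ Real.exp J)
    {a : S} (ha : LeviGap a) :
    SZ3 a ((pic hν hα).comp p) (Om ν Λ) (mm ν b Prod.fst) σ :=
  SZ3.comp p (sz3_lp_p hν p hp (regRep_RRs hα) (adj_VV hα) (cmm_RRs_VV hα) herg b
    (by rintro ⟨g, h⟩; rw [hb, RRs_eq]; rfl) hM hD hσ ha)

end model

end Vale.Agent.P092.H725.SN
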