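import Vale.Agent.P092.H725.SN.LegB

/-!
P092 (helper725), team N, two-field letters: `orb`, `orb'` use only the source field `kS`, `size`,
`size'` only the target field `k`.
-/

set_option linter.all false

open scoped InnerProductSpace ENNReal LinearAlgebra.Projectivization
open Set Filter Topology MeasureTheory ContinuousLinearMap Matrix

namespace Vale.Agent.P092.H725.SN

open Vale.Agent.P092.H160 Vale.Agent.P092.H933 Vale.Agent.P092.H368 Vale.Agent.P092.H103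
open Vale.Agent.P092.SD (Ms UC)
open Vale.Agent.P092.H725
open Vale.Agent.P092.SR Vale.Agent.P092.H839
open Vale.Agent.P092.RC (Cm KK pic lam₁ lam₂ XX Om GG PG YY ct)
open Vale.Agent.P092.SN (nm bw PH Adm un)
open Vale.Agent.P092.H790.CTA (SIZEG ORBG)
open Vale.Agent.P092.H368.SN (Spr md md_pos md_nonneg md_lt_one)

section two

variable {E : Type} [Group E] [TopologicalSpace E] [IsTopologicalGroup E] [LocallyCompactSpace E]
  [SecondCountableTopology E] [T2Space E] [MeasurableSpace E] [BorelSpace E]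
  {Γ : Subgroup E} [DiscreteTopology Γ] [Countable Γ] [MeasurableSpace (E ⧸ Γ)]
  [BorelSpace (E ⧸ Γ)] {ν : Measure (E ⧸ Γ)} [IsProbabilityMeasure ν]
  (hν : ∀ g : E, ν.map (fun x => g • x) = ν)
  {Λ : Type} [Group Λ] {α : Γ →* (Ell2 Λ →L[ℂ] Ell2 Λ)} (hα : Frame α)

/-! ### The source field -/

section source

variable {k : Type} [NontriviallyNormedField k] [ProperSpace k] [MeasurableSpace k] [BorelSpace k]
  {μ : Measure k} [μ.IsAddHaarMeasure] {N : ℕ}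
  {ι : GG k N →* E} {a a' : E →* PG k (N + 1)}

theorem orbN₁ (h : Adm ι a a') {w : kˣ} (hw : ‖(w : k)‖ < 1) {j : Fin (N + 1)}
    (hj : (0 : Fin (N + 1)) ≠ j) :
    (∃ ρ : ℝ, 0 < ρ ∧ ρ < 1 ∧ ORBG μ (ι (bw w)) (fun s => ι (un hj s)) ρ (pic hν hα)
      (lam₁ ν α) (XX ν Λ ∪ Set.range (lam₂ ν α)) (Om ν Λ)) ∧
    ∃ ρ : ℝ, 0 < ρ ∧ ρ < 1 ∧ ORBG μ (ι (ct (bw w))) (fun s => ι (ct (un hj s))) ρ (pic hν hα)
      (lam₁ ν α) (XX ν Λ ∪ Set.range (lam₂ ν α)) (Om ν Λ) := by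
  have hr0 : 0 < md w ^ (N + 1) := pow_pos (md_pos w) _
  have hr1 : md w ^ (N + 1) < 1 := pow_lt_one₀ (md_nonneg w) (md_lt_one hw) (Nat.succ_ne_zero N)
  exact ⟨⟨_, hr0, hr1, H368.SN.orbE₁ hν hα (h.cι.comp (continuous_un hj)) (spr_bw h w hj)⟩,
    ⟨_, hr0, hr1, H368.SN.orbE₁ hν hα ((h.cι.comp H368.SN.ct_cont).comp (continuous_un hj))
      (spr_bw' h w hj)⟩⟩

theorem orbN₂ (h : Adm ι a a') {w : kˣ} (hw : ‖(w : k)‖ < 1) {j : Fin (N + 1)}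
    (hj : (0 : Fin (N + 1)) ≠ j) :
    (∃ ρ : ℝ, 0 < ρ ∧ ρ < 1 ∧ ORBG μ (ι (bw w)) (fun s => ι (un hj s)) ρ (pic hν hα)
      (lam₂ ν α) (XX ν Λ ∪ Set.range (lam₁ ν α)) (Om ν Λ)) ∧
    ∃ ρ : ℝ, 0 < ρ ∧ ρ < 1 ∧ ORBG μ (ι (ct (bw w))) (fun s => ι (ct (un hj s))) ρ (pic hν hα)
      (lam₂ ν α) (XX ν Λ ∪ Set.range (lam₁ ν α)) (Om ν Λ) := by
  have hr0 : 0 < md w ^ (N + 1) := pow_pos (md_pos w) _
  have hr1 : md w ^ (N + 1) < 1 := pow_lt_one₀ (md_nonneg w) (md_lt_one hw) (Nat.succ_ne_zero N)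
  exact ⟨⟨_, hr0, hr1, H368.SN.orbE₂ hν hα (h.cι.comp (continuous_un hj)) (spr_bw h w hj)⟩,
    ⟨_, hr0, hr1, H368.SN.orbE₂ hν hα ((h.cι.comp H368.SN.ct_cont).comp (continuous_un hj))
      (spr_bw' h w hj)⟩⟩

/-- the gaps of the two wall elements of the source -/
theorem gap_ct {w : kˣ} (ha : LeviGap (ι (bw w))) : LeviGap (ι (ct (bw w))) := by
  rw [ct_bw, map_inv]; exact ha.inv

end source

/-! ### The target field -/

section target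

variable (hΛ : ∀ s : Λ, s ≠ 1 → Set.Infinite {y : Λ | ∃ h, y = h * s * h⁻¹})
  {k : Type} [NontriviallyNormedField k] {N : ℕ}

include hΛ

/-- **sizes, first leg**: any element with the gap, any target field -/
theorem sizeN₁ {q : Γ → GG k N} (hq : PH q) {b : E} (hb : LeviGap b) :
    SIZEG b (pic hν hα) (Om ν Λ) (mS₁ ν hα) (fun γ => nm (q γ)) ∧
    SIZEG b (pic hν hα) (Om ν Λ) (mS₁ ν hα) (fun γ => nm (ct (q γ))) := by
  have h1 : SZ3 b (pic hν hα) (Om ν Λ) (mS₁ ν hα) (szq q) :=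
    sz3_N₁ hν hα hΛ (bF₁ hα) (bF₁_ap hα) (ms₁ hα) hq hb
  exact ⟨(h1.mono (ms₁ hα) fun γ => le_max_left _ _).exp_exp (ms₁ hα),
    (h1.mono (ms₁ hα) fun γ => le_max_right _ _).exp_exp (ms₁ hα)⟩

/-- **sizes, second leg** -/
theorem sizeN₂ {q : Γ → GG k N} (hq : PH q) {b : E} (hb : LeviGap b) :
    SIZEG b (pic hν hα) (Om ν Λ) (mS₂ ν hα) (fun γ => nm (q γ)) ∧
    SIZEG b (pic hν hα) (Om ν Λ) (mS₂ ν hα) (fun γ => nm (ct (q γ))) := by
  have h1 : SZ3 b (pic hν hα) (Om ν Λ) (mS₂ ν hα) (szq q) :=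
    sz3_N₂ hν hα hΛ (bF₂ hα) (bF₂_ap hα) (ms₂ hα) hq hb
  exact ⟨(h1.mono (ms₂ hα) fun γ => le_max_left _ _).exp_exp (ms₂ hα),
    (h1.mono (ms₂ hα) fun γ => le_max_right _ _).exp_exp (ms₂ hα)⟩

end target

end two

/-! ### The two-field form of `LegB` -/

/-- the fields `ms`, `uc`, `orb`, `orb'`, `size`, `size'` of a leg with source field `kS` and target
field `k` -/
structure LegB2 {kS k : Type} [NontriviallyNormedField kS] [NontriviallyNormedField k] {N M : ℕ}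
    {E Γ K : Type} [Group E] [TopologicalSpace E] [Group Γ] [NormedAddCommGroup K]
    [InnerProductSpace ℂ K] [CompleteSpace K] [MeasurableSpace kS] (μ : Measure kS) (w : kSˣ)
    (ι : GG kS N →* E) (π : E →* (K →L[ℂ] K)) (lam : Γ →* (K →L[ℂ] K))
    (W : Set (K →L[ℂ] K)) (Ω : K) (m : Set Γ → (K →L[ℂ] K)) (q : Γ → GG k M) : Prop where
  ms : Ms lam W Ω m
  uc : UC π W Ω m
  orb : ∀ {j : Fin (N + 1)} (hj : (0 : Fin (N + 1)) ≠ j), ∃ ρ : ℝ, 0 < ρ ∧ ρ < 1 ∧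
    ORBG μ (ι (bw w)) (fun s => ι (un hj s)) ρ π lam W Ω
  orb' : ∀ {j : Fin (N + 1)} (hj : (0 : Fin (N + 1)) ≠ j), ∃ ρ : ℝ, 0 < ρ ∧ ρ < 1 ∧
    ORBG μ (ι (ct (bw w))) (fun s => ι (ct (un hj s))) ρ π lam W Ω
  size : SIZEG (ι (bw w)) π Ω m fun γ => nm (q γ)
  size' : SIZEG (ι (ct (bw w))) π Ω m fun γ => nm (ct (q γ))

section legb2

variable {kS : Type} [NontriviallyNormedField kS] [ProperSpace kS] [MeasurableSpace kS]
  [BorelSpace kS] {μ : Measure kS} [μ.IsAddHaarMeasure] {N M : ℕ}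
  {k : Type} [NontriviallyNormedField k]
  {E : Type} [Group E] [TopologicalSpace E] [IsTopologicalGroup E] [LocallyCompactSpace E]
  [SecondCountableTopology E] [T2Space E] [MeasurableSpace E] [BorelSpace E]
  {ι : GG kS N →* E} {a a' : E →* PG kS (N + 1)}
  {Γ : Subgroup E} [DiscreteTopology Γ] [Countable Γ] [MeasurableSpace (E ⧸ Γ)]
  [BorelSpace (E ⧸ Γ)] {ν : Measure (E ⧸ Γ)} [IsProbabilityMeasure ν]
  (hν : ∀ g : E, ν.map (fun x => g • x) = ν)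
  {Λ : Type} [Group Λ] {α : Γ →* (Ell2 Λ →L[ℂ] Ell2 Λ)} (hα : Frame α)
  (hΛ : ∀ s : Λ, s ≠ 1 → Set.Infinite {y : Λ | ∃ h, y = h * s * h⁻¹})

include hΛ

/-- **the six fields, two fields, first leg** -/
theorem legB2₁ (h : Adm ι a a') {w : kSˣ} (hw : ‖(w : kS)‖ < 1) {q : Γ → GG k M} (hq : PH q)
    (ha : LeviGap (ι (bw w))) :
    LegB2 μ w ι (pic hν hα) (lam₁ ν α) (XX ν Λ ∪ Set.range (lam₂ ν α)) (Om ν Λ) (mS₁ ν hα) q where
  ms := ms₁ hα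
  uc := uc₁ hν hα
  orb := fun hj => (orbN₁ hν hα h hw hj).1
  orb' := fun hj => (orbN₁ hν hα h hw hj).2
  size := (sizeN₁ hν hα hΛ hq ha).1
  size' := (sizeN₁ hν hα hΛ hq (gap_ct ha)).2

/-- **the six fields, two fields, second leg** -/
theorem legB2₂ (h : Adm ι a a') {w : kSˣ} (hw : ‖(w : kS)‖ < 1) {q : Γ → GG k M} (hq : PH q)
    (ha : LeviGap (ι (bw w))) :
    LegB2 μ w ι (pic hν hα) (lam₂ ν α) (XX ν Λ ∪ Set.range (lam₁ ν α)) (Om ν Λ) (mS₂ ν hα) q where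
  ms := ms₂ hα
  uc := uc₂ hν hα
  orb := fun hj => (orbN₂ hν hα h hw hj).1
  orb' := fun hj => (orbN₂ hν hα h hw hj).2
  size := (sizeN₂ hν hα hΛ hq ha).1
  size' := (sizeN₂ hν hα hΛ hq (gap_ct ha)).2

end legb2

end Vale.Agent.P092.H725.SN
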