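import Vale.Agent.P092.H725.SN.Leg2
import Vale.Agent.P092.H421.GrT7
import Vale.Agent.P092.H958.OrbT
import Vale.Agent.P092.SNT.Amp

/-!
P092 (helper725), team N, all amplifications: the fields `orb`, `orb'`, `size`, `size'` of
`SNT.LegNF` for the picture `L²(E ⧸ Γ; HH(α, β, γ))` and any finite Parseval family, for a lattice
in any admissible source group and for target maps which are homomorphisms modulo scalars; the
field of the source and the field of the target may be different.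
-/

set_option linter.all false

open scoped InnerProductSpace ENNReal LinearAlgebra.Projectivization
open Set Filter Topology MeasureTheory ContinuousLinearMap Matrix

namespace Vale.Agent.P092.H725.SN

open Vale.Agent.P092.H160 Vale.Agent.P092.H34 Vale.Agent.P092.H962
open Vale.Agent.P092.H34.Ind (Xset)
open Vale.Agent.P092.H933 Vale.Agent.P092.H725 Vale.Agent.P092.H103 Vale.Agent.P092.H85
open Vale.Agent.P092.SR
open Vale.Agent.P092.SD (Ms UC MsF)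
open Vale.Agent.P092.RC (Cm GG PG YY ct)
open Vale.Agent.P092.SN (nm bw PH Adm un)
open Vale.Agent.P092.SNT (ORBGF)
open Vale.Agent.P092.H790.CTA (SIZEG ORBG)
open Vale.Agent.P092.H368.SN (Spr md md_pos md_nonneg md_lt_one)
open Vale.Agent.P092.H421.GrT (MskL sz3_mono sz3_exp_exp sz3_HH₁ sz3_HH₂)

/-- the fields `orb`, `orb'`, `size`, `size'` of `LegNF`, source field `kS`, target field `k` -/
structure LegBF {kS k : Type} [NontriviallyNormedField kS] [NontriviallyNormedField k] {N M : ℕ}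
    {E Γ K ι : Type} [Fintype ι] [Group E] [TopologicalSpace E] [Group Γ] [NormedAddCommGroup K]
    [InnerProductSpace ℂ K] [CompleteSpace K] [MeasurableSpace kS] (μ : Measure kS) (w : kSˣ)
    (ι₀ : GG kS N →* E) (π : E →* (K →L[ℂ] K)) (lam : Γ →* (K →L[ℂ] K))
    (W : Set (K →L[ℂ] K)) (Ω : ι → K) (m : Set Γ → (K →L[ℂ] K)) (q : Γ → GG k M) : Prop where
  orb : ∀ {j : Fin (N + 1)} (hj : (0 : Fin (N + 1)) ≠ j), ∃ ρ : ℝ, 0 < ρ ∧ ρ < 1 ∧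
    ORBGF μ (ι₀ (bw w)) (fun s => ι₀ (un hj s)) ρ π lam W Ω
  orb' : ∀ {j : Fin (N + 1)} (hj : (0 : Fin (N + 1)) ≠ j), ∃ ρ : ℝ, 0 < ρ ∧ ρ < 1 ∧
    ORBGF μ (ι₀ (ct (bw w))) (fun s => ι₀ (ct (un hj s))) ρ π lam W Ω
  size : ∀ i, SIZEG (ι₀ (bw w)) π (Ω i) m fun γ => nm (q γ)
  size' : ∀ i, SIZEG (ι₀ (ct (bw w))) π (Ω i) m fun γ => nm (ct (q γ))

section legbf

variable {E : Type} [Group E] [TopologicalSpace E] [IsTopologicalGroup E] [LocallyCompactSpace E]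
  [SecondCountableTopology E] [T2Space E] [MeasurableSpace E] [BorelSpace E]
  {Γ : Subgroup E} [DiscreteTopology Γ] [Countable Γ] [MeasurableSpace (E ⧸ Γ)]
  [BorelSpace (E ⧸ Γ)] {ν : Measure (E ⧸ Γ)} [IsProbabilityMeasure ν]
  (hν : ∀ g : E, ν.map (fun x => g • x) = ν)
  {Λ I J K : Type} [Group Λ] [Countable Λ] [Fintype I] [Fintype J] [Fintype K]
  {α : Γ → (Ell2 (I × Λ) →L[ℂ] Ell2 (I × Λ))} {β : Γ → (Ell2 (J × Λ) →L[ℂ] Ell2 (J × Λ))}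
  {γ : Γ → (Ell2 (K × Λ) →L[ℂ] Ell2 (K × Λ))} (hα : AF α) (hβ : AF β) (hγ : AF γ)
  {ι : Type} [Fintype ι] {ξ : ι → HH (PT α β γ)}

/-! ### The target field -/

section target

variable (hΓ : ∀ g : Γ, g ≠ 1 → Set.Infinite {y : Γ | ∃ h, y = h * g * h⁻¹})
  (hΛ : ∀ s : Λ, s ≠ 1 → Set.Infinite {y : Λ | ∃ h, y = h * s * h⁻¹})
  {k : Type} [NontriviallyNormedField k] {M : ℕ}

include hΓ hΛ

/-- **sizes, first leg, all amplifications**: any element with the gap, any target field -/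
theorem size_HH₁ {q : Γ → GG k M} (hq : PH q) {b : E} (hb : LeviGap b)
    (hT : Tri (V3 hα hβ hγ) (A3R hα hβ hγ) (B3R hα hβ hγ) ξ)
    {m : Set Γ → (Lp (HH (PT α β γ)) 2 (cdat ν hν).μ →L[ℂ] Lp (HH (PT α β γ)) 2 (cdat ν hν).μ)}
    (hM : MskL (Ind.lam (cdat ν hν) (A3R hα hβ hγ)) (Xset (cdat ν hν) (HH (PT α β γ)) ∪
      Set.range (Ind.lam (cdat ν hν) (B3R hα hβ hγ))) (AmpE.nrm hν ξ) m) (i : ι) :
    SIZEG b (Ind.pi (cdat ν hν) (V := V3 hα hβ hγ) hT.adjV) (AmpE.nrm hν ξ i) m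
        (fun γ => nm (q γ)) ∧
      SIZEG b (Ind.pi (cdat ν hν) (V := V3 hα hβ hγ) hT.adjV) (AmpE.nrm hν ξ i) m
        (fun γ => nm (ct (q γ))) := by
  have h1 := sz3_HH₁ hν hα hβ hγ hΓ hΛ hT.adjV hT hM (flt_Dq hq) (Dq_le hq) hb i
  exact ⟨sz3_exp_exp hM (sz3_mono hM h1 fun γ => le_max_left _ _),
    sz3_exp_exp hM (sz3_mono hM h1 fun γ => le_max_right _ _)⟩

/-- **sizes, second leg, all amplifications** -/
theorem size_HH₂ {q : Γ → GG k M} (hq : PH q) {b : E} (hb : LeviGap b)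
    (hT : Tri (V3 hα hβ hγ) (B3R hα hβ hγ) (A3R hα hβ hγ) ξ)
    {m : Set Γ → (Lp (HH (PT α β γ)) 2 (cdat ν hν).μ →L[ℂ] Lp (HH (PT α β γ)) 2 (cdat ν hν).μ)}
    (hM : MskL (Ind.lam (cdat ν hν) (B3R hα hβ hγ)) (Xset (cdat ν hν) (HH (PT α β γ)) ∪
      Set.range (Ind.lam (cdat ν hν) (A3R hα hβ hγ))) (AmpE.nrm hν ξ) m) (i : ι) :
    SIZEG b (Ind.pi (cdat ν hν) (V := V3 hα hβ hγ) hT.adjV) (AmpE.nrm hν ξ i) m
        (fun γ => nm (q γ)) ∧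
      SIZEG b (Ind.pi (cdat ν hν) (V := V3 hα hβ hγ) hT.adjV) (AmpE.nrm hν ξ i) m
        (fun γ => nm (ct (q γ))) := by
  have h1 := sz3_HH₂ hν hα hβ hγ hΓ hΛ hT.adjV hT hM (flt_Dq hq) (Dq_le hq) hb i
  exact ⟨sz3_exp_exp hM (sz3_mono hM h1 fun γ => le_max_left _ _),
    sz3_exp_exp hM (sz3_mono hM h1 fun γ => le_max_right _ _)⟩

end target

/-! ### The source field -/

section source

variable {k : Type} [NontriviallyNormedField k] [ProperSpace k] [MeasurableSpace k] [BorelSpace k]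
  {μ : Measure k} [μ.IsAddHaarMeasure] {N : ℕ}
  {ι₀ : GG k N →* E} {a a' : E →* PG k (N + 1)}

theorem orb_HHN (h : Adm ι₀ a a') {w : kˣ} (hw : ‖(w : k)‖ < 1)
    (hT : Tri (V3 hα hβ hγ) (A3R hα hβ hγ) (B3R hα hβ hγ) ξ) {j : Fin (N + 1)}
    (hj : (0 : Fin (N + 1)) ≠ j) :
    (∃ ρ : ℝ, 0 < ρ ∧ ρ < 1 ∧ ORBGF μ (ι₀ (bw w)) (fun s => ι₀ (un hj s)) ρ
      (Ind.pi (cdat ν hν) (V := V3 hα hβ hγ) hT.adjV)
      (Ind.lam (cdat ν hν) (A3R hα hβ hγ)) (Xset (cdat ν hν) (HH (PT α β γ)) ∪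
      Set.range (Ind.lam (cdat ν hν) (B3R hα hβ hγ))) (AmpE.nrm hν ξ)) ∧
    ∃ ρ : ℝ, 0 < ρ ∧ ρ < 1 ∧ ORBGF μ (ι₀ (ct (bw w))) (fun s => ι₀ (ct (un hj s))) ρ
      (Ind.pi (cdat ν hν) (V := V3 hα hβ hγ) hT.adjV)
      (Ind.lam (cdat ν hν) (A3R hα hβ hγ)) (Xset (cdat ν hν) (HH (PT α β γ)) ∪
      Set.range (Ind.lam (cdat ν hν) (B3R hα hβ hγ))) (AmpE.nrm hν ξ) := by
  have hr0 : 0 < md w ^ (N + 1) := pow_pos (md_pos w) _
  have hr1 : md w ^ (N + 1) < 1 := pow_lt_one₀ (md_nonneg w) (md_lt_one hw) (Nat.succ_ne_zero N)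
  exact ⟨⟨_, hr0, hr1, H958.orb_HH hν hα hβ hγ (h.cι.comp (continuous_un hj))
      (spr_bw h w hj) hT⟩,
    ⟨_, hr0, hr1, H958.orb_HH hν hα hβ hγ
      ((h.cι.comp H368.SN.ct_cont).comp (continuous_un hj)) (spr_bw' h w hj) hT⟩⟩

end source

/-! ### The four fields -/

section four

variable (hΓ : ∀ g : Γ, g ≠ 1 → Set.Infinite {y : Γ | ∃ h, y = h * g * h⁻¹})
  (hΛ : ∀ s : Λ, s ≠ 1 → Set.Infinite {y : Λ | ∃ h, y = h * s * h⁻¹})
  {kS : Type} [NontriviallyNormedField kS] [ProperSpace kS] [MeasurableSpace kS] [BorelSpace kS]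
  {μ : Measure kS} [μ.IsAddHaarMeasure] {N M : ℕ}
  {k : Type} [NontriviallyNormedField k]
  {ι₀ : GG kS N →* E} {a a' : E →* PG kS (N + 1)}

include hΓ hΛ

/-- **`orb`, `orb'`, `size`, `size'`, first leg, all amplifications** -/
theorem legBF_HH₁ (h : Adm ι₀ a a') {w : kSˣ} (hw : ‖(w : kS)‖ < 1) {q : Γ → GG k M} (hq : PH q)
    (ha : LeviGap (ι₀ (bw w)))
    (hT : Tri (V3 hα hβ hγ) (A3R hα hβ hγ) (B3R hα hβ hγ) ξ)
    {m : Set Γ → (Lp (HH (PT α β γ)) 2 (cdat ν hν).μ →L[ℂ] Lp (HH (PT α β γ)) 2 (cdat ν hν).μ)}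
    (hM : MsF (Ind.lam (cdat ν hν) (A3R hα hβ hγ)) (Xset (cdat ν hν) (HH (PT α β γ)) ∪
      Set.range (Ind.lam (cdat ν hν) (B3R hα hβ hγ))) (AmpE.nrm hν ξ) m) :
    LegBF μ w ι₀ (Ind.pi (cdat ν hν) (V := V3 hα hβ hγ) hT.adjV)
      (Ind.lam (cdat ν hν) (A3R hα hβ hγ)) (Xset (cdat ν hν) (HH (PT α β γ)) ∪
      Set.range (Ind.lam (cdat ν hν) (B3R hα hβ hγ))) (AmpE.nrm hν ξ) m q where
  orb := fun hj => (orb_HHN hν hα hβ hγ h hw hT hj).1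
  orb' := fun hj => (orb_HHN hν hα hβ hγ h hw hT hj).2
  size := fun i => (size_HH₁ hν hα hβ hγ hΓ hΛ hq ha hT (MskL.of_msF hM) i).1
  size' := fun i => (size_HH₁ hν hα hβ hγ hΓ hΛ hq (gap_ct ha) hT (MskL.of_msF hM) i).2

end four

end legbf

end Vale.Agent.P092.H725.SN
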